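import Vale.Agent.P048.Engine

/-!
# P048: the certificates for the small configurations
-/

namespace Vale.Agent.P048

theorem cert0 : certb 9 5 (earPat 3 ++ (earPat 3 ++ [true]))
    [(0, 0, 1), (3, 1, 2), (4, 2, 2), (6, 0, 1), (7, 1, 2), (8, 0, 1)]
   [(0, 3, 8, [5, 6, 7, 8, 9, 4, 3]), (0, 3, 9, [5, 6, 7, 8, 9, 10, 4, 3]),
    (0, 4, 7, [5, 6, 7, 8, 9, 4]), (0, 4, 8, [5, 6, 7, 8, 9, 10, 4]),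
    (0, 6, 9, [1, 2, 3, 4, 9, 8, 7, 6]), (0, 7, 8, [1, 2, 3, 4, 5, 6, 7]),
    (0, 7, 9, [1, 2, 3, 4, 5, 9, 8, 7]), (0, 8, 9, [1, 2, 3, 4, 5, 6, 7, 8]),
    (1, 3, 9, [0, 5, 6, 7, 8, 9, 4, 3]), (1, 4, 8, [0, 5, 6, 7, 8, 9, 4]),
    (1, 4, 9, [0, 5, 6, 7, 8, 9, 10, 4]), (1, 7, 9, [2, 3, 4, 0, 5, 9, 8, 7]),
    (2, 4, 9, [1, 0, 5, 6, 7, 8, 9, 4]), (2, 7, 9, [1, 0, 4, 5, 10, 9, 8, 7]),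
    (3, 4, 6, [2, 1, 0, 5, 4]), (3, 4, 7, [2, 1, 0, 5, 9, 4]), (3, 4, 8, [2, 1, 0, 5, 9, 10, 4]),
    (3, 5, 9, [2, 1, 0, 9, 8, 7, 6, 5]), (3, 6, 8, [2, 1, 0, 4, 9, 5, 6]),
    (3, 6, 9, [2, 1, 0, 4, 9, 8, 7, 6]), (3, 7, 7, [2, 1, 0, 5, 6, 7]),
    (3, 7, 8, [2, 1, 0, 4, 5, 6, 7]), (3, 7, 9, [2, 1, 0, 4, 5, 9, 8, 7]),
    (3, 8, 8, [2, 1, 0, 4, 5, 9, 8]), (3, 8, 9, [2, 1, 0, 4, 5, 6, 7, 8]),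
    (3, 9, 9, [2, 1, 0, 5, 6, 7, 8, 9]), (4, 5, 8, [0, 10, 9, 8, 7, 6, 5]),
    (4, 6, 7, [0, 5, 9, 8, 7, 6]), (4, 6, 8, [0, 5, 10, 9, 8, 7, 6]),
    (4, 6, 9, [3, 2, 1, 0, 9, 8, 7, 6]), (4, 7, 6, [0, 5, 9, 8, 7]),
    (4, 7, 7, [0, 5, 10, 9, 8, 7]), (4, 7, 8, [3, 2, 1, 0, 5, 6, 7]),
    (4, 7, 9, [3, 2, 1, 0, 5, 9, 8, 7]), (4, 8, 7, [0, 9, 5, 6, 7, 8]),
    (4, 8, 8, [0, 9, 10, 5, 6, 7, 8]), (4, 9, 8, [0, 10, 5, 6, 7, 8, 9]),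
    (5, 7, 9, [0, 1, 2, 3, 4, 9, 8, 7]), (6, 7, 8, [5, 0, 4, 10, 9, 8, 7]),
    (6, 8, 9, [5, 0, 1, 2, 3, 4, 9, 8]), (7, 8, 8, [6, 5, 0, 4, 10, 9, 8]),
    (7, 9, 9, [6, 5, 0, 1, 2, 3, 4, 9])] = true := by
  decide +kernel

theorem cert1 : certb 10 5 (earPat 2 ++ earPat2 2 2)
    [(0, 0, 1), (1, 1, 2), (2, 0, 1), (5, 0, 1), (6, 1, 2), (8, 0, 1), (9, 1, 2)]
   [(0, 1, 9, [4, 5, 6, 7, 10, 3, 2, 1]), (0, 2, 10, [4, 5, 6, 7, 8, 9, 10, 3, 2]),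
    (0, 5, 10, [1, 2, 3, 7, 8, 9, 10, 4, 5]), (0, 6, 9, [1, 2, 3, 7, 10, 4, 5, 6]),
    (0, 6, 10, [1, 2, 3, 4, 10, 9, 8, 7, 6]), (0, 8, 10, [1, 2, 3, 10, 4, 5, 6, 7, 8]),
    (0, 9, 9, [1, 2, 3, 4, 10, 7, 8, 9]), (0, 9, 10, [1, 2, 3, 4, 5, 6, 7, 8, 9]),
    (1, 2, 9, [0, 4, 5, 6, 7, 10, 3, 2]), (1, 3, 10, [0, 4, 5, 6, 7, 8, 9, 10, 3]),
    (1, 4, 10, [0, 3, 10, 9, 8, 7, 6, 5, 4]), (1, 5, 9, [0, 3, 7, 8, 9, 10, 4, 5]),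
    (1, 5, 10, [0, 3, 4, 10, 9, 8, 7, 6, 5]), (1, 6, 8, [0, 3, 7, 10, 4, 5, 6]),
    (1, 6, 9, [0, 3, 4, 10, 9, 8, 7, 6]), (1, 6, 10, [0, 3, 7, 8, 9, 10, 4, 5, 6]),
    (1, 8, 9, [0, 3, 10, 4, 5, 6, 7, 8]), (1, 8, 10, [0, 3, 4, 5, 6, 7, 10, 9, 8]),
    (1, 9, 8, [0, 3, 4, 10, 7, 8, 9]), (1, 9, 9, [0, 3, 4, 5, 6, 7, 8, 9]),
    (1, 9, 10, [0, 3, 10, 4, 5, 6, 7, 8, 9]), (2, 5, 10, [1, 0, 3, 7, 8, 9, 10, 4, 5]),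
    (2, 6, 9, [1, 0, 3, 7, 10, 4, 5, 6]), (2, 6, 10, [1, 0, 3, 4, 10, 9, 8, 7, 6]),
    (2, 8, 10, [1, 0, 3, 10, 4, 5, 6, 7, 8]), (2, 9, 9, [1, 0, 3, 4, 10, 7, 8, 9]),
    (2, 9, 10, [1, 0, 3, 4, 5, 6, 7, 8, 9]), (3, 6, 10, [2, 1, 0, 4, 10, 9, 8, 7, 6]),
    (3, 9, 10, [2, 1, 0, 4, 5, 6, 7, 8, 9]), (4, 6, 10, [0, 1, 2, 3, 10, 9, 8, 7, 6]),
    (4, 9, 10, [5, 6, 7, 0, 1, 2, 3, 10, 9]), (5, 6, 9, [4, 0, 1, 2, 3, 10, 7, 6]),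
    (5, 8, 10, [4, 0, 1, 2, 3, 7, 10, 9, 8]), (5, 9, 9, [4, 0, 1, 2, 3, 7, 8, 9]),
    (5, 9, 10, [4, 0, 1, 2, 3, 10, 7, 8, 9]), (6, 8, 9, [5, 4, 0, 1, 2, 3, 7, 8]),
    (6, 8, 10, [5, 4, 0, 1, 2, 3, 10, 7, 8]), (6, 9, 8, [5, 4, 0, 3, 7, 8, 9]),
    (6, 9, 9, [5, 4, 0, 1, 2, 3, 10, 9]), (8, 9, 9, [7, 0, 1, 2, 3, 4, 10, 9])] = true := by
  decide +kernel

theorem cert2 : certb 10 5 (earPat 3 ++ (earPat 4 ++ [true]))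
    [(0, 0, 1), (3, 1, 2), (5, 1, 1), (6, 0, 1), (8, 0, 1), (9, 1, 2), (11, 2, 2)]
   [(0, 3, 9, [5, 6, 7, 8, 9, 10, 4, 3]), (0, 3, 10, [5, 6, 7, 8, 9, 10, 11, 4, 3]),
    (0, 5, 9, [4, 11, 10, 9, 8, 7, 6, 5]), (0, 6, 10, [1, 2, 3, 4, 10, 9, 8, 7, 6]),
    (0, 8, 10, [1, 2, 3, 4, 5, 11, 10, 9, 8]), (0, 9, 9, [1, 2, 3, 4, 5, 11, 10, 9]),
    (0, 9, 10, [1, 2, 3, 4, 5, 6, 7, 8, 9]), (0, 11, 8, [1, 2, 3, 4, 5, 10, 11]),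
    (0, 11, 9, [4, 5, 6, 7, 8, 9, 10, 11]), (1, 3, 10, [0, 5, 6, 7, 8, 9, 10, 4, 3]),
    (1, 5, 10, [0, 4, 11, 10, 9, 8, 7, 6, 5]), (1, 9, 10, [0, 4, 10, 11, 5, 6, 7, 8, 9]),
    (1, 11, 9, [0, 5, 6, 7, 8, 9, 10, 11]), (1, 11, 10, [0, 4, 5, 6, 7, 8, 9, 10, 11]),
    (2, 5, 10, [1, 0, 4, 10, 9, 8, 7, 6, 5]), (2, 9, 10, [1, 0, 4, 10, 5, 6, 7, 8, 9]),
    (2, 11, 10, [1, 0, 5, 6, 7, 8, 9, 10, 11]), (3, 5, 8, [2, 1, 0, 4, 10, 11, 5]),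
    (3, 5, 9, [4, 0, 10, 9, 8, 7, 6, 5]), (3, 5, 10, [2, 1, 0, 10, 9, 8, 7, 6, 5]),
    (3, 6, 9, [2, 1, 0, 4, 10, 11, 5, 6]), (3, 6, 10, [2, 1, 0, 4, 10, 9, 8, 7, 6]),
    (3, 7, 10, [2, 1, 0, 4, 5, 10, 9, 8, 7]), (3, 8, 9, [2, 1, 0, 4, 5, 6, 7, 8]),
    (3, 8, 10, [2, 1, 0, 4, 5, 11, 10, 9, 8]), (3, 9, 8, [2, 1, 0, 4, 5, 10, 9]),
    (3, 9, 9, [2, 1, 0, 4, 5, 11, 10, 9]), (3, 9, 10, [2, 1, 0, 4, 5, 6, 7, 8, 9]),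
    (3, 11, 7, [2, 1, 0, 4, 5, 11]), (3, 11, 8, [2, 1, 0, 4, 5, 10, 11]),
    (3, 11, 9, [4, 5, 6, 7, 8, 9, 10, 11]), (3, 11, 10, [4, 0, 5, 6, 7, 8, 9, 10, 11]),
    (4, 9, 10, [3, 2, 1, 0, 5, 6, 7, 8, 9]), (4, 11, 9, [0, 5, 6, 7, 8, 9, 10, 11]),
    (5, 6, 9, [0, 4, 11, 10, 9, 8, 7, 6]), (5, 8, 9, [0, 1, 2, 3, 4, 10, 9, 8]),
    (5, 9, 8, [0, 1, 2, 3, 4, 10, 9]), (5, 9, 9, [0, 1, 2, 3, 4, 11, 10, 9]),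
    (5, 11, 7, [0, 1, 2, 3, 4, 11]), (5, 11, 8, [0, 1, 2, 3, 4, 10, 11]),
    (5, 11, 9, [6, 7, 8, 9, 10, 0, 4, 11]), (6, 8, 10, [5, 0, 1, 2, 3, 4, 10, 9, 8]),
    (6, 9, 9, [5, 0, 1, 2, 3, 4, 10, 9]), (6, 9, 10, [5, 0, 1, 2, 3, 4, 11, 10, 9]),
    (6, 11, 8, [5, 0, 1, 2, 3, 4, 11]), (6, 11, 9, [5, 0, 1, 2, 3, 4, 10, 11]),
    (7, 9, 10, [6, 5, 0, 1, 2, 3, 4, 10, 9]), (8, 9, 9, [7, 6, 5, 0, 4, 11, 10, 9]),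
    (8, 11, 8, [7, 6, 5, 0, 4, 10, 11]), (8, 11, 9, [9, 10, 0, 1, 2, 3, 4, 11]),
    (9, 11, 7, [8, 7, 6, 5, 0, 11]), (9, 11, 8, [8, 7, 6, 5, 0, 4, 11]),
    (9, 11, 9, [8, 7, 6, 5, 0, 4, 10, 11])] = true := by
  decide +kernel

theorem cert3 : certb 10 5 (earPat 4 ++ (earPat 4 ++ [true]))
    [(0, 0, 1), (4, 1, 2), (5, 1, 1), (6, 1, 1), (7, 0, 1), (10, 0, 1), (11, 1, 1), (12, 1, 2)]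
   [(0, 4, 9, [6, 7, 8, 9, 10, 11, 5, 4]), (0, 4, 10, [6, 7, 8, 9, 10, 11, 12, 5, 4]),
    (0, 5, 9, [6, 7, 8, 9, 10, 11, 12, 5]), (0, 6, 9, [1, 2, 3, 4, 5, 11, 12, 6]),
    (0, 7, 10, [1, 2, 3, 4, 5, 11, 12, 6, 7]), (0, 10, 10, [1, 2, 3, 4, 5, 6, 12, 11, 10]),
    (0, 11, 9, [1, 2, 3, 4, 5, 6, 12, 11]), (0, 12, 9, [1, 2, 3, 4, 5, 6, 11, 12]),
    (1, 4, 10, [0, 6, 7, 8, 9, 10, 11, 5, 4]), (1, 5, 10, [0, 6, 7, 8, 9, 10, 11, 12, 5]),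
    (1, 6, 10, [0, 5, 12, 11, 10, 9, 8, 7, 6]), (1, 11, 10, [0, 5, 12, 6, 7, 8, 9, 10, 11]),
    (1, 12, 10, [0, 5, 6, 7, 8, 9, 10, 11, 12]), (2, 5, 10, [1, 0, 6, 7, 8, 9, 10, 11, 5]),
    (2, 6, 10, [1, 0, 5, 11, 10, 9, 8, 7, 6]), (2, 11, 10, [1, 0, 5, 6, 7, 8, 9, 10, 11]),
    (2, 12, 10, [1, 0, 6, 7, 8, 9, 10, 11, 12]), (3, 6, 10, [2, 1, 0, 11, 10, 9, 8, 7, 6]),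
    (3, 11, 10, [2, 1, 0, 6, 7, 8, 9, 10, 11]), (3, 12, 10, [4, 5, 6, 7, 8, 9, 10, 11, 12]),
    (4, 5, 8, [3, 2, 1, 0, 6, 11, 5]), (4, 5, 9, [3, 2, 1, 0, 6, 11, 12, 5]),
    (4, 6, 8, [3, 2, 1, 0, 5, 11, 6]), (4, 6, 9, [3, 2, 1, 0, 5, 11, 12, 6]),
    (4, 6, 10, [5, 0, 12, 11, 10, 9, 8, 7, 6]), (4, 7, 9, [3, 2, 1, 0, 5, 11, 6, 7]),
    (4, 7, 10, [3, 2, 1, 0, 5, 11, 12, 6, 7]), (4, 8, 10, [3, 2, 1, 0, 5, 11, 6, 7, 8]),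
    (4, 9, 10, [3, 2, 1, 0, 5, 6, 7, 8, 9]), (4, 10, 9, [3, 2, 1, 0, 5, 6, 11, 10]),
    (4, 10, 10, [3, 2, 1, 0, 5, 6, 12, 11, 10]), (4, 11, 8, [3, 2, 1, 0, 5, 6, 11]),
    (4, 11, 9, [3, 2, 1, 0, 5, 6, 12, 11]), (4, 11, 10, [5, 0, 12, 6, 7, 8, 9, 10, 11]),
    (4, 12, 8, [3, 2, 1, 0, 5, 6, 12]), (4, 12, 9, [3, 2, 1, 0, 5, 6, 11, 12]),
    (4, 12, 10, [5, 0, 6, 7, 8, 9, 10, 11, 12]), (5, 6, 8, [0, 11, 10, 9, 8, 7, 6]),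
    (5, 6, 9, [0, 12, 11, 10, 9, 8, 7, 6]), (5, 7, 9, [0, 6, 12, 11, 10, 9, 8, 7]),
    (5, 7, 10, [4, 3, 2, 1, 0, 11, 12, 6, 7]), (5, 8, 10, [4, 3, 2, 1, 0, 11, 6, 7, 8]),
    (5, 10, 9, [0, 11, 12, 6, 7, 8, 9, 10]), (5, 11, 8, [0, 6, 7, 8, 9, 10, 11]),
    (5, 11, 9, [0, 12, 6, 7, 8, 9, 10, 11]), (5, 12, 8, [4, 3, 2, 1, 0, 6, 12]),
    (5, 12, 9, [0, 6, 7, 8, 9, 10, 11, 12]), (6, 7, 9, [0, 5, 12, 11, 10, 9, 8, 7]),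
    (6, 10, 9, [0, 1, 2, 3, 4, 5, 11, 10]), (6, 11, 8, [0, 1, 2, 3, 4, 5, 11]),
    (6, 11, 9, [0, 1, 2, 3, 4, 5, 12, 11]), (6, 12, 8, [0, 1, 2, 3, 4, 5, 12]),
    (6, 12, 9, [0, 1, 2, 3, 4, 5, 11, 12]), (7, 10, 10, [6, 0, 1, 2, 3, 4, 5, 11, 10]),
    (7, 11, 9, [6, 0, 1, 2, 3, 4, 5, 11]), (7, 12, 9, [6, 0, 1, 2, 3, 4, 5, 12]),
    (7, 12, 10, [6, 0, 1, 2, 3, 4, 5, 11, 12]), (8, 12, 10, [7, 6, 0, 1, 2, 3, 4, 5, 12]),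
    (9, 12, 10, [10, 11, 0, 1, 2, 3, 4, 5, 12]), (10, 11, 9, [9, 8, 7, 6, 0, 5, 12, 11]),
    (10, 12, 9, [9, 8, 7, 6, 0, 5, 11, 12]), (10, 12, 10, [11, 0, 1, 2, 3, 4, 5, 6, 12]),
    (11, 12, 8, [0, 1, 2, 3, 4, 5, 12]), (11, 12, 9, [0, 1, 2, 3, 4, 5, 6, 12])] = true := by
  decide +kernel

theorem cert4 : certb 10 5 (earPat2 4 4 ++ [true, true])
    [(0, 0, 1), (1, 1, 2), (4, 0, 1), (6, 1, 2), (7, 0, 1), (9, 0, 1), (11, 1, 2)]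
   [(0, 1, 9, [10, 11, 12, 5, 4, 3, 2, 1]), (0, 4, 10, [11, 12, 10, 9, 8, 7, 6, 5, 4]),
    (0, 6, 9, [5, 11, 12, 10, 9, 8, 7, 6]), (0, 7, 10, [1, 2, 3, 4, 5, 10, 9, 8, 7]),
    (0, 9, 10, [1, 2, 3, 4, 5, 6, 7, 8, 9]), (0, 11, 9, [1, 2, 3, 4, 5, 10, 12, 11]),
    (1, 3, 10, [0, 10, 9, 8, 7, 6, 5, 4, 3]), (1, 4, 9, [0, 10, 9, 8, 7, 6, 5, 4]),
    (1, 4, 10, [0, 11, 10, 9, 8, 7, 6, 5, 4]), (1, 5, 10, [0, 11, 12, 10, 9, 8, 7, 6, 5]),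
    (1, 6, 8, [0, 5, 10, 9, 8, 7, 6]), (1, 6, 9, [0, 5, 11, 10, 9, 8, 7, 6]),
    (1, 6, 10, [0, 5, 11, 12, 10, 9, 8, 7, 6]), (1, 7, 9, [0, 5, 11, 12, 10, 9, 8, 7]),
    (1, 7, 10, [2, 3, 4, 5, 0, 10, 9, 8, 7]), (1, 8, 10, [2, 3, 4, 5, 0, 11, 10, 9, 8]),
    (1, 9, 9, [0, 10, 11, 5, 6, 7, 8, 9]), (1, 9, 10, [0, 10, 11, 12, 5, 6, 7, 8, 9]),
    (1, 10, 10, [0, 11, 12, 5, 6, 7, 8, 9, 10]), (1, 11, 8, [2, 3, 4, 5, 0, 10, 11]),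
    (1, 11, 9, [0, 5, 6, 7, 8, 9, 10, 11]), (1, 11, 10, [0, 5, 6, 7, 8, 9, 10, 12, 11]),
    (2, 6, 10, [1, 0, 5, 11, 10, 9, 8, 7, 6]), (2, 11, 10, [1, 0, 5, 6, 7, 8, 9, 10, 11]),
    (3, 6, 10, [2, 1, 0, 5, 10, 9, 8, 7, 6]), (3, 11, 10, [4, 5, 6, 7, 8, 9, 10, 0, 11]),
    (4, 6, 9, [3, 2, 1, 0, 10, 11, 5, 6]), (4, 6, 10, [3, 2, 1, 0, 10, 9, 8, 7, 6]),
    (4, 7, 10, [3, 2, 1, 0, 5, 10, 9, 8, 7]), (4, 9, 10, [3, 2, 1, 0, 5, 6, 7, 8, 9]),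
    (4, 11, 9, [3, 2, 1, 0, 5, 10, 12, 11]), (4, 11, 10, [5, 6, 7, 8, 9, 10, 0, 12, 11]),
    (6, 7, 9, [5, 0, 11, 12, 10, 9, 8, 7]), (6, 8, 10, [5, 4, 3, 2, 1, 0, 10, 9, 8]),
    (6, 9, 9, [5, 4, 3, 2, 1, 0, 10, 9]), (6, 9, 10, [5, 4, 3, 2, 1, 0, 11, 10, 9]),
    (6, 10, 10, [5, 4, 3, 2, 1, 0, 11, 12, 10]), (6, 11, 8, [5, 4, 3, 2, 1, 0, 11]),
    (6, 11, 9, [5, 4, 3, 2, 1, 0, 10, 11]), (6, 11, 10, [5, 4, 3, 2, 1, 0, 10, 12, 11]),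
    (7, 9, 10, [6, 5, 4, 3, 2, 1, 0, 10, 9]), (7, 11, 9, [6, 5, 4, 3, 2, 1, 0, 11]),
    (7, 11, 10, [6, 5, 4, 3, 2, 1, 0, 10, 11]), (8, 11, 10, [7, 6, 5, 4, 3, 2, 1, 0, 11]),
    (9, 11, 9, [8, 7, 6, 5, 0, 10, 12, 11]), (9, 11, 10, [10, 0, 1, 2, 3, 4, 5, 12, 11])] = true := by
  decide +kernel

theorem cert5 : certb 11 6 (earPat 2 ++ (earPat 2 ++ earPat 2))
    [(0, 0, 1), (1, 1, 2), (2, 0, 1), (5, 0, 1), (6, 1, 2), (9, 1, 2), (10, 1, 2)]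
   [(0, 1, 10, [4, 5, 6, 7, 8, 11, 3, 2, 1]), (0, 2, 11, [4, 5, 6, 7, 8, 9, 10, 11, 3, 2]),
    (0, 5, 11, [1, 2, 3, 7, 8, 9, 10, 11, 4, 5]), (0, 6, 10, [1, 2, 3, 7, 8, 11, 4, 5, 6]),
    (0, 6, 11, [1, 2, 3, 4, 8, 9, 10, 11, 7, 6]), (0, 9, 10, [1, 2, 3, 4, 5, 6, 7, 8, 9]),
    (0, 9, 11, [1, 2, 3, 4, 5, 6, 7, 11, 8, 9]), (0, 10, 10, [1, 2, 3, 4, 5, 6, 7, 11, 10]),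
    (0, 10, 11, [1, 2, 3, 4, 5, 6, 7, 8, 9, 10]), (1, 2, 10, [0, 4, 5, 6, 7, 8, 11, 3, 2]),
    (1, 3, 11, [0, 4, 5, 6, 7, 8, 9, 10, 11, 3]), (1, 4, 11, [0, 3, 8, 9, 10, 11, 7, 6, 5, 4]),
    (1, 5, 10, [0, 3, 7, 8, 9, 10, 11, 4, 5]), (1, 5, 11, [0, 3, 4, 8, 9, 10, 11, 7, 6, 5]),
    (1, 6, 9, [0, 3, 7, 8, 11, 4, 5, 6]), (1, 6, 10, [0, 3, 4, 8, 9, 10, 11, 7, 6]),
    (1, 6, 11, [0, 3, 7, 8, 9, 10, 11, 4, 5, 6]), (1, 7, 11, [0, 3, 8, 9, 10, 11, 4, 5, 6, 7]),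
    (1, 8, 11, [0, 3, 4, 5, 6, 7, 11, 10, 9, 8]), (1, 9, 9, [0, 3, 4, 5, 6, 7, 8, 9]),
    (1, 9, 10, [0, 3, 4, 5, 6, 7, 11, 8, 9]), (1, 9, 11, [0, 3, 4, 5, 6, 7, 8, 11, 10, 9]),
    (1, 10, 9, [0, 3, 4, 5, 6, 7, 11, 10]), (1, 10, 10, [0, 3, 4, 5, 6, 7, 8, 9, 10]),
    (1, 10, 11, [0, 3, 4, 5, 6, 7, 11, 8, 9, 10]), (2, 5, 11, [1, 0, 3, 7, 8, 9, 10, 11, 4, 5]),
    (2, 6, 10, [1, 0, 3, 7, 8, 11, 4, 5, 6]), (2, 6, 11, [1, 0, 3, 4, 8, 9, 10, 11, 7, 6]),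
    (2, 9, 10, [1, 0, 3, 4, 5, 6, 7, 8, 9]), (2, 9, 11, [1, 0, 3, 4, 5, 6, 7, 11, 8, 9]),
    (2, 10, 10, [1, 0, 3, 4, 5, 6, 7, 11, 10]), (2, 10, 11, [1, 0, 3, 4, 5, 6, 7, 8, 9, 10]),
    (3, 6, 11, [2, 1, 0, 4, 8, 9, 10, 11, 7, 6]), (3, 9, 11, [2, 1, 0, 4, 5, 6, 7, 11, 8, 9]),
    (3, 10, 11, [2, 1, 0, 4, 5, 6, 7, 8, 9, 10]), (4, 6, 11, [0, 1, 2, 3, 8, 9, 10, 11, 7, 6]),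
    (4, 9, 11, [5, 6, 7, 0, 1, 2, 3, 11, 8, 9]), (4, 10, 11, [5, 6, 7, 0, 1, 2, 3, 8, 9, 10]),
    (5, 6, 10, [4, 0, 1, 2, 3, 8, 11, 7, 6]), (5, 9, 10, [4, 0, 1, 2, 3, 7, 11, 8, 9]),
    (5, 9, 11, [4, 0, 1, 2, 3, 7, 8, 11, 10, 9]), (5, 10, 10, [4, 0, 1, 2, 3, 7, 8, 9, 10]),
    (5, 10, 11, [4, 0, 1, 2, 3, 7, 11, 8, 9, 10]), (6, 8, 11, [5, 4, 0, 1, 2, 3, 11, 10, 9, 8]),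
    (6, 9, 9, [5, 4, 0, 1, 2, 3, 8, 9]), (6, 9, 10, [5, 4, 0, 1, 2, 3, 7, 8, 9]),
    (6, 9, 11, [5, 4, 0, 1, 2, 3, 7, 11, 8, 9]), (6, 10, 9, [5, 4, 0, 1, 2, 3, 11, 10]),
    (6, 10, 10, [5, 4, 0, 1, 2, 3, 7, 11, 10]), (6, 10, 11, [5, 4, 0, 1, 2, 3, 7, 8, 9, 10]),
    (9, 10, 9, [8, 0, 1, 2, 3, 4, 11, 10]), (9, 10, 10, [8, 0, 1, 2, 3, 4, 7, 11, 10])] = true := by
  decide +kernel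

theorem cert6 : certb 11 6 (earPat 4 ++ (earPat 4 ++ [true, true]))
    [(0, 0, 1), (1, 1, 2), (2, 0, 1), (4, 0, 1), (5, 1, 1), (6, 1, 1), (7, 0, 1), (9, 0, 1),
     (10, 1, 2)]
   [(0, 1, 10, [6, 11, 12, 13, 5, 4, 3, 2, 1]), (0, 2, 11, [6, 7, 8, 9, 10, 11, 5, 4, 3, 2]),
    (0, 4, 11, [6, 7, 8, 9, 10, 11, 12, 13, 5, 4]), (0, 5, 10, [6, 7, 8, 9, 10, 11, 12, 13, 5]),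
    (0, 6, 10, [1, 2, 3, 4, 5, 11, 12, 13, 6]), (0, 7, 11, [1, 2, 3, 4, 5, 11, 10, 9, 8, 7]),
    (0, 9, 11, [1, 2, 3, 4, 5, 6, 12, 11, 10, 9]), (0, 10, 10, [1, 2, 3, 4, 5, 6, 12, 11, 10]),
    (0, 10, 11, [1, 2, 3, 4, 5, 6, 7, 8, 9, 10]), (1, 2, 10, [0, 6, 11, 12, 13, 5, 4, 3, 2]),
    (1, 3, 11, [0, 6, 7, 8, 9, 10, 11, 5, 4, 3]), (1, 4, 10, [0, 6, 7, 8, 9, 10, 11, 5, 4]),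
    (1, 4, 11, [0, 6, 7, 8, 9, 10, 11, 12, 5, 4]), (1, 5, 9, [0, 6, 7, 8, 9, 10, 11, 5]),
    (1, 5, 10, [0, 6, 7, 8, 9, 10, 11, 12, 5]), (1, 5, 11, [0, 6, 7, 8, 9, 10, 11, 12, 13, 5]),
    (1, 6, 9, [0, 5, 11, 10, 9, 8, 7, 6]), (1, 6, 10, [0, 5, 12, 11, 10, 9, 8, 7, 6]),
    (1, 6, 11, [0, 5, 12, 13, 11, 10, 9, 8, 7, 6]), (1, 7, 10, [0, 5, 6, 12, 11, 10, 9, 8, 7]),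
    (1, 7, 11, [0, 5, 6, 12, 13, 11, 10, 9, 8, 7]), (1, 8, 11, [2, 3, 4, 5, 0, 6, 11, 10, 9, 8]),
    (1, 9, 10, [0, 5, 11, 12, 13, 6, 7, 8, 9]), (1, 9, 11, [2, 3, 4, 5, 0, 6, 12, 11, 10, 9]),
    (1, 10, 9, [0, 5, 11, 6, 7, 8, 9, 10]), (1, 10, 10, [0, 5, 11, 12, 6, 7, 8, 9, 10]),
    (1, 10, 11, [0, 5, 11, 12, 13, 6, 7, 8, 9, 10]),
    (1, 11, 11, [0, 5, 12, 13, 6, 7, 8, 9, 10, 11]),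
    (2, 4, 11, [1, 0, 6, 7, 8, 9, 10, 11, 5, 4]), (2, 5, 10, [1, 0, 6, 7, 8, 9, 10, 11, 5]),
    (2, 5, 11, [1, 0, 6, 7, 8, 9, 10, 11, 12, 5]), (2, 6, 10, [1, 0, 5, 11, 10, 9, 8, 7, 6]),
    (2, 6, 11, [1, 0, 5, 12, 11, 10, 9, 8, 7, 6]), (2, 7, 11, [1, 0, 5, 6, 12, 11, 10, 9, 8, 7]),
    (2, 9, 11, [1, 0, 5, 11, 12, 13, 6, 7, 8, 9]), (2, 10, 10, [1, 0, 5, 11, 6, 7, 8, 9, 10]),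
    (2, 10, 11, [1, 0, 5, 11, 12, 6, 7, 8, 9, 10]), (3, 5, 11, [2, 1, 0, 6, 7, 8, 9, 10, 11, 5]),
    (3, 6, 11, [2, 1, 0, 5, 11, 10, 9, 8, 7, 6]), (3, 10, 11, [2, 1, 0, 5, 11, 6, 7, 8, 9, 10]),
    (4, 5, 10, [3, 2, 1, 0, 6, 11, 12, 13, 5]), (4, 6, 10, [3, 2, 1, 0, 5, 11, 12, 13, 6]),
    (4, 6, 11, [3, 2, 1, 0, 11, 10, 9, 8, 7, 6]), (4, 7, 11, [3, 2, 1, 0, 5, 11, 10, 9, 8, 7]),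
    (4, 9, 11, [3, 2, 1, 0, 5, 6, 12, 11, 10, 9]), (4, 10, 10, [3, 2, 1, 0, 5, 6, 12, 11, 10]),
    (4, 10, 11, [3, 2, 1, 0, 5, 6, 7, 8, 9, 10]), (5, 6, 9, [0, 12, 11, 10, 9, 8, 7, 6]),
    (5, 6, 10, [0, 12, 13, 11, 10, 9, 8, 7, 6]), (5, 7, 10, [0, 6, 12, 13, 11, 10, 9, 8, 7]),
    (5, 7, 11, [4, 3, 2, 1, 0, 11, 10, 9, 8, 7]), (5, 9, 10, [4, 3, 2, 1, 0, 6, 7, 8, 9]),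
    (5, 10, 9, [0, 11, 12, 6, 7, 8, 9, 10]), (5, 10, 10, [0, 11, 12, 13, 6, 7, 8, 9, 10]),
    (5, 10, 11, [4, 3, 2, 1, 0, 6, 7, 8, 9, 10]), (6, 7, 10, [0, 5, 12, 13, 11, 10, 9, 8, 7]),
    (6, 9, 10, [0, 1, 2, 3, 4, 5, 11, 10, 9]), (6, 10, 9, [0, 1, 2, 3, 4, 5, 11, 10]),
    (6, 10, 10, [0, 1, 2, 3, 4, 5, 12, 11, 10]), (6, 10, 11, [0, 1, 2, 3, 4, 5, 12, 13, 11, 10]),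
    (7, 9, 11, [6, 0, 1, 2, 3, 4, 5, 11, 10, 9]), (7, 10, 10, [6, 0, 1, 2, 3, 4, 5, 11, 10]),
    (7, 10, 11, [6, 0, 1, 2, 3, 4, 5, 12, 11, 10]),
    (8, 10, 11, [7, 6, 0, 1, 2, 3, 4, 5, 11, 10]), (9, 10, 10, [8, 7, 6, 0, 5, 12, 13, 11, 10])] = true := by
  decide +kernel

theorem cert7 : certb 12 6 (earPat 2 ++ (earPat 2 ++ earPat 3))
    [(0, 0, 1), (1, 1, 2), (2, 0, 1), (5, 1, 2), (6, 1, 2), (9, 0, 1), (10, 1, 2), (11, 0, 1)]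
   [(0, 1, 11, [4, 7, 8, 9, 10, 11, 12, 3, 2, 1]),
    (0, 2, 12, [4, 5, 6, 7, 8, 9, 10, 11, 12, 3, 2]),
    (0, 5, 11, [1, 2, 3, 8, 9, 10, 11, 12, 4, 5]),
    (0, 5, 12, [1, 2, 3, 7, 8, 9, 10, 11, 12, 4, 5]),
    (0, 6, 11, [1, 2, 3, 8, 9, 10, 11, 12, 7, 6]),
    (0, 6, 12, [1, 2, 3, 4, 8, 9, 10, 11, 12, 7, 6]),
    (0, 9, 12, [1, 2, 3, 4, 5, 6, 7, 12, 11, 10, 9]),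
    (0, 10, 11, [1, 2, 3, 4, 5, 6, 7, 8, 9, 10]),
    (0, 10, 12, [1, 2, 3, 4, 5, 6, 7, 8, 12, 11, 10]),
    (0, 11, 12, [1, 2, 3, 4, 5, 6, 7, 8, 9, 10, 11]),
    (1, 2, 11, [0, 4, 7, 8, 9, 10, 11, 12, 3, 2]),
    (1, 3, 12, [0, 4, 5, 6, 7, 8, 9, 10, 11, 12, 3]),
    (1, 4, 12, [0, 3, 8, 9, 10, 11, 12, 7, 6, 5, 4]), (1, 5, 10, [0, 3, 8, 9, 10, 11, 12, 4, 5]),
    (1, 5, 11, [0, 3, 7, 8, 9, 10, 11, 12, 4, 5]),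
    (1, 5, 12, [0, 3, 4, 8, 9, 10, 11, 12, 7, 6, 5]), (1, 6, 10, [0, 3, 8, 9, 10, 11, 12, 7, 6]),
    (1, 6, 11, [0, 3, 4, 8, 9, 10, 11, 12, 7, 6]),
    (1, 6, 12, [0, 3, 7, 8, 9, 10, 11, 12, 4, 5, 6]),
    (1, 7, 12, [0, 3, 8, 9, 10, 11, 12, 4, 5, 6, 7]),
    (1, 8, 12, [0, 3, 4, 5, 6, 7, 12, 11, 10, 9, 8]),
    (1, 9, 11, [0, 3, 4, 5, 6, 7, 12, 11, 10, 9]),
    (1, 9, 12, [0, 3, 4, 5, 6, 7, 8, 12, 11, 10, 9]), (1, 10, 10, [0, 3, 4, 5, 6, 7, 8, 9, 10]),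
    (1, 10, 11, [0, 3, 4, 5, 6, 7, 8, 12, 11, 10]),
    (1, 10, 12, [2, 3, 0, 4, 5, 6, 7, 8, 12, 11, 10]),
    (1, 11, 11, [0, 3, 4, 5, 6, 7, 8, 9, 10, 11]), (2, 5, 11, [1, 0, 3, 8, 9, 10, 11, 12, 4, 5]),
    (2, 5, 12, [1, 0, 3, 7, 8, 9, 10, 11, 12, 4, 5]),
    (2, 6, 11, [1, 0, 3, 8, 9, 10, 11, 12, 7, 6]),
    (2, 6, 12, [1, 0, 3, 4, 8, 9, 10, 11, 12, 7, 6]),
    (2, 9, 12, [1, 0, 3, 4, 5, 6, 7, 12, 11, 10, 9]),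
    (2, 10, 11, [1, 0, 3, 4, 5, 6, 7, 8, 9, 10]),
    (2, 10, 12, [1, 0, 3, 4, 5, 6, 7, 8, 12, 11, 10]),
    (2, 11, 12, [1, 0, 3, 4, 5, 6, 7, 8, 9, 10, 11]),
    (3, 5, 12, [2, 1, 0, 7, 8, 9, 10, 11, 12, 4, 5]),
    (3, 6, 12, [2, 1, 0, 4, 8, 9, 10, 11, 12, 7, 6]),
    (3, 10, 12, [2, 1, 0, 4, 5, 6, 7, 8, 12, 11, 10]),
    (4, 6, 12, [0, 1, 2, 3, 8, 9, 10, 11, 12, 7, 6]),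
    (4, 10, 12, [5, 6, 7, 0, 1, 2, 3, 8, 12, 11, 10]), (5, 6, 10, [4, 0, 1, 2, 3, 8, 12, 7, 6]),
    (5, 6, 11, [4, 0, 3, 8, 9, 10, 11, 12, 7, 6]),
    (5, 7, 12, [4, 0, 1, 2, 3, 8, 9, 10, 11, 12, 7]),
    (5, 8, 12, [4, 0, 1, 2, 3, 7, 12, 11, 10, 9, 8]),
    (5, 9, 11, [4, 0, 1, 2, 3, 7, 12, 11, 10, 9]),
    (5, 9, 12, [4, 0, 1, 2, 3, 7, 8, 12, 11, 10, 9]), (5, 10, 10, [4, 0, 1, 2, 3, 7, 8, 9, 10]),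
    (5, 10, 11, [4, 0, 1, 2, 3, 7, 8, 12, 11, 10]),
    (5, 10, 12, [6, 7, 0, 1, 2, 3, 4, 8, 12, 11, 10]),
    (5, 11, 11, [4, 0, 1, 2, 3, 7, 8, 9, 10, 11]),
    (6, 8, 12, [5, 4, 0, 1, 2, 3, 12, 11, 10, 9, 8]),
    (6, 9, 11, [5, 4, 0, 1, 2, 3, 7, 12, 8, 9]),
    (6, 9, 12, [5, 4, 0, 1, 2, 3, 7, 12, 11, 10, 9]), (6, 10, 10, [5, 4, 0, 1, 2, 3, 8, 9, 10]),
    (6, 10, 11, [5, 4, 0, 1, 2, 3, 7, 8, 9, 10]),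
    (6, 10, 12, [5, 4, 0, 1, 2, 3, 7, 8, 12, 11, 10]),
    (6, 11, 11, [5, 4, 0, 1, 2, 3, 7, 8, 12, 11]),
    (9, 10, 11, [8, 0, 1, 2, 3, 4, 7, 12, 11, 10]),
    (9, 11, 12, [8, 0, 1, 2, 3, 4, 5, 6, 7, 12, 11]),
    (10, 11, 11, [9, 8, 0, 1, 2, 3, 4, 7, 12, 11])] = true := by
  decide +kernel

theorem cert8 : certb 12 6 (earPat 4 ++ (earPat 5 ++ [true, true]))
    [(1, 0, 1), (4, 1, 2), (6, 0, 1), (7, 1, 2), (8, 0, 1), (10, 0, 1), (11, 1, 2), (13, 1, 1),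
     (14, 1, 1)]
   [(0, 4, 12, [6, 7, 8, 9, 10, 11, 12, 13, 14, 5, 4]),
    (0, 7, 12, [1, 2, 3, 4, 5, 12, 11, 10, 9, 8, 7]),
    (0, 11, 12, [1, 2, 3, 4, 5, 6, 7, 8, 9, 10, 11]),
    (1, 4, 11, [0, 6, 7, 8, 9, 10, 11, 12, 5, 4]),
    (1, 4, 12, [0, 6, 7, 8, 9, 10, 11, 12, 13, 5, 4]),
    (1, 6, 12, [0, 5, 13, 14, 12, 11, 10, 9, 8, 7, 6]),
    (1, 7, 11, [0, 5, 6, 13, 12, 11, 10, 9, 8, 7]),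
    (1, 7, 12, [0, 5, 6, 13, 14, 12, 11, 10, 9, 8, 7]),
    (1, 8, 12, [2, 3, 4, 5, 0, 6, 12, 11, 10, 9, 8]),
    (1, 10, 12, [2, 3, 4, 5, 0, 6, 13, 14, 12, 11, 10]),
    (1, 11, 11, [0, 5, 12, 13, 6, 7, 8, 9, 10, 11]),
    (1, 11, 12, [0, 5, 12, 13, 14, 6, 7, 8, 9, 10, 11]),
    (1, 13, 11, [0, 5, 6, 7, 8, 9, 10, 11, 12, 13]),
    (1, 13, 12, [0, 5, 6, 7, 8, 9, 10, 11, 12, 14, 13]),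
    (1, 14, 11, [0, 5, 6, 7, 8, 9, 10, 11, 12, 14]),
    (1, 14, 12, [0, 5, 6, 7, 8, 9, 10, 11, 12, 13, 14]),
    (2, 4, 12, [1, 0, 6, 7, 8, 9, 10, 11, 12, 5, 4]),
    (2, 7, 12, [1, 0, 5, 6, 13, 12, 11, 10, 9, 8, 7]),
    (2, 11, 12, [1, 0, 5, 12, 13, 6, 7, 8, 9, 10, 11]),
    (2, 13, 12, [1, 0, 5, 6, 7, 8, 9, 10, 11, 12, 13]),
    (2, 14, 12, [1, 0, 5, 6, 7, 8, 9, 10, 11, 12, 14]),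
    (3, 7, 12, [2, 1, 0, 5, 6, 12, 11, 10, 9, 8, 7]),
    (3, 11, 12, [2, 1, 0, 5, 12, 6, 7, 8, 9, 10, 11]),
    (3, 13, 12, [2, 1, 0, 6, 7, 8, 9, 10, 11, 12, 13]),
    (3, 14, 12, [2, 1, 0, 6, 7, 8, 9, 10, 11, 12, 14]),
    (4, 6, 11, [5, 0, 13, 12, 11, 10, 9, 8, 7, 6]),
    (4, 6, 12, [3, 2, 1, 0, 12, 11, 10, 9, 8, 7, 6]), (4, 7, 10, [3, 2, 1, 0, 5, 12, 13, 6, 7]),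
    (4, 7, 11, [3, 2, 1, 0, 5, 12, 13, 14, 6, 7]),
    (4, 7, 12, [3, 2, 1, 0, 5, 12, 11, 10, 9, 8, 7]),
    (4, 8, 11, [3, 2, 1, 0, 5, 12, 11, 10, 9, 8]),
    (4, 8, 12, [3, 2, 1, 0, 5, 6, 12, 11, 10, 9, 8]),
    (4, 9, 12, [3, 2, 1, 0, 5, 6, 13, 12, 11, 10, 9]),
    (4, 10, 11, [3, 2, 1, 0, 5, 6, 7, 8, 9, 10]),
    (4, 10, 12, [3, 2, 1, 0, 5, 6, 13, 14, 12, 11, 10]),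
    (4, 11, 10, [3, 2, 1, 0, 5, 6, 13, 12, 11]), (4, 11, 11, [3, 2, 1, 0, 5, 6, 13, 14, 12, 11]),
    (4, 11, 12, [3, 2, 1, 0, 5, 6, 7, 8, 9, 10, 11]),
    (4, 13, 10, [3, 2, 1, 0, 5, 6, 12, 14, 13]), (4, 13, 11, [5, 0, 6, 7, 8, 9, 10, 11, 12, 13]),
    (4, 13, 12, [5, 0, 6, 7, 8, 9, 10, 11, 12, 14, 13]),
    (4, 14, 10, [3, 2, 1, 0, 5, 6, 12, 13, 14]), (4, 14, 11, [5, 0, 6, 7, 8, 9, 10, 11, 12, 14]),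
    (4, 14, 12, [5, 0, 6, 7, 8, 9, 10, 11, 12, 13, 14]),
    (5, 7, 12, [4, 3, 2, 1, 0, 12, 11, 10, 9, 8, 7]),
    (5, 11, 12, [4, 3, 2, 1, 0, 6, 7, 8, 9, 10, 11]),
    (6, 7, 11, [0, 5, 13, 14, 12, 11, 10, 9, 8, 7]),
    (6, 8, 12, [0, 1, 2, 3, 4, 5, 12, 11, 10, 9, 8]),
    (6, 10, 12, [0, 1, 2, 3, 4, 5, 13, 14, 12, 11, 10]),
    (6, 11, 11, [0, 1, 2, 3, 4, 5, 13, 14, 12, 11]),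
    (6, 13, 11, [7, 8, 9, 10, 11, 12, 0, 5, 14, 13]),
    (6, 14, 11, [7, 8, 9, 10, 11, 12, 0, 5, 13, 14]),
    (7, 8, 11, [6, 0, 5, 13, 14, 12, 11, 10, 9, 8]),
    (7, 9, 12, [6, 0, 1, 2, 3, 4, 5, 12, 11, 10, 9]),
    (7, 10, 11, [6, 0, 1, 2, 3, 4, 5, 12, 11, 10]),
    (7, 10, 12, [6, 0, 1, 2, 3, 4, 5, 13, 12, 11, 10]),
    (7, 11, 10, [6, 0, 1, 2, 3, 4, 5, 12, 11]), (7, 11, 11, [6, 0, 1, 2, 3, 4, 5, 13, 12, 11]),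
    (7, 11, 12, [6, 0, 1, 2, 3, 4, 5, 13, 14, 12, 11]),
    (7, 13, 10, [6, 0, 1, 2, 3, 4, 5, 12, 13]), (7, 13, 11, [6, 0, 1, 2, 3, 4, 5, 12, 14, 13]),
    (7, 14, 10, [6, 0, 1, 2, 3, 4, 5, 12, 14]), (7, 14, 11, [6, 0, 1, 2, 3, 4, 5, 12, 13, 14]),
    (8, 10, 12, [7, 6, 0, 1, 2, 3, 4, 5, 12, 11, 10]),
    (8, 11, 11, [7, 6, 0, 1, 2, 3, 4, 5, 12, 11]),
    (8, 11, 12, [7, 6, 0, 1, 2, 3, 4, 5, 13, 12, 11]),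
    (8, 13, 11, [7, 6, 0, 1, 2, 3, 4, 5, 12, 13]), (8, 14, 11, [7, 6, 0, 1, 2, 3, 4, 5, 12, 14]),
    (9, 11, 12, [8, 7, 6, 0, 1, 2, 3, 4, 5, 12, 11]),
    (10, 11, 11, [9, 8, 7, 6, 0, 5, 13, 14, 12, 11]),
    (10, 13, 11, [11, 12, 0, 1, 2, 3, 4, 5, 6, 13]),
    (10, 14, 11, [11, 12, 0, 1, 2, 3, 4, 5, 6, 14]),
    (11, 13, 10, [10, 9, 8, 7, 6, 0, 5, 12, 13]),
    (11, 13, 11, [10, 9, 8, 7, 6, 0, 5, 12, 14, 13]),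
    (11, 14, 10, [10, 9, 8, 7, 6, 0, 5, 12, 14]),
    (11, 14, 11, [10, 9, 8, 7, 6, 0, 5, 12, 13, 14]),
    (13, 14, 10, [0, 1, 2, 3, 4, 5, 6, 12, 14]),
    (13, 14, 11, [0, 5, 6, 7, 8, 9, 10, 11, 12, 14])] = true := by
  decide +kernel

theorem cert9 : certb 14 7 (earPat 2 ++ (earPat 2 ++ earPat2 2 2))
    [(0, 0, 1), (1, 1, 2), (2, 0, 1), (5, 0, 1), (6, 1, 2), (9, 0, 1), (10, 1, 2), (12, 1, 2),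
     (13, 1, 2)]
   [(0, 1, 13, [4, 5, 6, 7, 8, 9, 10, 11, 14, 3, 2, 1]),
    (0, 2, 14, [4, 5, 6, 7, 8, 9, 10, 11, 12, 13, 14, 3, 2]),
    (0, 5, 14, [1, 2, 3, 7, 8, 9, 10, 11, 12, 13, 14, 4, 5]),
    (0, 6, 13, [1, 2, 3, 7, 8, 9, 10, 11, 14, 4, 5, 6]),
    (0, 6, 14, [1, 2, 3, 4, 8, 9, 10, 11, 12, 13, 14, 7, 6]),
    (0, 9, 14, [1, 2, 3, 4, 5, 6, 7, 11, 12, 13, 14, 8, 9]),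
    (0, 10, 13, [1, 2, 3, 4, 5, 6, 7, 11, 14, 8, 9, 10]),
    (0, 10, 14, [1, 2, 3, 4, 5, 6, 7, 8, 14, 13, 12, 11, 10]),
    (0, 12, 13, [1, 2, 3, 4, 5, 6, 7, 8, 9, 10, 11, 12]),
    (0, 12, 14, [1, 2, 3, 4, 5, 6, 7, 14, 8, 9, 10, 11, 12]),
    (0, 13, 13, [1, 2, 3, 4, 5, 6, 7, 8, 14, 11, 12, 13]),
    (0, 13, 14, [1, 2, 3, 4, 5, 6, 7, 8, 9, 10, 11, 12, 13]),
    (1, 2, 13, [0, 4, 5, 6, 7, 8, 9, 10, 11, 14, 3, 2]),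
    (1, 3, 14, [0, 4, 5, 6, 7, 8, 9, 10, 11, 12, 13, 14, 3]),
    (1, 4, 14, [0, 3, 8, 9, 10, 11, 12, 13, 14, 7, 6, 5, 4]),
    (1, 5, 13, [0, 3, 7, 8, 9, 10, 11, 12, 13, 14, 4, 5]),
    (1, 5, 14, [0, 3, 4, 8, 9, 10, 11, 12, 13, 14, 7, 6, 5]),
    (1, 6, 12, [0, 3, 7, 8, 9, 10, 11, 14, 4, 5, 6]),
    (1, 6, 13, [0, 3, 4, 8, 9, 10, 11, 12, 13, 14, 7, 6]),
    (1, 6, 14, [0, 3, 7, 8, 9, 10, 11, 12, 13, 14, 4, 5, 6]),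
    (1, 7, 14, [0, 3, 8, 9, 10, 11, 12, 13, 14, 4, 5, 6, 7]),
    (1, 8, 14, [0, 3, 4, 5, 6, 7, 14, 13, 12, 11, 10, 9, 8]),
    (1, 9, 13, [0, 3, 4, 5, 6, 7, 11, 12, 13, 14, 8, 9]),
    (1, 9, 14, [0, 3, 4, 5, 6, 7, 8, 14, 13, 12, 11, 10, 9]),
    (1, 10, 12, [0, 3, 4, 5, 6, 7, 11, 14, 8, 9, 10]),
    (1, 10, 13, [0, 3, 4, 5, 6, 7, 8, 14, 13, 12, 11, 10]),
    (1, 10, 14, [0, 3, 4, 5, 6, 7, 11, 12, 13, 14, 8, 9, 10]),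
    (1, 12, 12, [0, 3, 4, 5, 6, 7, 8, 9, 10, 11, 12]),
    (1, 12, 13, [0, 3, 4, 5, 6, 7, 14, 8, 9, 10, 11, 12]),
    (1, 12, 14, [0, 3, 4, 5, 6, 7, 8, 9, 10, 11, 14, 13, 12]),
    (1, 13, 12, [0, 3, 4, 5, 6, 7, 8, 14, 11, 12, 13]),
    (1, 13, 13, [0, 3, 4, 5, 6, 7, 8, 9, 10, 11, 12, 13]),
    (1, 13, 14, [0, 3, 4, 5, 6, 7, 14, 8, 9, 10, 11, 12, 13]),
    (2, 5, 14, [1, 0, 3, 7, 8, 9, 10, 11, 12, 13, 14, 4, 5]),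
    (2, 6, 13, [1, 0, 3, 7, 8, 9, 10, 11, 14, 4, 5, 6]),
    (2, 6, 14, [1, 0, 3, 4, 8, 9, 10, 11, 12, 13, 14, 7, 6]),
    (2, 9, 14, [1, 0, 3, 4, 5, 6, 7, 11, 12, 13, 14, 8, 9]),
    (2, 10, 13, [1, 0, 3, 4, 5, 6, 7, 11, 14, 8, 9, 10]),
    (2, 10, 14, [1, 0, 3, 4, 5, 6, 7, 8, 14, 13, 12, 11, 10]),
    (2, 12, 13, [1, 0, 3, 4, 5, 6, 7, 8, 9, 10, 11, 12]),
    (2, 12, 14, [1, 0, 3, 4, 5, 6, 7, 14, 8, 9, 10, 11, 12]),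
    (2, 13, 13, [1, 0, 3, 4, 5, 6, 7, 8, 14, 11, 12, 13]),
    (2, 13, 14, [1, 0, 3, 4, 5, 6, 7, 8, 9, 10, 11, 12, 13]),
    (3, 6, 14, [2, 1, 0, 4, 8, 9, 10, 11, 12, 13, 14, 7, 6]),
    (3, 10, 14, [2, 1, 0, 4, 5, 6, 7, 8, 14, 13, 12, 11, 10]),
    (3, 12, 14, [2, 1, 0, 4, 5, 6, 7, 14, 8, 9, 10, 11, 12]),
    (3, 13, 14, [2, 1, 0, 4, 5, 6, 7, 8, 9, 10, 11, 12, 13]),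
    (4, 6, 14, [0, 1, 2, 3, 8, 9, 10, 11, 12, 13, 14, 7, 6]),
    (4, 10, 14, [5, 6, 7, 0, 1, 2, 3, 8, 14, 13, 12, 11, 10]),
    (4, 12, 14, [5, 6, 7, 0, 1, 2, 3, 14, 8, 9, 10, 11, 12]),
    (4, 13, 14, [5, 6, 7, 0, 1, 2, 3, 8, 9, 10, 11, 12, 13]),
    (5, 6, 13, [4, 0, 1, 2, 3, 8, 9, 10, 11, 14, 7, 6]),
    (5, 9, 14, [4, 0, 1, 2, 3, 7, 8, 14, 13, 12, 11, 10, 9]),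
    (5, 10, 13, [4, 0, 1, 2, 3, 7, 8, 14, 13, 12, 11, 10]),
    (5, 10, 14, [4, 0, 1, 2, 3, 7, 11, 12, 13, 14, 8, 9, 10]),
    (5, 12, 13, [4, 0, 1, 2, 3, 7, 14, 8, 9, 10, 11, 12]),
    (5, 12, 14, [4, 0, 1, 2, 3, 7, 8, 9, 10, 11, 14, 13, 12]),
    (5, 13, 13, [4, 0, 1, 2, 3, 7, 8, 9, 10, 11, 12, 13]),
    (5, 13, 14, [4, 0, 1, 2, 3, 7, 14, 8, 9, 10, 11, 12, 13]),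
    (6, 8, 14, [5, 4, 0, 1, 2, 3, 14, 13, 12, 11, 10, 9, 8]),
    (6, 9, 13, [5, 4, 0, 1, 2, 3, 7, 8, 14, 11, 10, 9]),
    (6, 9, 14, [5, 4, 0, 1, 2, 3, 7, 11, 12, 13, 14, 8, 9]),
    (6, 10, 12, [5, 4, 0, 1, 2, 3, 7, 8, 14, 11, 10]),
    (6, 10, 13, [5, 4, 0, 1, 2, 3, 7, 11, 14, 8, 9, 10]),
    (6, 10, 14, [5, 4, 0, 1, 2, 3, 7, 8, 14, 13, 12, 11, 10]),
    (6, 12, 12, [5, 4, 0, 1, 2, 3, 7, 8, 14, 11, 12]),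
    (6, 12, 13, [5, 4, 0, 1, 2, 3, 7, 8, 9, 10, 11, 12]),
    (6, 12, 14, [5, 4, 0, 1, 2, 3, 7, 14, 8, 9, 10, 11, 12]),
    (6, 13, 12, [5, 4, 0, 1, 2, 3, 7, 8, 11, 12, 13]),
    (6, 13, 13, [5, 4, 0, 1, 2, 3, 7, 8, 14, 11, 12, 13]),
    (6, 13, 14, [5, 4, 0, 1, 2, 3, 7, 8, 9, 10, 11, 12, 13]),
    (7, 10, 14, [6, 5, 4, 0, 1, 2, 3, 8, 14, 13, 12, 11, 10]),
    (7, 12, 14, [6, 5, 4, 0, 1, 2, 3, 14, 8, 9, 10, 11, 12]),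
    (7, 13, 14, [6, 5, 4, 0, 1, 2, 3, 8, 9, 10, 11, 12, 13]),
    (9, 10, 13, [8, 0, 1, 2, 3, 4, 5, 6, 7, 14, 11, 10]),
    (9, 12, 13, [8, 0, 1, 2, 3, 4, 5, 6, 7, 14, 11, 12]),
    (9, 13, 13, [8, 0, 1, 2, 3, 4, 5, 6, 7, 11, 12, 13]),
    (10, 12, 12, [9, 8, 0, 1, 2, 3, 4, 7, 14, 11, 12]),
    (10, 12, 13, [9, 8, 0, 1, 2, 3, 4, 5, 6, 7, 11, 12]),
    (10, 13, 12, [9, 8, 0, 1, 2, 3, 4, 7, 11, 12, 13]),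
    (10, 13, 13, [9, 8, 0, 1, 2, 3, 4, 5, 6, 7, 14, 13]),
    (12, 13, 12, [11, 0, 1, 2, 3, 4, 5, 6, 7, 14, 13]),
    (12, 13, 13, [11, 0, 1, 2, 3, 4, 5, 6, 7, 8, 14, 13])] = true := by
  decide +kernel

theorem cert10 : certb 14 7 (earPat 3 ++ (earPat 3 ++ (earPat 3 ++ [true])))
    [(0, 0, 1), (3, 1, 2), (4, 1, 1), (5, 1, 1), (6, 0, 1), (8, 0, 1), (9, 1, 1), (10, 1, 1),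
     (11, 0, 1), (13, 0, 1), (14, 1, 1), (15, 1, 2)]
   [(0, 3, 13, [5, 6, 7, 8, 9, 10, 11, 12, 13, 14, 4, 3]),
    (0, 3, 14, [5, 6, 7, 8, 9, 10, 11, 12, 13, 14, 15, 4, 3]),
    (0, 4, 13, [5, 6, 7, 8, 9, 10, 11, 12, 13, 14, 15, 4]),
    (0, 5, 13, [1, 2, 3, 4, 9, 10, 11, 12, 13, 14, 15, 5]),
    (0, 6, 14, [1, 2, 3, 4, 9, 10, 11, 12, 13, 14, 15, 5, 6]),
    (0, 8, 14, [1, 2, 3, 4, 5, 10, 11, 12, 13, 14, 15, 9, 8]),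
    (0, 9, 13, [1, 2, 3, 4, 5, 10, 11, 12, 13, 14, 15, 9]),
    (0, 10, 13, [1, 2, 3, 4, 5, 6, 7, 8, 9, 14, 15, 10]),
    (0, 11, 14, [1, 2, 3, 4, 5, 6, 7, 8, 9, 14, 13, 12, 11]),
    (0, 13, 14, [1, 2, 3, 4, 5, 6, 7, 8, 9, 10, 11, 12, 13]),
    (0, 14, 13, [1, 2, 3, 4, 5, 6, 7, 8, 9, 10, 15, 14]),
    (0, 15, 13, [1, 2, 3, 4, 5, 6, 7, 8, 9, 10, 14, 15]),
    (1, 3, 14, [0, 5, 6, 7, 8, 9, 10, 11, 12, 13, 14, 4, 3]),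
    (1, 4, 14, [0, 5, 6, 7, 8, 9, 10, 11, 12, 13, 14, 15, 4]),
    (1, 5, 14, [0, 4, 10, 11, 12, 13, 14, 15, 9, 8, 7, 6, 5]),
    (1, 9, 14, [0, 4, 10, 11, 12, 13, 14, 15, 5, 6, 7, 8, 9]),
    (1, 10, 14, [0, 4, 5, 6, 7, 8, 9, 15, 14, 13, 12, 11, 10]),
    (1, 14, 14, [0, 4, 5, 6, 7, 8, 9, 15, 10, 11, 12, 13, 14]),
    (1, 15, 14, [0, 4, 5, 6, 7, 8, 9, 10, 11, 12, 13, 14, 15]),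
    (2, 4, 14, [1, 0, 5, 6, 7, 8, 9, 10, 11, 12, 13, 14, 4]),
    (2, 5, 14, [1, 0, 4, 10, 11, 12, 13, 14, 9, 8, 7, 6, 5]),
    (2, 9, 14, [1, 0, 4, 10, 11, 12, 13, 14, 5, 6, 7, 8, 9]),
    (2, 10, 14, [1, 0, 4, 5, 6, 7, 8, 9, 14, 13, 12, 11, 10]),
    (2, 14, 14, [1, 0, 4, 5, 6, 7, 8, 9, 10, 11, 12, 13, 14]),
    (2, 15, 14, [1, 0, 5, 6, 7, 8, 9, 10, 11, 12, 13, 14, 15]),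
    (3, 4, 12, [2, 1, 0, 5, 6, 7, 8, 9, 10, 14, 4]),
    (3, 4, 13, [2, 1, 0, 5, 6, 7, 8, 9, 10, 14, 15, 4]),
    (3, 5, 12, [2, 1, 0, 4, 9, 10, 11, 12, 13, 14, 5]),
    (3, 5, 13, [2, 1, 0, 4, 9, 10, 11, 12, 13, 14, 15, 5]),
    (3, 5, 14, [2, 1, 0, 10, 11, 12, 13, 14, 9, 8, 7, 6, 5]),
    (3, 6, 13, [2, 1, 0, 4, 5, 10, 14, 15, 9, 8, 7, 6]),
    (3, 6, 14, [2, 1, 0, 4, 9, 10, 11, 12, 13, 14, 15, 5, 6]),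
    (3, 7, 14, [2, 1, 0, 4, 5, 10, 11, 12, 13, 14, 9, 8, 7]),
    (3, 8, 13, [2, 1, 0, 4, 5, 10, 11, 12, 13, 14, 9, 8]),
    (3, 8, 14, [2, 1, 0, 4, 5, 10, 11, 12, 13, 14, 15, 9, 8]),
    (3, 9, 12, [2, 1, 0, 4, 5, 10, 11, 12, 13, 14, 9]),
    (3, 9, 13, [2, 1, 0, 4, 5, 10, 11, 12, 13, 14, 15, 9]),
    (3, 9, 14, [2, 1, 0, 10, 11, 12, 13, 14, 5, 6, 7, 8, 9]),
    (3, 10, 12, [2, 1, 0, 4, 5, 6, 7, 8, 9, 14, 10]),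
    (3, 10, 13, [2, 1, 0, 4, 5, 6, 7, 8, 9, 14, 15, 10]),
    (3, 10, 14, [2, 1, 0, 5, 6, 7, 8, 9, 14, 13, 12, 11, 10]),
    (3, 11, 13, [2, 1, 0, 4, 5, 6, 7, 8, 9, 14, 10, 11]),
    (3, 11, 14, [2, 1, 0, 4, 5, 6, 7, 8, 9, 14, 13, 12, 11]),
    (3, 13, 13, [2, 1, 0, 4, 5, 6, 7, 8, 9, 10, 14, 13]),
    (3, 14, 12, [2, 1, 0, 4, 5, 6, 7, 8, 9, 10, 14]),
    (3, 14, 13, [2, 1, 0, 4, 5, 6, 7, 8, 9, 10, 15, 14]),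
    (3, 14, 14, [2, 1, 0, 5, 6, 7, 8, 9, 10, 11, 12, 13, 14]),
    (3, 15, 12, [2, 1, 0, 4, 5, 6, 7, 8, 9, 10, 15]),
    (3, 15, 13, [2, 1, 0, 4, 5, 6, 7, 8, 9, 10, 14, 15]),
    (3, 15, 14, [4, 0, 5, 6, 7, 8, 9, 10, 11, 12, 13, 14, 15]),
    (4, 5, 12, [0, 10, 11, 12, 13, 14, 9, 8, 7, 6, 5]),
    (4, 5, 13, [0, 10, 11, 12, 13, 14, 15, 9, 8, 7, 6, 5]),
    (4, 6, 13, [0, 5, 10, 11, 12, 13, 14, 15, 9, 8, 7, 6]),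
    (4, 6, 14, [3, 2, 1, 0, 9, 10, 11, 12, 13, 14, 15, 5, 6]),
    (4, 8, 13, [0, 9, 10, 11, 12, 13, 14, 15, 5, 6, 7, 8]),
    (4, 9, 12, [0, 10, 11, 12, 13, 14, 5, 6, 7, 8, 9]),
    (4, 9, 13, [0, 10, 11, 12, 13, 14, 15, 5, 6, 7, 8, 9]),
    (4, 10, 12, [0, 5, 6, 7, 8, 9, 14, 13, 12, 11, 10]),
    (4, 10, 13, [0, 5, 6, 7, 8, 9, 15, 14, 13, 12, 11, 10]),
    (4, 11, 13, [0, 5, 6, 7, 8, 9, 10, 15, 14, 13, 12, 11]),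
    (4, 13, 13, [0, 5, 6, 7, 8, 9, 14, 15, 10, 11, 12, 13]),
    (4, 14, 12, [0, 5, 6, 7, 8, 9, 10, 11, 12, 13, 14]),
    (4, 14, 13, [0, 5, 6, 7, 8, 9, 15, 10, 11, 12, 13, 14]),
    (4, 15, 12, [3, 2, 1, 0, 5, 6, 7, 8, 9, 10, 15]),
    (4, 15, 13, [0, 5, 6, 7, 8, 9, 10, 11, 12, 13, 14, 15]),
    (5, 6, 13, [0, 1, 2, 3, 4, 10, 14, 15, 9, 8, 7, 6]),
    (5, 8, 13, [0, 1, 2, 3, 4, 10, 11, 12, 13, 14, 9, 8]),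
    (5, 9, 12, [0, 1, 2, 3, 4, 10, 11, 12, 13, 14, 9]),
    (5, 9, 13, [0, 1, 2, 3, 4, 10, 11, 12, 13, 14, 15, 9]),
    (5, 10, 12, [0, 1, 2, 3, 4, 9, 14, 13, 12, 11, 10]),
    (5, 10, 13, [0, 1, 2, 3, 4, 9, 15, 14, 13, 12, 11, 10]),
    (5, 11, 13, [0, 1, 2, 3, 4, 9, 10, 15, 14, 13, 12, 11]),
    (5, 13, 13, [0, 1, 2, 3, 4, 9, 14, 15, 10, 11, 12, 13]),
    (5, 14, 12, [0, 1, 2, 3, 4, 9, 10, 11, 12, 13, 14]),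
    (5, 14, 13, [0, 1, 2, 3, 4, 9, 15, 10, 11, 12, 13, 14]),
    (5, 15, 12, [0, 1, 2, 3, 4, 10, 11, 12, 13, 14, 15]),
    (5, 15, 13, [0, 1, 2, 3, 4, 9, 10, 11, 12, 13, 14, 15]),
    (6, 8, 14, [5, 0, 1, 2, 3, 4, 10, 11, 12, 13, 14, 9, 8]),
    (6, 9, 13, [5, 0, 1, 2, 3, 4, 10, 11, 12, 13, 14, 9]),
    (6, 10, 13, [5, 0, 1, 2, 3, 4, 9, 14, 13, 12, 11, 10]),
    (6, 11, 14, [5, 0, 1, 2, 3, 4, 9, 10, 15, 14, 13, 12, 11]),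
    (6, 13, 14, [5, 0, 1, 2, 3, 4, 9, 14, 15, 10, 11, 12, 13]),
    (6, 14, 13, [5, 0, 1, 2, 3, 4, 9, 10, 11, 12, 13, 14]),
    (6, 15, 13, [5, 0, 1, 2, 3, 4, 10, 11, 12, 13, 14, 15]),
    (6, 15, 14, [5, 0, 1, 2, 3, 4, 9, 10, 11, 12, 13, 14, 15]),
    (7, 15, 14, [6, 5, 0, 1, 2, 3, 4, 10, 11, 12, 13, 14, 15]),
    (8, 9, 13, [7, 6, 5, 0, 1, 2, 3, 4, 10, 14, 15, 9]),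
    (8, 10, 13, [7, 6, 5, 0, 1, 2, 3, 4, 9, 14, 15, 10]),
    (8, 11, 14, [7, 6, 5, 0, 1, 2, 3, 4, 9, 14, 13, 12, 11]),
    (8, 13, 14, [7, 6, 5, 0, 1, 2, 3, 4, 9, 10, 11, 12, 13]),
    (8, 14, 13, [7, 6, 5, 0, 1, 2, 3, 4, 9, 10, 15, 14]),
    (8, 15, 13, [7, 6, 5, 0, 1, 2, 3, 4, 9, 10, 14, 15]),
    (8, 15, 14, [9, 0, 1, 2, 3, 4, 5, 10, 11, 12, 13, 14, 15]),
    (9, 10, 12, [0, 1, 2, 3, 4, 5, 14, 13, 12, 11, 10]),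
    (9, 10, 13, [0, 1, 2, 3, 4, 5, 15, 14, 13, 12, 11, 10]),
    (9, 11, 13, [0, 1, 2, 3, 4, 5, 10, 15, 14, 13, 12, 11]),
    (9, 13, 13, [0, 1, 2, 3, 4, 5, 14, 15, 10, 11, 12, 13]),
    (9, 14, 12, [0, 1, 2, 3, 4, 5, 10, 11, 12, 13, 14]),
    (9, 14, 13, [0, 1, 2, 3, 4, 5, 15, 10, 11, 12, 13, 14]),
    (9, 15, 12, [0, 1, 2, 3, 4, 10, 11, 12, 13, 14, 15]),
    (9, 15, 13, [0, 1, 2, 3, 4, 5, 10, 11, 12, 13, 14, 15]),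
    (10, 11, 13, [0, 1, 2, 3, 4, 5, 9, 15, 14, 13, 12, 11]),
    (10, 13, 13, [0, 1, 2, 3, 4, 5, 6, 7, 8, 9, 14, 13]),
    (10, 14, 12, [0, 1, 2, 3, 4, 5, 6, 7, 8, 9, 14]),
    (10, 14, 13, [0, 1, 2, 3, 4, 5, 6, 7, 8, 9, 15, 14]),
    (10, 15, 12, [0, 1, 2, 3, 4, 5, 6, 7, 8, 9, 15]),
    (10, 15, 13, [0, 1, 2, 3, 4, 5, 6, 7, 8, 9, 14, 15]),
    (11, 13, 14, [10, 0, 1, 2, 3, 4, 5, 6, 7, 8, 9, 14, 13]),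
    (11, 14, 13, [10, 0, 1, 2, 3, 4, 5, 6, 7, 8, 9, 14]),
    (11, 15, 13, [10, 0, 1, 2, 3, 4, 5, 6, 7, 8, 9, 15]),
    (11, 15, 14, [10, 0, 1, 2, 3, 4, 5, 6, 7, 8, 9, 14, 15]),
    (12, 15, 14, [11, 10, 0, 1, 2, 3, 4, 5, 6, 7, 8, 9, 15]),
    (13, 14, 13, [12, 11, 10, 0, 1, 2, 3, 4, 5, 9, 15, 14]),
    (13, 15, 13, [12, 11, 10, 0, 1, 2, 3, 4, 5, 9, 14, 15]),
    (13, 15, 14, [14, 0, 1, 2, 3, 4, 5, 6, 7, 8, 9, 10, 15]),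
    (14, 15, 12, [0, 1, 2, 3, 4, 5, 6, 7, 8, 9, 15]),
    (14, 15, 13, [0, 1, 2, 3, 4, 5, 6, 7, 8, 9, 10, 15])] = true := by
  decide +kernel

theorem cert11 : certb 15 8 (earPat 2 ++ (earPat 2 ++ (earPat 2 ++ earPat 2)))
    [(0, 0, 1), (1, 1, 2), (2, 0, 1), (5, 0, 1), (6, 1, 2), (9, 1, 2), (10, 1, 2), (13, 1, 2),
     (14, 1, 2)]
   [(0, 1, 14, [4, 5, 6, 7, 8, 9, 10, 11, 12, 15, 3, 2, 1]),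
    (0, 2, 15, [4, 5, 6, 7, 8, 9, 10, 11, 12, 13, 14, 15, 3, 2]),
    (0, 5, 15, [1, 2, 3, 7, 8, 9, 10, 11, 12, 13, 14, 15, 4, 5]),
    (0, 6, 14, [1, 2, 3, 7, 8, 9, 10, 11, 12, 15, 4, 5, 6]),
    (0, 6, 15, [1, 2, 3, 4, 8, 9, 10, 11, 12, 13, 14, 15, 7, 6]),
    (0, 9, 14, [1, 2, 3, 4, 5, 6, 7, 8, 12, 15, 11, 10, 9]),
    (0, 9, 15, [1, 2, 3, 4, 5, 6, 7, 11, 12, 13, 14, 15, 8, 9]),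
    (0, 10, 14, [1, 2, 3, 4, 5, 6, 7, 11, 12, 15, 8, 9, 10]),
    (0, 10, 15, [1, 2, 3, 4, 5, 6, 7, 8, 12, 13, 14, 15, 11, 10]),
    (0, 13, 14, [1, 2, 3, 4, 5, 6, 7, 8, 9, 10, 11, 12, 13]),
    (0, 13, 15, [1, 2, 3, 4, 5, 6, 7, 8, 9, 10, 11, 15, 12, 13]),
    (0, 14, 14, [1, 2, 3, 4, 5, 6, 7, 8, 9, 10, 11, 15, 14]),
    (0, 14, 15, [1, 2, 3, 4, 5, 6, 7, 8, 9, 10, 11, 12, 13, 14]),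
    (1, 2, 14, [0, 4, 5, 6, 7, 8, 9, 10, 11, 12, 15, 3, 2]),
    (1, 3, 15, [0, 4, 5, 6, 7, 8, 9, 10, 11, 12, 13, 14, 15, 3]),
    (1, 4, 15, [0, 3, 8, 9, 10, 11, 12, 13, 14, 15, 7, 6, 5, 4]),
    (1, 5, 14, [0, 3, 7, 8, 9, 10, 11, 12, 13, 14, 15, 4, 5]),
    (1, 5, 15, [0, 3, 4, 8, 9, 10, 11, 12, 13, 14, 15, 7, 6, 5]),
    (1, 6, 13, [0, 3, 7, 8, 9, 10, 11, 12, 15, 4, 5, 6]),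
    (1, 6, 14, [0, 3, 4, 8, 9, 10, 11, 12, 13, 14, 15, 7, 6]),
    (1, 6, 15, [0, 3, 7, 8, 9, 10, 11, 12, 13, 14, 15, 4, 5, 6]),
    (1, 7, 15, [0, 3, 8, 9, 10, 11, 12, 13, 14, 15, 4, 5, 6, 7]),
    (1, 8, 15, [0, 3, 4, 5, 6, 7, 12, 13, 14, 15, 11, 10, 9, 8]),
    (1, 9, 13, [0, 3, 4, 5, 6, 7, 8, 12, 15, 11, 10, 9]),
    (1, 9, 14, [0, 3, 4, 5, 6, 7, 11, 12, 13, 14, 15, 8, 9]),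
    (1, 9, 15, [0, 3, 4, 5, 6, 7, 8, 12, 13, 14, 15, 11, 10, 9]),
    (1, 10, 13, [0, 3, 4, 5, 6, 7, 11, 12, 15, 8, 9, 10]),
    (1, 10, 14, [0, 3, 4, 5, 6, 7, 8, 12, 13, 14, 15, 11, 10]),
    (1, 10, 15, [0, 3, 4, 5, 6, 7, 11, 12, 13, 14, 15, 8, 9, 10]),
    (1, 11, 15, [0, 3, 4, 5, 6, 7, 12, 13, 14, 15, 8, 9, 10, 11]),
    (1, 13, 13, [0, 3, 4, 5, 6, 7, 8, 9, 10, 11, 12, 13]),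
    (1, 13, 14, [0, 3, 4, 5, 6, 7, 8, 9, 10, 11, 15, 12, 13]),
    (1, 13, 15, [0, 3, 4, 5, 6, 7, 8, 9, 10, 11, 12, 15, 14, 13]),
    (1, 14, 13, [0, 3, 4, 5, 6, 7, 8, 9, 10, 11, 15, 14]),
    (1, 14, 14, [0, 3, 4, 5, 6, 7, 8, 9, 10, 11, 12, 13, 14]),
    (1, 14, 15, [0, 3, 4, 5, 6, 7, 8, 9, 10, 11, 15, 12, 13, 14]),
    (2, 5, 15, [1, 0, 3, 7, 8, 9, 10, 11, 12, 13, 14, 15, 4, 5]),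
    (2, 6, 14, [1, 0, 3, 7, 8, 9, 10, 11, 12, 15, 4, 5, 6]),
    (2, 6, 15, [1, 0, 3, 4, 8, 9, 10, 11, 12, 13, 14, 15, 7, 6]),
    (2, 9, 14, [1, 0, 3, 4, 5, 6, 7, 8, 12, 15, 11, 10, 9]),
    (2, 9, 15, [1, 0, 3, 4, 5, 6, 7, 11, 12, 13, 14, 15, 8, 9]),
    (2, 10, 14, [1, 0, 3, 4, 5, 6, 7, 11, 12, 15, 8, 9, 10]),
    (2, 10, 15, [1, 0, 3, 4, 5, 6, 7, 8, 12, 13, 14, 15, 11, 10]),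
    (2, 13, 14, [1, 0, 3, 4, 5, 6, 7, 8, 9, 10, 11, 12, 13]),
    (2, 13, 15, [1, 0, 3, 4, 5, 6, 7, 8, 9, 10, 11, 15, 12, 13]),
    (2, 14, 14, [1, 0, 3, 4, 5, 6, 7, 8, 9, 10, 11, 15, 14]),
    (2, 14, 15, [1, 0, 3, 4, 5, 6, 7, 8, 9, 10, 11, 12, 13, 14]),
    (3, 6, 15, [2, 1, 0, 4, 8, 9, 10, 11, 12, 13, 14, 15, 7, 6]),
    (3, 9, 15, [2, 1, 0, 4, 5, 6, 7, 11, 12, 13, 14, 15, 8, 9]),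
    (3, 10, 15, [2, 1, 0, 4, 5, 6, 7, 8, 12, 13, 14, 15, 11, 10]),
    (3, 13, 15, [2, 1, 0, 4, 5, 6, 7, 8, 9, 10, 11, 15, 12, 13]),
    (3, 14, 15, [2, 1, 0, 4, 5, 6, 7, 8, 9, 10, 11, 12, 13, 14]),
    (4, 6, 15, [0, 1, 2, 3, 8, 9, 10, 11, 12, 13, 14, 15, 7, 6]),
    (4, 9, 15, [5, 6, 7, 0, 1, 2, 3, 11, 12, 13, 14, 15, 8, 9]),
    (4, 10, 15, [5, 6, 7, 0, 1, 2, 3, 8, 12, 13, 14, 15, 11, 10]),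
    (4, 13, 15, [5, 6, 7, 0, 1, 2, 3, 8, 9, 10, 11, 15, 12, 13]),
    (4, 14, 15, [5, 6, 7, 0, 1, 2, 3, 8, 9, 10, 11, 12, 13, 14]),
    (5, 6, 14, [4, 0, 1, 2, 3, 8, 9, 10, 11, 12, 15, 7, 6]),
    (5, 9, 14, [4, 0, 1, 2, 3, 7, 11, 12, 13, 14, 15, 8, 9]),
    (5, 9, 15, [4, 0, 1, 2, 3, 7, 8, 12, 13, 14, 15, 11, 10, 9]),
    (5, 10, 14, [4, 0, 1, 2, 3, 7, 8, 12, 13, 14, 15, 11, 10]),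
    (5, 10, 15, [4, 0, 1, 2, 3, 7, 11, 12, 13, 14, 15, 8, 9, 10]),
    (5, 13, 14, [4, 0, 1, 2, 3, 7, 8, 9, 10, 11, 15, 12, 13]),
    (5, 13, 15, [4, 0, 1, 2, 3, 7, 8, 9, 10, 11, 12, 15, 14, 13]),
    (5, 14, 14, [4, 0, 1, 2, 3, 7, 8, 9, 10, 11, 12, 13, 14]),
    (5, 14, 15, [4, 0, 1, 2, 3, 7, 8, 9, 10, 11, 15, 12, 13, 14]),
    (6, 8, 15, [5, 4, 0, 1, 2, 3, 12, 13, 14, 15, 11, 10, 9, 8]),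
    (6, 9, 13, [5, 4, 0, 1, 2, 3, 7, 8, 12, 11, 10, 9]),
    (6, 9, 14, [5, 4, 0, 1, 2, 3, 7, 8, 12, 15, 11, 10, 9]),
    (6, 9, 15, [5, 4, 0, 1, 2, 3, 7, 11, 12, 13, 14, 15, 8, 9]),
    (6, 10, 13, [5, 4, 0, 1, 2, 3, 7, 8, 12, 15, 11, 10]),
    (6, 10, 14, [5, 4, 0, 1, 2, 3, 7, 11, 12, 15, 8, 9, 10]),
    (6, 10, 15, [5, 4, 0, 1, 2, 3, 7, 8, 12, 13, 14, 15, 11, 10]),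
    (6, 11, 15, [5, 4, 0, 1, 2, 3, 12, 13, 14, 15, 8, 9, 10, 11]),
    (6, 13, 13, [5, 4, 0, 1, 2, 3, 7, 8, 11, 15, 12, 13]),
    (6, 13, 14, [5, 4, 0, 1, 2, 3, 7, 8, 9, 10, 11, 12, 13]),
    (6, 13, 15, [5, 4, 0, 1, 2, 3, 7, 8, 9, 10, 11, 15, 12, 13]),
    (6, 14, 13, [5, 4, 0, 1, 2, 3, 7, 8, 11, 12, 13, 14]),
    (6, 14, 14, [5, 4, 0, 1, 2, 3, 7, 8, 9, 10, 11, 15, 14]),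
    (6, 14, 15, [5, 4, 0, 1, 2, 3, 7, 8, 9, 10, 11, 12, 13, 14]),
    (7, 9, 15, [6, 5, 4, 0, 1, 2, 3, 11, 12, 13, 14, 15, 8, 9]),
    (7, 10, 15, [6, 5, 4, 0, 1, 2, 3, 8, 12, 13, 14, 15, 11, 10]),
    (7, 13, 15, [6, 5, 4, 0, 1, 2, 3, 8, 9, 10, 11, 15, 12, 13]),
    (7, 14, 15, [6, 5, 4, 0, 1, 2, 3, 8, 9, 10, 11, 12, 13, 14]),
    (8, 10, 15, [0, 1, 2, 3, 4, 5, 6, 7, 12, 13, 14, 15, 11, 10]),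
    (8, 13, 15, [9, 10, 11, 0, 1, 2, 3, 4, 5, 6, 7, 15, 12, 13]),
    (8, 14, 15, [9, 10, 11, 0, 1, 2, 3, 4, 5, 6, 7, 12, 13, 14]),
    (9, 10, 13, [8, 0, 1, 2, 3, 4, 5, 6, 7, 12, 11, 10]),
    (9, 10, 14, [8, 0, 1, 2, 3, 4, 5, 6, 7, 12, 15, 11, 10]),
    (9, 11, 15, [8, 0, 1, 2, 3, 4, 5, 6, 7, 12, 13, 14, 15, 11]),
    (9, 13, 13, [8, 0, 1, 2, 3, 4, 5, 6, 7, 11, 12, 13]),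
    (9, 13, 14, [8, 0, 1, 2, 3, 4, 5, 6, 7, 11, 15, 12, 13]),
    (9, 14, 13, [8, 0, 1, 2, 3, 4, 5, 6, 7, 11, 15, 14]),
    (9, 14, 14, [8, 0, 1, 2, 3, 4, 5, 6, 7, 11, 12, 13, 14]),
    (10, 13, 13, [9, 8, 0, 1, 2, 3, 4, 5, 6, 7, 12, 13]),
    (10, 13, 14, [9, 8, 0, 1, 2, 3, 4, 5, 6, 7, 11, 12, 13]),
    (10, 14, 13, [9, 8, 0, 1, 2, 3, 4, 5, 6, 7, 15, 14]),
    (10, 14, 14, [9, 8, 0, 1, 2, 3, 4, 5, 6, 7, 11, 15, 14]),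
    (13, 14, 13, [12, 0, 1, 2, 3, 4, 5, 6, 7, 8, 15, 14]),
    (13, 14, 14, [12, 0, 1, 2, 3, 4, 5, 6, 7, 8, 11, 15, 14])] = true := by
  decide +kernel

theorem cert12 : certb 16 8 (earPat 2 ++ (earPat 2 ++ (earPat 2 ++ earPat 3)))
    [(0, 0, 1), (1, 1, 2), (2, 0, 1), (5, 1, 2), (6, 1, 2), (9, 1, 2), (10, 1, 2), (13, 0, 1),
     (14, 1, 2), (15, 0, 1)]
   [(0, 1, 15, [4, 5, 6, 7, 8, 11, 12, 13, 14, 15, 16, 3, 2, 1]),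
    (0, 2, 16, [4, 5, 6, 7, 8, 9, 10, 11, 12, 13, 14, 15, 16, 3, 2]),
    (0, 5, 15, [1, 2, 3, 4, 8, 11, 12, 13, 14, 15, 16, 7, 6, 5]),
    (0, 5, 16, [1, 2, 3, 7, 8, 9, 10, 11, 12, 13, 14, 15, 16, 4, 5]),
    (0, 6, 15, [1, 2, 3, 7, 8, 11, 12, 13, 14, 15, 16, 4, 5, 6]),
    (0, 6, 16, [1, 2, 3, 4, 8, 9, 10, 11, 12, 13, 14, 15, 16, 7, 6]),
    (0, 9, 15, [1, 2, 3, 4, 5, 6, 7, 12, 13, 14, 15, 16, 8, 9]),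
    (0, 9, 16, [1, 2, 3, 4, 5, 6, 7, 11, 12, 13, 14, 15, 16, 8, 9]),
    (0, 10, 15, [1, 2, 3, 4, 5, 6, 7, 12, 13, 14, 15, 16, 11, 10]),
    (0, 10, 16, [1, 2, 3, 4, 5, 6, 7, 8, 12, 13, 14, 15, 16, 11, 10]),
    (0, 13, 16, [1, 2, 3, 4, 5, 6, 7, 8, 9, 10, 11, 16, 15, 14, 13]),
    (0, 14, 15, [1, 2, 3, 4, 5, 6, 7, 8, 9, 10, 11, 12, 13, 14]),
    (0, 14, 16, [1, 2, 3, 4, 5, 6, 7, 8, 9, 10, 11, 12, 16, 15, 14]),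
    (0, 15, 16, [1, 2, 3, 4, 5, 6, 7, 8, 9, 10, 11, 12, 13, 14, 15]),
    (1, 2, 15, [0, 4, 5, 6, 7, 8, 11, 12, 13, 14, 15, 16, 3, 2]),
    (1, 3, 16, [0, 4, 5, 6, 7, 8, 9, 10, 11, 12, 13, 14, 15, 16, 3]),
    (1, 4, 16, [0, 3, 8, 9, 10, 11, 12, 13, 14, 15, 16, 7, 6, 5, 4]),
    (1, 5, 14, [0, 3, 4, 8, 11, 12, 13, 14, 15, 16, 7, 6, 5]),
    (1, 5, 15, [0, 3, 7, 8, 9, 10, 11, 12, 13, 14, 15, 16, 4, 5]),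
    (1, 5, 16, [0, 3, 4, 8, 9, 10, 11, 12, 13, 14, 15, 16, 7, 6, 5]),
    (1, 6, 14, [0, 3, 7, 8, 11, 12, 13, 14, 15, 16, 4, 5, 6]),
    (1, 6, 15, [0, 3, 4, 8, 9, 10, 11, 12, 13, 14, 15, 16, 7, 6]),
    (1, 6, 16, [0, 3, 7, 8, 9, 10, 11, 12, 13, 14, 15, 16, 4, 5, 6]),
    (1, 7, 16, [0, 3, 8, 9, 10, 11, 12, 13, 14, 15, 16, 4, 5, 6, 7]),
    (1, 8, 16, [0, 3, 4, 5, 6, 7, 12, 13, 14, 15, 16, 11, 10, 9, 8]),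
    (1, 9, 14, [0, 3, 4, 5, 6, 7, 12, 13, 14, 15, 16, 8, 9]),
    (1, 9, 15, [0, 3, 4, 5, 6, 7, 11, 12, 13, 14, 15, 16, 8, 9]),
    (1, 9, 16, [0, 3, 4, 5, 6, 7, 8, 12, 13, 14, 15, 16, 11, 10, 9]),
    (1, 10, 14, [0, 3, 4, 5, 6, 7, 12, 13, 14, 15, 16, 11, 10]),
    (1, 10, 15, [0, 3, 4, 5, 6, 7, 8, 12, 13, 14, 15, 16, 11, 10]),
    (1, 10, 16, [0, 3, 4, 5, 6, 7, 11, 12, 13, 14, 15, 16, 8, 9, 10]),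
    (1, 11, 16, [0, 3, 4, 5, 6, 7, 12, 13, 14, 15, 16, 8, 9, 10, 11]),
    (1, 13, 15, [0, 3, 4, 5, 6, 7, 8, 9, 10, 11, 16, 15, 14, 13]),
    (1, 14, 14, [0, 3, 4, 5, 6, 7, 8, 9, 10, 11, 12, 13, 14]),
    (1, 14, 15, [0, 3, 4, 5, 6, 7, 8, 9, 10, 11, 12, 16, 15, 14]),
    (1, 14, 16, [2, 3, 0, 4, 5, 6, 7, 8, 9, 10, 11, 12, 16, 15, 14]),
    (1, 15, 15, [0, 3, 4, 5, 6, 7, 8, 9, 10, 11, 12, 13, 14, 15]),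
    (2, 5, 15, [1, 0, 3, 4, 8, 11, 12, 13, 14, 15, 16, 7, 6, 5]),
    (2, 5, 16, [1, 0, 3, 7, 8, 9, 10, 11, 12, 13, 14, 15, 16, 4, 5]),
    (2, 6, 15, [1, 0, 3, 7, 8, 11, 12, 13, 14, 15, 16, 4, 5, 6]),
    (2, 6, 16, [1, 0, 3, 4, 8, 9, 10, 11, 12, 13, 14, 15, 16, 7, 6]),
    (2, 9, 15, [1, 0, 3, 4, 5, 6, 7, 12, 13, 14, 15, 16, 8, 9]),
    (2, 9, 16, [1, 0, 3, 4, 5, 6, 7, 11, 12, 13, 14, 15, 16, 8, 9]),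
    (2, 10, 15, [1, 0, 3, 4, 5, 6, 7, 12, 13, 14, 15, 16, 11, 10]),
    (2, 10, 16, [1, 0, 3, 4, 5, 6, 7, 8, 12, 13, 14, 15, 16, 11, 10]),
    (2, 13, 16, [1, 0, 3, 4, 5, 6, 7, 8, 9, 10, 11, 16, 15, 14, 13]),
    (2, 14, 15, [1, 0, 3, 4, 5, 6, 7, 8, 9, 10, 11, 12, 13, 14]),
    (2, 14, 16, [1, 0, 3, 4, 5, 6, 7, 8, 9, 10, 11, 12, 16, 15, 14]),
    (2, 15, 16, [1, 0, 3, 4, 5, 6, 7, 8, 9, 10, 11, 12, 13, 14, 15]),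
    (3, 5, 16, [2, 1, 0, 7, 8, 9, 10, 11, 12, 13, 14, 15, 16, 4, 5]),
    (3, 6, 16, [2, 1, 0, 4, 8, 9, 10, 11, 12, 13, 14, 15, 16, 7, 6]),
    (3, 9, 16, [2, 1, 0, 4, 5, 6, 7, 11, 12, 13, 14, 15, 16, 8, 9]),
    (3, 10, 16, [2, 1, 0, 4, 5, 6, 7, 8, 12, 13, 14, 15, 16, 11, 10]),
    (3, 14, 16, [2, 1, 0, 4, 5, 6, 7, 8, 9, 10, 11, 12, 16, 15, 14]),
    (4, 6, 16, [0, 1, 2, 3, 8, 9, 10, 11, 12, 13, 14, 15, 16, 7, 6]),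
    (4, 9, 16, [5, 6, 7, 0, 1, 2, 3, 11, 12, 13, 14, 15, 16, 8, 9]),
    (4, 10, 16, [5, 6, 7, 0, 1, 2, 3, 8, 12, 13, 14, 15, 16, 11, 10]),
    (4, 14, 16, [5, 6, 7, 0, 1, 2, 3, 8, 9, 10, 11, 12, 16, 15, 14]),
    (5, 6, 14, [4, 0, 1, 2, 3, 8, 9, 10, 11, 12, 16, 7, 6]),
    (5, 6, 15, [4, 0, 1, 2, 3, 8, 11, 12, 13, 14, 15, 16, 7, 6]),
    (5, 7, 16, [4, 0, 1, 2, 3, 8, 9, 10, 11, 12, 13, 14, 15, 16, 7]),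
    (5, 8, 16, [4, 0, 1, 2, 3, 7, 12, 13, 14, 15, 16, 11, 10, 9, 8]),
    (5, 9, 14, [4, 0, 1, 2, 3, 7, 12, 13, 14, 15, 16, 8, 9]),
    (5, 9, 15, [4, 0, 1, 2, 3, 7, 11, 12, 13, 14, 15, 16, 8, 9]),
    (5, 9, 16, [4, 0, 1, 2, 3, 7, 8, 12, 13, 14, 15, 16, 11, 10, 9]),
    (5, 10, 14, [4, 0, 1, 2, 3, 7, 12, 13, 14, 15, 16, 11, 10]),
    (5, 10, 15, [4, 0, 1, 2, 3, 7, 8, 12, 13, 14, 15, 16, 11, 10]),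
    (5, 10, 16, [4, 0, 1, 2, 3, 7, 11, 12, 13, 14, 15, 16, 8, 9, 10]),
    (5, 11, 16, [4, 0, 1, 2, 3, 7, 12, 13, 14, 15, 16, 8, 9, 10, 11]),
    (5, 13, 15, [4, 0, 1, 2, 3, 7, 8, 9, 10, 11, 16, 15, 14, 13]),
    (5, 14, 14, [4, 0, 1, 2, 3, 7, 8, 9, 10, 11, 12, 13, 14]),
    (5, 14, 15, [4, 0, 1, 2, 3, 7, 8, 9, 10, 11, 12, 16, 15, 14]),
    (5, 14, 16, [6, 7, 0, 1, 2, 3, 4, 8, 9, 10, 11, 12, 16, 15, 14]),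
    (5, 15, 15, [4, 0, 1, 2, 3, 7, 8, 9, 10, 11, 12, 13, 14, 15]),
    (6, 8, 16, [5, 4, 0, 1, 2, 3, 12, 13, 14, 15, 16, 11, 10, 9, 8]),
    (6, 9, 14, [5, 4, 0, 1, 2, 3, 7, 8, 12, 16, 11, 10, 9]),
    (6, 9, 15, [5, 4, 0, 1, 2, 3, 7, 12, 13, 14, 15, 16, 8, 9]),
    (6, 9, 16, [5, 4, 0, 1, 2, 3, 7, 11, 12, 13, 14, 15, 16, 8, 9]),
    (6, 10, 14, [5, 4, 0, 1, 2, 3, 7, 11, 12, 16, 8, 9, 10]),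
    (6, 10, 15, [5, 4, 0, 1, 2, 3, 7, 12, 13, 14, 15, 16, 11, 10]),
    (6, 10, 16, [5, 4, 0, 1, 2, 3, 7, 8, 12, 13, 14, 15, 16, 11, 10]),
    (6, 11, 16, [5, 4, 0, 1, 2, 3, 12, 13, 14, 15, 16, 8, 9, 10, 11]),
    (6, 13, 15, [5, 4, 0, 1, 2, 3, 7, 8, 9, 10, 11, 16, 12, 13]),
    (6, 14, 14, [5, 4, 0, 1, 2, 3, 7, 8, 11, 12, 16, 15, 14]),
    (6, 14, 15, [5, 4, 0, 1, 2, 3, 7, 8, 9, 10, 11, 12, 13, 14]),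
    (6, 14, 16, [5, 4, 0, 1, 2, 3, 7, 8, 9, 10, 11, 12, 16, 15, 14]),
    (6, 15, 15, [5, 4, 0, 1, 2, 3, 7, 8, 9, 10, 11, 12, 16, 15]),
    (7, 9, 16, [6, 5, 4, 0, 1, 2, 3, 11, 12, 13, 14, 15, 16, 8, 9]),
    (7, 10, 16, [6, 5, 4, 0, 1, 2, 3, 8, 12, 13, 14, 15, 16, 11, 10]),
    (7, 14, 16, [6, 5, 4, 0, 1, 2, 3, 8, 9, 10, 11, 12, 16, 15, 14]),
    (8, 10, 16, [0, 1, 2, 3, 4, 5, 6, 7, 12, 13, 14, 15, 16, 11, 10]),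
    (8, 14, 16, [9, 10, 11, 0, 1, 2, 3, 4, 5, 6, 7, 12, 16, 15, 14]),
    (9, 10, 14, [8, 0, 1, 2, 3, 4, 5, 6, 7, 12, 16, 11, 10]),
    (9, 10, 15, [8, 0, 1, 2, 3, 4, 7, 12, 13, 14, 15, 16, 11, 10]),
    (9, 11, 16, [8, 0, 1, 2, 3, 4, 5, 6, 7, 12, 13, 14, 15, 16, 11]),
    (9, 13, 15, [8, 0, 1, 2, 3, 4, 5, 6, 7, 11, 16, 15, 14, 13]),
    (9, 14, 14, [8, 0, 1, 2, 3, 4, 5, 6, 7, 11, 12, 13, 14]),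
    (9, 14, 15, [8, 0, 1, 2, 3, 4, 5, 6, 7, 11, 12, 16, 15, 14]),
    (9, 15, 15, [8, 0, 1, 2, 3, 4, 5, 6, 7, 11, 12, 13, 14, 15]),
    (10, 13, 15, [9, 8, 0, 1, 2, 3, 4, 5, 6, 7, 11, 16, 12, 13]),
    (10, 14, 14, [9, 8, 0, 1, 2, 3, 4, 5, 6, 7, 12, 13, 14]),
    (10, 14, 15, [9, 8, 0, 1, 2, 3, 4, 5, 6, 7, 11, 12, 13, 14]),
    (10, 15, 15, [9, 8, 0, 1, 2, 3, 4, 5, 6, 7, 11, 12, 16, 15]),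
    (13, 14, 15, [12, 0, 1, 2, 3, 4, 5, 6, 7, 8, 11, 16, 15, 14]),
    (13, 15, 16, [12, 0, 1, 2, 3, 4, 5, 6, 7, 8, 9, 10, 11, 16, 15]),
    (14, 15, 15, [13, 12, 0, 1, 2, 3, 4, 5, 6, 7, 8, 11, 16, 15])] = true := by
  decide +kernel

end Vale.Agent.P048
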