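import Vale.Agent.P048.Engine2

/-!
# P048: the certificates for `m = 5, 6, 7`
-/

namespace Vale.Agent.P048

theorem tcert0 : certb2 5 4 0 0 (earPat 4 ++ [true, true])
    [(0, 0, 1), (2, 0, 1), (4, 0, 1), (6, 1, 1), (7, 1, 1)]
   [(0, 2, 5, [5, 4, 3, 2]), (0, 4, 5, [1, 2, 3, 4]), (0, 6, 4, [5, 7, 6]), (0, 7, 4, [5, 6, 7]),
    (1, 6, 5, [0, 5, 7, 6]), (1, 7, 5, [0, 5, 6, 7]), (2, 4, 5, [1, 0, 5, 4]),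
    (2, 6, 4, [1, 0, 6]), (2, 6, 5, [1, 0, 5, 6]), (2, 7, 4, [1, 0, 7]), (2, 7, 5, [1, 0, 5, 7]),
    (3, 6, 5, [2, 1, 0, 6]), (3, 7, 5, [2, 1, 0, 7]), (4, 6, 4, [5, 0, 6]),
    (4, 6, 5, [5, 0, 7, 6]), (4, 7, 4, [5, 0, 7]), (4, 7, 5, [5, 0, 6, 7]), (6, 7, 3, [0, 7]),
    (6, 7, 4, [0, 5, 7])]
   [] = true := by
  decide +kernel

theorem tcert1 : certb2 6 4 0 0 (earPat 1 ++ [true, true])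
    [(0, 0, 1), (1, 1, 1), (3, 2, 2), (4, 2, 2)]
   [(0, 1, 5, [3, 4, 2, 1]), (0, 3, 4, [1, 2, 3]), (0, 3, 5, [1, 2, 4, 3]), (0, 4, 4, [1, 2, 4]),
    (0, 4, 5, [1, 2, 3, 4]), (1, 3, 3, [0, 3]), (1, 3, 4, [0, 2, 3]), (1, 3, 5, [0, 2, 4, 3]),
    (1, 4, 3, [0, 4]), (1, 4, 4, [0, 2, 4]), (1, 4, 5, [0, 2, 3, 4]), (2, 3, 5, [1, 0, 4, 3]),
    (2, 4, 5, [1, 0, 3, 4]), (3, 4, 2, [4]), (3, 4, 3, [0, 4]), (3, 4, 4, [0, 2, 4]),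
    (3, 4, 5, [0, 1, 2, 4])]
   [] = true := by
  decide +kernel

theorem tcert2 : certb2 7 4 0 0 (earPat 2 ++ earPat 2)
    [(0, 0, 1), (1, 1, 2), (2, 0, 1), (5, 0, 1), (6, 1, 2)]
   [(0, 1, 6, [4, 7, 3, 2, 1]), (0, 2, 7, [4, 5, 6, 7, 3, 2]), (0, 5, 7, [1, 2, 3, 7, 4, 5]),
    (0, 6, 6, [1, 2, 3, 7, 6]), (0, 6, 7, [1, 2, 3, 4, 5, 6]), (1, 2, 6, [0, 4, 7, 3, 2]),
    (1, 3, 7, [0, 4, 5, 6, 7, 3]), (1, 4, 7, [0, 3, 7, 6, 5, 4]), (1, 5, 6, [0, 3, 7, 4, 5]),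
    (1, 5, 7, [0, 3, 4, 7, 6, 5]), (1, 6, 5, [0, 3, 7, 6]), (1, 6, 6, [0, 3, 4, 5, 6]),
    (1, 6, 7, [0, 3, 7, 4, 5, 6]), (1, 7, 7, [0, 3, 4, 5, 6, 7]), (2, 5, 7, [1, 0, 3, 7, 4, 5]),
    (2, 6, 6, [1, 0, 3, 7, 6]), (2, 6, 7, [1, 0, 3, 4, 5, 6]), (3, 6, 7, [2, 1, 0, 4, 5, 6]),
    (4, 6, 7, [0, 1, 2, 3, 7, 6]), (5, 6, 6, [4, 0, 3, 7, 6])]
   [] = true := by
  decide +kernel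

theorem tcert3 : certb2 7 4 6 10 (earPat 2 ++ [true, true])
    [(0, 0, 1), (1, 2, 2), (4, 2, 2), (5, 2, 2)]
   [(0, 1, 5, [4, 3, 2, 1]), (0, 1, 6, [4, 5, 3, 2, 1]), (0, 4, 5, [1, 2, 3, 4]),
    (0, 4, 6, [1, 2, 3, 5, 4]), (0, 5, 5, [1, 2, 3, 5]), (0, 5, 6, [1, 2, 3, 4, 5]),
    (1, 2, 6, [0, 4, 5, 3, 2]), (1, 4, 3, [0, 4]), (1, 4, 4, [0, 3, 4]), (1, 4, 5, [0, 3, 5, 4]),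
    (1, 4, 6, [2, 3, 0, 5, 4]), (1, 5, 3, [0, 5]), (1, 5, 4, [0, 3, 5]), (1, 5, 5, [0, 3, 4, 5]),
    (1, 5, 6, [2, 3, 0, 4, 5]), (2, 4, 6, [1, 0, 3, 5, 4]), (2, 5, 6, [1, 0, 3, 4, 5]),
    (4, 5, 3, [0, 5]), (4, 5, 4, [0, 3, 5]), (4, 5, 6, [0, 1, 2, 3, 5])]
   [(4, 5, 2, [], [0, 1, 2, 3, 5])] = true := by
  decide +kernel

theorem tcert4 : certb2 7 4 6 10 (earPat 1 ++ earPat 1)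
    [(0, 2, 2), (1, 0, 1), (3, 2, 2), (4, 2, 2)]
   [(0, 1, 5, [3, 5, 2, 1]), (0, 1, 6, [3, 4, 5, 2, 1]), (0, 3, 3, [2, 3]), (0, 3, 4, [1, 2, 3]),
    (0, 3, 5, [1, 2, 5, 3]), (0, 3, 6, [1, 2, 5, 4, 3]), (0, 4, 3, [3, 4]), (0, 4, 4, [2, 3, 4]),
    (0, 4, 5, [1, 2, 3, 4]), (0, 4, 6, [1, 2, 3, 5, 4]), (0, 5, 6, [1, 2, 3, 4, 5]),
    (1, 3, 5, [0, 2, 5, 3]), (1, 3, 6, [0, 2, 5, 4, 3]), (1, 4, 5, [0, 2, 3, 4]),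
    (1, 4, 6, [0, 2, 3, 5, 4]), (2, 3, 6, [1, 0, 5, 4, 3]), (2, 4, 6, [1, 0, 3, 5, 4]),
    (3, 4, 3, [5, 4]), (3, 4, 4, [0, 5, 4]), (3, 4, 5, [0, 2, 5, 4]), (3, 4, 6, [0, 1, 2, 5, 4])]
   [] = true := by
  decide +kernel

theorem tcert5 : certb2 7 4 6 10 (earPat2 1 1 ++ [true])
    [(0, 0, 1), (1, 2, 2), (3, 2, 2), (5, 2, 2)]
   [(0, 1, 5, [4, 3, 2, 1]), (0, 1, 6, [5, 4, 3, 2, 1]), (0, 3, 5, [1, 2, 4, 3]),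
    (0, 3, 6, [1, 2, 5, 4, 3]), (0, 5, 5, [1, 2, 4, 5]), (0, 5, 6, [1, 2, 3, 4, 5]),
    (1, 2, 6, [0, 5, 4, 3, 2]), (1, 3, 3, [2, 3]), (1, 3, 4, [0, 2, 3]), (1, 3, 5, [0, 2, 4, 3]),
    (1, 3, 6, [0, 2, 5, 4, 3]), (1, 5, 3, [0, 5]), (1, 5, 4, [0, 2, 5]), (1, 5, 5, [0, 2, 4, 5]),
    (1, 5, 6, [0, 2, 3, 4, 5]), (2, 3, 6, [1, 0, 5, 4, 3]), (3, 5, 3, [2, 5]),
    (3, 5, 4, [2, 0, 5]), (3, 5, 5, [2, 0, 4, 5]), (3, 5, 6, [2, 1, 0, 4, 5]),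
    (4, 5, 6, [3, 2, 1, 0, 5])]
   [] = true := by
  decide +kernel

end Vale.Agent.P048
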