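import Vale.Agent.P048.Tree

/-!
# P048: the decision trees for graphs with few vertices
-/

namespace Vale.Agent.P048

/-- a graph on `7` vertices without independent triple and `K_4` has a `C_5` -/
theorem treeF5 : ∃ t : Tr, t.check 7 5 4 3 (mask []) 0 = true :=
  ⟨.b 0 1 (.b 2 3 (.b 2 6 (.b 0 3 (.b 1 6 (.c [0, 1, 6, 2, 3]) (.b 4 6 (.b 0 4 (.c [0, 3, 2, 6, 4])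
    (.b 1 3 (.b 0 6 (.c [0, 1, 3, 2, 6]) (.b 1 4 (.c [1, 3, 2, 6, 4]) (.b 0 5 (.b 2 5 (.c [0, 1, 3,
    2, 5]) (.b 5 6 (.c [0, 3, 2, 6, 5]) (.b 1 5 (.b 0 2 (.c [0, 2, 3, 1, 5]) (.b 1 2 (.c [0, 3, 2,
    1, 5]) (.b 3 5 (.k [0, 1, 3, 5]) (.b 2 4 (.b 4 5 (.c [0, 3, 2, 4, 5]) (.b 3 4 (.b 3 6 (.k [2, 3,
    4, 6]) (.i [3, 5, 6])) (.i [3, 4, 5]))) (.i [0, 2, 4]))))) (.i [1, 5, 6])))) (.b 4 5 (.b 3 5 (.c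
    [2, 3, 5, 4, 6]) (.b 5 6 (.b 1 5 (.c [1, 3, 2, 6, 5]) (.b 3 4 (.c [2, 3, 4, 5, 6]) (.b 0 2 (.b 3
    6 (.c [0, 1, 3, 6, 2]) (.b 1 2 (.k [0, 1, 2, 3]) (.b 2 4 (.b 2 5 (.k [2, 4, 5, 6]) (.i [1, 2,
    5])) (.i [1, 2, 4])))) (.b 2 4 (.b 3 6 (.c [2, 3, 6, 5, 4]) (.b 2 5 (.k [2, 4, 5, 6]) (.i [0, 2,
    5]))) (.i [0, 2, 4]))))) (.i [0, 5, 6]))) (.i [0, 4, 5]))))) (.b 3 6 (.b 1 2 (.c [0, 1, 2, 6,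
    3]) (.b 1 4 (.c [0, 1, 4, 6, 3]) (.b 2 4 (.b 0 2 (.c [0, 2, 4, 6, 3]) (.b 0 6 (.c [0, 3, 2, 4,
    6]) (.b 3 4 (.k [2, 3, 4, 6]) (.i [1, 3, 4])))) (.i [1, 2, 4])))) (.i [1, 3, 6])))) (.b 1 4 (.b
    2 4 (.c [0, 1, 4, 2, 3]) (.b 4 5 (.b 3 5 (.c [0, 1, 4, 5, 3]) (.b 5 6 (.b 0 6 (.c [0, 1, 4, 5,
    6]) (.b 0 5 (.c [0, 3, 2, 6, 5]) (.b 1 2 (.c [1, 2, 6, 5, 4]) (.b 3 4 (.c [2, 3, 4, 5, 6]) (.b 0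
    4 (.b 0 2 (.c [0, 2, 6, 5, 4]) (.b 2 5 (.c [0, 3, 2, 5, 4]) (.i [0, 2, 5]))) (.i [0, 4, 6]))))))
    (.b 1 5 (.b 2 5 (.c [0, 1, 5, 2, 3]) (.b 3 4 (.c [0, 1, 5, 4, 3]) (.b 3 6 (.b 1 2 (.c [0, 1, 2,
    6, 3]) (.b 0 2 (.b 1 3 (.c [0, 1, 3, 6, 2]) (.b 0 6 (.k [0, 2, 3, 6]) (.b 0 4 (.b 0 5 (.k [0, 1,
    4, 5]) (.i [0, 5, 6])) (.i [0, 4, 6])))) (.b 0 4 (.b 1 3 (.c [0, 3, 1, 5, 4]) (.b 0 5 (.k [0, 1,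
    4, 5]) (.i [0, 2, 5]))) (.i [0, 2, 4])))) (.i [3, 4, 6])))) (.i [1, 5, 6])))) (.b 2 5 (.b 1 5
    (.c [0, 1, 5, 2, 3]) (.b 5 6 (.b 0 6 (.c [0, 3, 2, 5, 6]) (.b 0 5 (.c [0, 3, 2, 6, 5]) (.b 0 4
    (.b 1 2 (.c [0, 3, 2, 1, 4]) (.b 1 3 (.b 0 2 (.c [0, 2, 3, 1, 4]) (.b 3 4 (.k [0, 1, 3, 4]) (.b
    3 5 (.b 3 6 (.k [2, 3, 5, 6]) (.i [3, 4, 6])) (.i [3, 4, 5])))) (.b 3 5 (.b 0 2 (.c [0, 2, 6, 5,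
    3]) (.b 3 6 (.k [2, 3, 5, 6]) (.i [1, 3, 6]))) (.i [1, 3, 5])))) (.i [0, 4, 5])))) (.i [1, 5,
    6]))) (.i [2, 4, 5])))) (.i [1, 4, 6])))) (.b 0 6 (.b 1 3 (.c [0, 1, 3, 2, 6]) (.b 3 5 (.b 0 5
    (.c [0, 5, 3, 2, 6]) (.b 0 4 (.b 3 4 (.c [0, 4, 3, 2, 6]) (.b 1 4 (.b 2 4 (.c [0, 1, 4, 2, 6])
    (.b 1 2 (.c [0, 4, 1, 2, 6]) (.b 2 5 (.b 1 5 (.c [0, 1, 5, 2, 6]) (.b 4 5 (.c [0, 4, 5, 2, 6])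
    (.b 1 6 (.b 0 2 (.c [0, 2, 6, 1, 4]) (.b 4 6 (.k [0, 1, 4, 6]) (.b 3 6 (.b 5 6 (.k [2, 3, 5, 6])
    (.i [4, 5, 6])) (.i [3, 4, 6])))) (.b 3 6 (.b 0 2 (.c [0, 2, 5, 3, 6]) (.b 5 6 (.k [2, 3, 5, 6])
    (.i [1, 5, 6]))) (.i [1, 3, 6]))))) (.b 0 2 (.b 4 6 (.c [0, 1, 4, 6, 2]) (.b 1 5 (.c [0, 1, 5,
    3, 2]) (.i [1, 2, 5]))) (.i [0, 2, 5]))))) (.i [1, 3, 4]))) (.b 3 4 (.b 4 5 (.b 5 6 (.c [2, 3,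
    4, 5, 6]) (.b 4 6 (.c [2, 3, 5, 4, 6]) (.b 1 6 (.b 1 4 (.c [1, 4, 3, 2, 6]) (.b 1 5 (.c [1, 5,
    3, 2, 6]) (.b 0 2 (.b 3 6 (.c [0, 1, 6, 3, 2]) (.b 1 2 (.k [0, 1, 2, 6]) (.b 2 4 (.b 2 5 (.k [2,
    3, 4, 5]) (.i [1, 2, 5])) (.i [1, 2, 4])))) (.b 2 4 (.b 3 6 (.c [2, 4, 5, 3, 6]) (.b 2 5 (.k [2,
    3, 4, 5]) (.i [0, 2, 5]))) (.i [0, 2, 4]))))) (.b 3 6 (.b 1 2 (.c [0, 1, 2, 3, 6]) (.b 1 4 (.c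
    [0, 1, 4, 3, 6]) (.i [1, 4, 6]))) (.i [1, 3, 6]))))) (.i [0, 4, 5])) (.i [0, 3, 4])))) (.b 0 5
    (.b 1 5 (.b 2 5 (.c [0, 1, 5, 2, 6]) (.b 1 2 (.c [0, 5, 1, 2, 6]) (.b 1 4 (.b 2 4 (.c [0, 1, 4,
    2, 6]) (.b 4 6 (.c [0, 5, 1, 4, 6]) (.b 4 5 (.b 5 6 (.c [0, 1, 4, 5, 6]) (.b 1 6 (.c [0, 5, 4,
    1, 6]) (.b 0 4 (.k [0, 1, 4, 5]) (.b 0 2 (.b 3 4 (.c [0, 1, 4, 3, 2]) (.i [0, 3, 4])) (.i [0, 2,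
    4]))))) (.i [2, 4, 5])))) (.b 2 4 (.b 4 5 (.c [0, 5, 4, 2, 6]) (.b 3 4 (.b 0 4 (.c [0, 4, 3, 2,
    6]) (.b 1 6 (.b 0 2 (.c [0, 2, 6, 1, 5]) (.b 5 6 (.k [0, 1, 5, 6]) (.b 3 6 (.b 4 6 (.k [2, 3, 4,
    6]) (.i [4, 5, 6])) (.i [3, 5, 6])))) (.b 3 6 (.b 0 2 (.c [0, 2, 4, 3, 6]) (.b 4 6 (.k [2, 3, 4,
    6]) (.i [1, 4, 6]))) (.i [1, 3, 6])))) (.i [1, 3, 4]))) (.i [1, 2, 4]))))) (.i [1, 3, 5])) (.i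
    [0, 3, 5])))) (.b 3 6 (.b 0 4 (.b 0 5 (.b 1 3 (.b 2 4 (.c [0, 1, 3, 2, 4]) (.b 2 5 (.c [0, 1, 3,
    2, 5]) (.b 0 2 (.c [0, 1, 3, 6, 2]) (.b 4 6 (.c [0, 1, 3, 6, 4]) (.b 5 6 (.c [0, 1, 3, 6, 5])
    (.b 4 5 (.b 3 4 (.c [0, 1, 3, 4, 5]) (.b 3 5 (.c [0, 1, 3, 5, 4]) (.b 1 2 (.b 1 6 (.k [1, 2, 3,
    6]) (.b 1 4 (.b 1 5 (.k [0, 1, 4, 5]) (.i [1, 5, 6])) (.i [1, 4, 6]))) (.b 1 4 (.b 1 5 (.k [0,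
    1, 4, 5]) (.i [1, 2, 5])) (.i [1, 2, 4]))))) (.i [2, 4, 5]))))))) (.b 3 4 (.b 1 2 (.c [0, 1, 2,
    3, 4]) (.b 1 6 (.c [0, 1, 6, 3, 4]) (.b 0 2 (.c [0, 2, 6, 3, 4]) (.b 2 5 (.c [0, 4, 3, 2, 5])
    (.b 5 6 (.c [0, 4, 3, 6, 5]) (.b 1 5 (.b 3 5 (.c [0, 1, 5, 3, 4]) (.b 1 4 (.b 4 5 (.k [0, 1, 4,
    5]) (.b 2 4 (.b 4 6 (.k [2, 3, 4, 6]) (.i [4, 5, 6])) (.i [2, 4, 5]))) (.b 2 4 (.b 4 6 (.k [2,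
    3, 4, 6]) (.i [1, 4, 6])) (.i [1, 2, 4])))) (.i [1, 2, 5]))))))) (.b 1 4 (.b 3 5 (.b 1 2 (.c [0,
    1, 2, 3, 5]) (.b 1 6 (.c [0, 1, 6, 3, 5]) (.b 0 2 (.c [0, 2, 6, 3, 5]) (.b 2 4 (.c [0, 4, 2, 3,
    5]) (.b 4 6 (.c [0, 4, 6, 3, 5]) (.b 1 5 (.b 4 5 (.k [0, 1, 4, 5]) (.b 2 5 (.b 5 6 (.k [2, 3, 5,
    6]) (.i [4, 5, 6])) (.i [2, 4, 5]))) (.b 2 5 (.b 5 6 (.k [2, 3, 5, 6]) (.i [1, 5, 6])) (.i [1,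
    2, 5])))))))) (.b 1 5 (.b 4 5 (.k [0, 1, 4, 5]) (.i [3, 4, 5])) (.i [1, 3, 5]))) (.i [1, 3,
    4])))) (.b 3 5 (.b 5 6 (.b 2 5 (.k [2, 3, 5, 6]) (.b 0 2 (.b 1 3 (.c [0, 1, 3, 6, 2]) (.b 1 5
    (.c [0, 1, 5, 3, 2]) (.b 1 6 (.c [0, 1, 6, 3, 2]) (.b 4 5 (.c [0, 2, 3, 5, 4]) (.b 4 6 (.c [0,
    2, 3, 6, 4]) (.b 3 4 (.c [0, 2, 6, 3, 4]) (.b 1 2 (.b 1 4 (.b 2 4 (.k [0, 1, 2, 4]) (.i [2, 4,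
    5])) (.i [1, 3, 4])) (.i [1, 2, 5])))))))) (.i [0, 2, 5]))) (.i [0, 5, 6])) (.i [0, 3, 5]))) (.b
    3 4 (.b 4 6 (.b 2 4 (.k [2, 3, 4, 6]) (.b 0 2 (.b 1 3 (.c [0, 1, 3, 6, 2]) (.b 1 4 (.c [0, 1, 4,
    3, 2]) (.b 1 6 (.c [0, 1, 6, 3, 2]) (.b 1 2 (.b 4 5 (.b 0 5 (.c [0, 2, 3, 4, 5]) (.b 1 5 (.c [1,
    2, 3, 4, 5]) (.b 5 6 (.c [2, 3, 4, 5, 6]) (.i [0, 5, 6])))) (.b 0 5 (.b 3 5 (.c [0, 1, 2, 3, 5])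
    (.b 5 6 (.c [0, 1, 2, 6, 5]) (.b 1 5 (.b 2 5 (.k [0, 1, 2, 5]) (.i [2, 4, 5])) (.i [1, 3, 5]))))
    (.i [0, 4, 5]))) (.i [1, 2, 4]))))) (.i [0, 2, 4]))) (.i [0, 4, 6])) (.i [0, 3, 4]))) (.i [0, 3,
    6])))) (.b 0 2 (.b 1 6 (.b 3 6 (.c [0, 1, 6, 3, 2]) (.b 4 6 (.b 2 4 (.c [0, 1, 6, 4, 2]) (.b 2 5
    (.b 5 6 (.c [0, 1, 6, 5, 2]) (.b 3 5 (.b 1 3 (.c [0, 1, 3, 5, 2]) (.b 1 5 (.c [0, 1, 5, 3, 2])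
    (.b 1 4 (.b 3 4 (.c [0, 1, 4, 3, 2]) (.b 4 5 (.c [0, 1, 4, 5, 2]) (.b 0 3 (.b 1 2 (.c [0, 1, 2,
    5, 3]) (.b 0 5 (.k [0, 2, 3, 5]) (.b 0 4 (.b 0 6 (.k [0, 1, 4, 6]) (.i [0, 5, 6])) (.i [0, 4,
    5])))) (.b 0 4 (.b 1 2 (.c [0, 2, 1, 6, 4]) (.b 0 6 (.k [0, 1, 4, 6]) (.i [0, 3, 6]))) (.i [0,
    3, 4]))))) (.b 1 2 (.b 0 5 (.c [0, 1, 2, 3, 5]) (.b 0 3 (.c [0, 1, 2, 5, 3]) (.b 0 4 (.c [0, 2,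
    1, 6, 4]) (.b 3 4 (.c [1, 2, 3, 4, 6]) (.i [0, 3, 4]))))) (.i [1, 2, 4]))))) (.i [3, 5, 6])))
    (.b 4 5 (.b 0 5 (.c [0, 1, 6, 4, 5]) (.b 5 6 (.b 0 4 (.c [0, 1, 6, 5, 4]) (.b 0 3 (.b 3 4 (.c
    [0, 1, 6, 4, 3]) (.b 3 5 (.c [0, 1, 6, 5, 3]) (.b 1 2 (.b 0 6 (.c [0, 3, 2, 1, 6]) (.b 1 3 (.k
    [0, 1, 2, 3]) (.b 1 4 (.b 1 5 (.k [1, 4, 5, 6]) (.i [1, 3, 5])) (.i [1, 3, 4])))) (.b 1 4 (.b 0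
    6 (.c [0, 1, 4, 5, 6]) (.b 1 5 (.k [1, 4, 5, 6]) (.i [1, 2, 5]))) (.i [1, 2, 4]))))) (.b 3 4 (.b
    1 4 (.c [0, 1, 4, 3, 2]) (.b 0 6 (.c [0, 2, 3, 4, 6]) (.i [0, 3, 6]))) (.i [0, 3, 4])))) (.i [2,
    5, 6]))) (.i [2, 4, 5])))) (.b 2 4 (.b 3 4 (.b 1 3 (.c [0, 1, 3, 4, 2]) (.b 1 4 (.c [0, 1, 4, 3,
    2]) (.b 3 5 (.b 1 5 (.c [0, 1, 5, 3, 2]) (.b 0 5 (.c [0, 2, 4, 3, 5]) (.b 4 5 (.b 0 4 (.c [0, 2,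
    3, 5, 4]) (.b 0 3 (.c [0, 2, 4, 5, 3]) (.b 2 5 (.k [2, 3, 4, 5]) (.b 0 6 (.b 5 6 (.c [0, 2, 3,
    5, 6]) (.i [2, 5, 6])) (.i [0, 3, 6]))))) (.i [1, 4, 5])))) (.b 1 5 (.b 4 5 (.c [0, 1, 5, 4, 2])
    (.b 5 6 (.b 2 5 (.c [0, 1, 6, 5, 2]) (.b 0 3 (.b 1 2 (.c [0, 1, 2, 4, 3]) (.b 0 4 (.k [0, 2, 3,
    4]) (.b 0 5 (.b 0 6 (.k [0, 1, 5, 6]) (.i [0, 4, 6])) (.i [0, 4, 5])))) (.b 0 5 (.b 1 2 (.c [0,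
    2, 1, 6, 5]) (.b 0 6 (.k [0, 1, 5, 6]) (.i [0, 3, 6]))) (.i [0, 3, 5])))) (.i [3, 5, 6]))) (.i
    [1, 3, 5]))))) (.i [3, 4, 6])) (.i [2, 4, 6])))) (.b 1 2 (.b 1 4 (.b 3 4 (.c [0, 1, 4, 3, 2])
    (.b 3 6 (.b 0 6 (.c [0, 1, 2, 3, 6]) (.b 4 6 (.c [1, 2, 3, 6, 4]) (.b 0 4 (.b 1 3 (.c [0, 2, 3,
    1, 4]) (.b 0 3 (.c [0, 3, 2, 1, 4]) (.b 2 4 (.k [0, 1, 2, 4]) (.i [2, 4, 6])))) (.i [0, 4,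
    6])))) (.b 1 3 (.b 0 4 (.c [0, 2, 3, 1, 4]) (.b 0 3 (.k [0, 1, 2, 3]) (.i [0, 3, 4]))) (.i [1,
    3, 6])))) (.b 4 6 (.b 1 5 (.b 3 5 (.c [0, 1, 5, 3, 2]) (.b 5 6 (.b 0 4 (.c [0, 1, 5, 6, 4]) (.b
    0 6 (.c [0, 2, 1, 5, 6]) (.b 3 6 (.c [1, 2, 3, 6, 5]) (.b 2 4 (.c [1, 2, 4, 6, 5]) (.b 0 3 (.b 2
    5 (.c [0, 1, 5, 2, 3]) (.b 0 5 (.c [0, 3, 2, 1, 5]) (.b 1 3 (.k [0, 1, 2, 3]) (.i [1, 3, 6]))))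
    (.i [0, 3, 6])))))) (.b 2 5 (.b 0 3 (.c [0, 1, 5, 2, 3]) (.b 0 5 (.k [0, 1, 2, 5]) (.i [0, 3,
    5]))) (.i [2, 5, 6])))) (.b 4 5 (.b 5 6 (.b 3 6 (.b 0 6 (.c [0, 1, 2, 3, 6]) (.b 0 4 (.c [0, 2,
    3, 6, 4]) (.b 0 5 (.c [0, 2, 3, 6, 5]) (.b 2 5 (.c [2, 3, 6, 4, 5]) (.b 2 4 (.c [2, 3, 6, 5, 4])
    (.b 0 3 (.b 1 3 (.k [0, 1, 2, 3]) (.b 3 4 (.b 3 5 (.k [3, 4, 5, 6]) (.i [1, 3, 5])) (.i [1, 3,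
    4]))) (.b 3 4 (.b 3 5 (.k [3, 4, 5, 6]) (.i [0, 3, 5])) (.i [0, 3, 4])))))))) (.b 1 3 (.b 0 3
    (.k [0, 1, 2, 3]) (.b 0 6 (.b 2 4 (.c [0, 1, 2, 4, 6]) (.b 2 5 (.c [0, 1, 2, 5, 6]) (.b 3 4 (.c
    [0, 1, 3, 4, 6]) (.b 3 5 (.c [0, 1, 3, 5, 6]) (.b 0 4 (.b 0 5 (.k [0, 4, 5, 6]) (.i [0, 3, 5]))
    (.i [0, 3, 4])))))) (.i [0, 3, 6]))) (.i [1, 3, 6]))) (.i [1, 5, 6])) (.i [1, 4, 5]))) (.i [1,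
    4, 6]))) (.i [1, 2, 6]))) (.b 0 6 (.b 1 2 (.b 3 6 (.c [0, 1, 2, 3, 6]) (.b 2 5 (.b 5 6 (.c [0,
    1, 2, 5, 6]) (.b 3 5 (.b 0 5 (.c [0, 1, 2, 3, 5]) (.b 0 3 (.c [0, 1, 2, 5, 3]) (.b 0 4 (.b 3 4
    (.c [0, 1, 2, 3, 4]) (.b 4 5 (.c [0, 1, 2, 5, 4]) (.b 4 6 (.b 2 4 (.c [0, 1, 2, 4, 6]) (.b 1 3
    (.b 1 5 (.k [1, 2, 3, 5]) (.b 1 4 (.b 1 6 (.k [0, 1, 4, 6]) (.i [1, 5, 6])) (.i [1, 4, 5]))) (.b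
    1 4 (.b 1 6 (.k [0, 1, 4, 6]) (.i [1, 3, 6])) (.i [1, 3, 4])))) (.i [3, 4, 6])))) (.b 2 4 (.b 4
    6 (.c [0, 1, 2, 4, 6]) (.b 3 4 (.b 1 5 (.c [1, 2, 4, 3, 5]) (.b 1 4 (.c [1, 2, 5, 3, 4]) (.b 4 5
    (.k [2, 3, 4, 5]) (.i [0, 4, 5])))) (.i [0, 3, 4]))) (.i [0, 2, 4]))))) (.i [3, 5, 6]))) (.b 0 5
    (.b 3 5 (.c [0, 1, 2, 3, 5]) (.b 5 6 (.b 2 4 (.b 4 5 (.c [0, 1, 2, 4, 5]) (.b 4 6 (.c [0, 1, 2,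
    4, 6]) (.b 3 4 (.b 0 4 (.c [0, 1, 2, 3, 4]) (.b 0 3 (.c [0, 1, 2, 4, 3]) (.b 1 3 (.b 1 4 (.k [1,
    2, 3, 4]) (.b 1 5 (.b 1 6 (.k [0, 1, 5, 6]) (.i [1, 4, 6])) (.i [1, 4, 5]))) (.b 1 5 (.b 1 6 (.k
    [0, 1, 5, 6]) (.i [1, 3, 6])) (.i [1, 3, 5]))))) (.i [3, 4, 5])))) (.b 0 4 (.b 3 4 (.c [0, 1, 2,
    3, 4]) (.b 4 5 (.b 1 4 (.c [0, 1, 4, 5, 6]) (.b 1 6 (.c [0, 1, 6, 5, 4]) (.b 4 6 (.k [0, 4, 5,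
    6]) (.i [1, 4, 6])))) (.i [2, 4, 5]))) (.i [0, 2, 4]))) (.i [2, 5, 6]))) (.i [0, 2, 5])))) (.b 1
    6 (.b 2 4 (.b 2 5 (.b 0 3 (.b 1 4 (.c [0, 1, 4, 2, 3]) (.b 1 5 (.c [0, 1, 5, 2, 3]) (.b 4 6 (.c
    [0, 3, 2, 4, 6]) (.b 5 6 (.c [0, 3, 2, 5, 6]) (.b 4 5 (.b 0 5 (.c [0, 3, 2, 4, 5]) (.b 0 4 (.c
    [0, 3, 2, 5, 4]) (.b 1 3 (.b 3 6 (.k [0, 1, 3, 6]) (.b 3 4 (.b 3 5 (.k [2, 3, 4, 5]) (.i [3, 5,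
    6])) (.i [3, 4, 6]))) (.b 3 4 (.b 3 5 (.k [2, 3, 4, 5]) (.i [1, 3, 5])) (.i [1, 3, 4]))))) (.i
    [1, 4, 5])))))) (.b 0 4 (.b 1 3 (.c [0, 1, 3, 2, 4]) (.b 1 5 (.c [0, 1, 5, 2, 4]) (.b 3 6 (.c
    [0, 4, 2, 3, 6]) (.b 5 6 (.c [0, 4, 2, 5, 6]) (.b 3 5 (.b 0 5 (.c [0, 4, 2, 3, 5]) (.b 1 4 (.b 4
    6 (.k [0, 1, 4, 6]) (.b 3 4 (.b 4 5 (.k [2, 3, 4, 5]) (.i [4, 5, 6])) (.i [3, 4, 6]))) (.b 3 4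
    (.b 4 5 (.k [2, 3, 4, 5]) (.i [1, 4, 5])) (.i [1, 3, 4])))) (.i [1, 3, 5])))))) (.b 3 4 (.b 0 5
    (.b 1 3 (.c [0, 1, 3, 2, 5]) (.b 1 4 (.c [0, 1, 4, 2, 5]) (.b 3 6 (.c [0, 5, 2, 3, 6]) (.b 4 6
    (.c [0, 5, 2, 4, 6]) (.b 1 5 (.b 5 6 (.k [0, 1, 5, 6]) (.b 3 5 (.b 4 5 (.k [2, 3, 4, 5]) (.i [4,
    5, 6])) (.i [3, 5, 6]))) (.b 3 5 (.b 4 5 (.k [2, 3, 4, 5]) (.i [1, 4, 5])) (.i [1, 3, 5])))))))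
    (.b 3 5 (.b 4 5 (.k [2, 3, 4, 5]) (.i [0, 4, 5])) (.i [0, 3, 5]))) (.i [0, 3, 4])))) (.b 0 5 (.b
    1 5 (.b 5 6 (.k [0, 1, 5, 6]) (.i [2, 5, 6])) (.i [1, 2, 5])) (.i [0, 2, 5]))) (.b 0 4 (.b 1 4
    (.b 4 6 (.k [0, 1, 4, 6]) (.i [2, 4, 6])) (.i [1, 2, 4])) (.i [0, 2, 4]))) (.i [1, 2, 6]))) (.i
    [0, 2, 6])))) (.b 2 4 (.b 0 2 (.b 1 3 (.b 3 4 (.c [0, 1, 3, 4, 2]) (.b 3 5 (.b 2 5 (.c [0, 1, 3,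
    5, 2]) (.b 2 6 (.b 3 6 (.c [0, 1, 3, 6, 2]) (.b 4 6 (.b 1 4 (.c [0, 1, 4, 6, 2]) (.b 1 6 (.c [0,
    1, 6, 4, 2]) (.b 1 5 (.b 4 5 (.c [0, 1, 5, 4, 2]) (.b 5 6 (.c [0, 1, 5, 6, 2]) (.b 0 3 (.b 1 2
    (.c [0, 2, 1, 5, 3]) (.b 0 5 (.k [0, 1, 3, 5]) (.b 0 4 (.b 0 6 (.k [0, 2, 4, 6]) (.i [0, 5, 6]))
    (.i [0, 4, 5])))) (.b 0 4 (.b 1 2 (.c [0, 1, 2, 6, 4]) (.b 0 6 (.k [0, 2, 4, 6]) (.i [0, 3,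
    6]))) (.i [0, 3, 4]))))) (.b 1 2 (.b 0 6 (.c [0, 1, 2, 4, 6]) (.b 0 4 (.c [0, 1, 2, 6, 4]) (.b 0
    5 (.c [0, 2, 1, 3, 5]) (.b 4 5 (.c [1, 2, 4, 5, 3]) (.i [0, 4, 5]))))) (.i [1, 2, 5]))))) (.i
    [3, 4, 6]))) (.b 3 6 (.b 5 6 (.b 0 6 (.c [0, 1, 3, 5, 6]) (.b 0 5 (.c [0, 1, 3, 6, 5]) (.b 0 4
    (.b 4 5 (.c [0, 1, 3, 5, 4]) (.b 4 6 (.c [0, 1, 3, 6, 4]) (.b 1 2 (.b 0 3 (.c [0, 3, 1, 2, 4])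
    (.b 1 4 (.k [0, 1, 2, 4]) (.b 1 5 (.b 1 6 (.k [1, 3, 5, 6]) (.i [1, 4, 6])) (.i [1, 4, 5]))))
    (.b 1 5 (.b 0 3 (.c [0, 1, 5, 6, 3]) (.b 1 6 (.k [1, 3, 5, 6]) (.i [1, 2, 6]))) (.i [1, 2,
    5]))))) (.b 0 3 (.b 1 5 (.c [0, 1, 5, 6, 3]) (.b 1 6 (.c [0, 1, 6, 5, 3]) (.b 1 4 (.c [0, 2, 4,
    1, 3]) (.b 4 5 (.c [0, 2, 4, 5, 3]) (.i [0, 4, 5]))))) (.i [0, 3, 4]))))) (.i [2, 5, 6])) (.i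
    [2, 3, 6])))) (.b 2 5 (.b 4 5 (.b 1 4 (.c [0, 1, 4, 5, 2]) (.b 1 5 (.c [0, 1, 5, 4, 2]) (.b 4 6
    (.b 1 6 (.c [0, 1, 6, 4, 2]) (.b 0 6 (.c [0, 2, 5, 4, 6]) (.b 5 6 (.b 0 5 (.c [0, 2, 4, 6, 5])
    (.b 0 4 (.c [0, 2, 5, 6, 4]) (.b 2 6 (.k [2, 4, 5, 6]) (.b 0 3 (.b 3 6 (.c [0, 2, 4, 6, 3]) (.i
    [2, 3, 6])) (.i [0, 3, 4]))))) (.i [1, 5, 6])))) (.b 1 6 (.b 5 6 (.c [0, 1, 6, 5, 2]) (.b 3 6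
    (.b 2 6 (.c [0, 1, 3, 6, 2]) (.b 0 3 (.b 1 2 (.c [0, 2, 1, 6, 3]) (.b 0 6 (.k [0, 1, 3, 6]) (.b
    0 4 (.b 0 5 (.k [0, 2, 4, 5]) (.i [0, 5, 6])) (.i [0, 4, 6])))) (.b 0 4 (.b 1 2 (.c [0, 1, 2, 5,
    4]) (.b 0 5 (.k [0, 2, 4, 5]) (.i [0, 3, 5]))) (.i [0, 3, 4])))) (.i [3, 4, 6]))) (.i [1, 4,
    6]))))) (.i [3, 4, 5])) (.i [2, 3, 5])))) (.b 1 2 (.b 1 5 (.b 4 5 (.c [0, 1, 5, 4, 2]) (.b 3 4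
    (.b 0 3 (.c [0, 1, 2, 4, 3]) (.b 3 5 (.c [1, 2, 4, 3, 5]) (.b 0 5 (.b 1 4 (.c [0, 2, 4, 1, 5])
    (.b 0 4 (.c [0, 4, 2, 1, 5]) (.b 2 5 (.k [0, 1, 2, 5]) (.i [2, 3, 5])))) (.i [0, 3, 5])))) (.b 1
    4 (.b 0 5 (.c [0, 2, 4, 1, 5]) (.b 0 4 (.k [0, 1, 2, 4]) (.i [0, 4, 5]))) (.i [1, 3, 4])))) (.b
    3 5 (.b 1 6 (.b 4 6 (.c [0, 1, 6, 4, 2]) (.b 3 6 (.b 0 5 (.c [0, 1, 6, 3, 5]) (.b 0 3 (.c [0, 2,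
    1, 6, 3]) (.b 3 4 (.c [1, 2, 4, 3, 6]) (.b 2 5 (.c [1, 2, 5, 3, 6]) (.b 0 4 (.b 2 6 (.c [0, 1,
    6, 2, 4]) (.b 0 6 (.c [0, 4, 2, 1, 6]) (.b 1 4 (.k [0, 1, 2, 4]) (.i [1, 3, 4])))) (.i [0, 3,
    4])))))) (.b 2 6 (.b 0 4 (.c [0, 1, 6, 2, 4]) (.b 0 6 (.k [0, 1, 2, 6]) (.i [0, 4, 6]))) (.i [2,
    3, 6])))) (.b 3 6 (.b 5 6 (.b 3 4 (.b 0 3 (.c [0, 1, 2, 4, 3]) (.b 0 5 (.c [0, 2, 4, 3, 5]) (.b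
    0 6 (.c [0, 2, 4, 3, 6]) (.b 2 6 (.c [2, 4, 3, 5, 6]) (.b 2 5 (.c [2, 4, 3, 6, 5]) (.b 0 4 (.b 1
    4 (.k [0, 1, 2, 4]) (.b 4 5 (.b 4 6 (.k [3, 4, 5, 6]) (.i [1, 4, 6])) (.i [1, 4, 5]))) (.b 4 5
    (.b 4 6 (.k [3, 4, 5, 6]) (.i [0, 4, 6])) (.i [0, 4, 5])))))))) (.b 1 4 (.b 0 4 (.k [0, 1, 2,
    4]) (.b 0 3 (.b 2 5 (.c [0, 1, 2, 5, 3]) (.b 2 6 (.c [0, 1, 2, 6, 3]) (.b 4 5 (.c [0, 1, 4, 5,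
    3]) (.b 4 6 (.c [0, 1, 4, 6, 3]) (.b 0 5 (.b 0 6 (.k [0, 3, 5, 6]) (.i [0, 4, 6])) (.i [0, 4,
    5])))))) (.i [0, 3, 4]))) (.i [1, 3, 4]))) (.i [1, 5, 6])) (.i [1, 3, 6]))) (.i [1, 3, 5]))) (.i
    [1, 2, 3]))) (.b 0 3 (.b 1 2 (.b 3 4 (.c [0, 1, 2, 4, 3]) (.b 2 5 (.b 3 5 (.c [0, 1, 2, 5, 3])
    (.b 4 5 (.b 0 5 (.c [0, 1, 2, 4, 5]) (.b 0 4 (.c [0, 1, 2, 5, 4]) (.b 0 6 (.b 4 6 (.c [0, 1, 2,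
    4, 6]) (.b 5 6 (.c [0, 1, 2, 5, 6]) (.b 3 6 (.b 2 6 (.c [0, 1, 2, 6, 3]) (.b 1 3 (.b 1 6 (.k [0,
    1, 3, 6]) (.b 1 4 (.b 1 5 (.k [1, 2, 4, 5]) (.i [1, 5, 6])) (.i [1, 4, 6]))) (.b 1 4 (.b 1 5 (.k
    [1, 2, 4, 5]) (.i [1, 3, 5])) (.i [1, 3, 4])))) (.i [3, 4, 6])))) (.b 2 6 (.b 3 6 (.c [0, 1, 2,
    6, 3]) (.b 4 6 (.b 1 6 (.c [1, 2, 5, 4, 6]) (.b 1 5 (.c [1, 2, 6, 4, 5]) (.b 5 6 (.k [2, 4, 5,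
    6]) (.i [0, 5, 6])))) (.i [0, 4, 6]))) (.i [0, 2, 6]))))) (.i [3, 4, 5]))) (.b 0 5 (.b 4 5 (.c
    [0, 1, 2, 4, 5]) (.b 3 5 (.b 2 6 (.b 3 6 (.c [0, 1, 2, 6, 3]) (.b 5 6 (.c [0, 1, 2, 6, 5]) (.b 4
    6 (.b 0 6 (.c [0, 1, 2, 4, 6]) (.b 0 4 (.c [0, 1, 2, 6, 4]) (.b 1 3 (.b 1 5 (.k [0, 1, 3, 5])
    (.b 1 4 (.b 1 6 (.k [1, 2, 4, 6]) (.i [1, 5, 6])) (.i [1, 4, 5]))) (.b 1 4 (.b 1 6 (.k [1, 2, 4,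
    6]) (.i [1, 3, 6])) (.i [1, 3, 4]))))) (.i [3, 4, 6])))) (.b 0 6 (.b 4 6 (.c [0, 1, 2, 4, 6])
    (.b 3 6 (.b 1 5 (.c [0, 1, 5, 3, 6]) (.b 1 6 (.c [0, 1, 6, 3, 5]) (.b 5 6 (.k [0, 3, 5, 6]) (.i
    [1, 5, 6])))) (.i [2, 3, 6]))) (.i [0, 2, 6]))) (.i [2, 3, 5]))) (.i [0, 2, 5])))) (.b 1 3 (.b 2
    5 (.b 2 6 (.b 0 4 (.b 1 5 (.c [0, 1, 5, 2, 4]) (.b 1 6 (.c [0, 1, 6, 2, 4]) (.b 3 5 (.c [0, 3,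
    5, 2, 4]) (.b 3 6 (.c [0, 3, 6, 2, 4]) (.b 5 6 (.b 0 6 (.c [0, 4, 2, 5, 6]) (.b 0 5 (.c [0, 4,
    2, 6, 5]) (.b 1 4 (.b 3 4 (.k [0, 1, 3, 4]) (.b 4 5 (.b 4 6 (.k [2, 4, 5, 6]) (.i [3, 4, 6]))
    (.i [3, 4, 5]))) (.b 4 5 (.b 4 6 (.k [2, 4, 5, 6]) (.i [1, 4, 6])) (.i [1, 4, 5]))))) (.i [1, 5,
    6])))))) (.b 0 5 (.b 1 4 (.c [0, 1, 4, 2, 5]) (.b 1 6 (.c [0, 1, 6, 2, 5]) (.b 3 4 (.c [0, 3, 4,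
    2, 5]) (.b 3 6 (.c [0, 3, 6, 2, 5]) (.b 4 6 (.b 0 6 (.c [0, 5, 2, 4, 6]) (.b 1 5 (.b 3 5 (.k [0,
    1, 3, 5]) (.b 4 5 (.b 5 6 (.k [2, 4, 5, 6]) (.i [3, 5, 6])) (.i [3, 4, 5]))) (.b 4 5 (.b 5 6 (.k
    [2, 4, 5, 6]) (.i [1, 5, 6])) (.i [1, 4, 5])))) (.i [1, 4, 6])))))) (.b 4 5 (.b 0 6 (.b 1 4 (.c
    [0, 1, 4, 2, 6]) (.b 1 5 (.c [0, 1, 5, 2, 6]) (.b 3 4 (.c [0, 3, 4, 2, 6]) (.b 3 5 (.c [0, 3, 5,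
    2, 6]) (.b 1 6 (.b 3 6 (.k [0, 1, 3, 6]) (.b 4 6 (.b 5 6 (.k [2, 4, 5, 6]) (.i [3, 5, 6])) (.i
    [3, 4, 6]))) (.b 4 6 (.b 5 6 (.k [2, 4, 5, 6]) (.i [1, 5, 6])) (.i [1, 4, 6]))))))) (.b 4 6 (.b
    5 6 (.k [2, 4, 5, 6]) (.i [0, 5, 6])) (.i [0, 4, 6]))) (.i [0, 4, 5])))) (.b 0 6 (.b 1 6 (.b 3 6
    (.k [0, 1, 3, 6]) (.i [2, 3, 6])) (.i [1, 2, 6])) (.i [0, 2, 6]))) (.b 0 5 (.b 1 5 (.b 3 5 (.k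
    [0, 1, 3, 5]) (.i [2, 3, 5])) (.i [1, 2, 5])) (.i [0, 2, 5]))) (.i [1, 2, 3]))) (.i [0, 2, 3])))
    (.b 3 4 (.b 2 5 (.b 1 2 (.b 2 6 (.b 0 3 (.b 3 5 (.c [0, 1, 2, 5, 3]) (.b 3 6 (.c [0, 1, 2, 6,
    3]) (.b 5 6 (.b 0 6 (.c [0, 1, 2, 5, 6]) (.b 0 5 (.c [0, 1, 2, 6, 5]) (.b 0 4 (.b 4 5 (.c [0, 1,
    2, 5, 4]) (.b 4 6 (.c [0, 1, 2, 6, 4]) (.b 1 3 (.b 0 2 (.c [0, 2, 1, 3, 4]) (.b 1 4 (.k [0, 1,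
    3, 4]) (.b 1 5 (.b 1 6 (.k [1, 2, 5, 6]) (.i [1, 4, 6])) (.i [1, 4, 5])))) (.b 1 5 (.b 0 2 (.c
    [0, 1, 5, 6, 2]) (.b 1 6 (.k [1, 2, 5, 6]) (.i [1, 3, 6]))) (.i [1, 3, 5]))))) (.b 0 2 (.b 1 5
    (.c [0, 1, 5, 6, 2]) (.b 1 6 (.c [0, 1, 6, 5, 2]) (.b 1 4 (.c [0, 2, 1, 4, 3]) (.b 4 5 (.c [0,
    2, 5, 4, 3]) (.i [0, 4, 5]))))) (.i [0, 2, 4]))))) (.i [3, 5, 6])))) (.b 0 2 (.b 3 5 (.b 1 3 (.c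
    [0, 1, 3, 5, 2]) (.b 0 4 (.c [0, 2, 5, 3, 4]) (.b 1 4 (.c [1, 2, 5, 3, 4]) (.b 4 6 (.c [2, 5, 3,
    4, 6]) (.b 0 6 (.b 5 6 (.c [0, 1, 2, 5, 6]) (.b 1 5 (.c [0, 1, 5, 2, 6]) (.b 3 6 (.c [0, 2, 5,
    3, 6]) (.b 1 6 (.k [0, 1, 2, 6]) (.i [1, 3, 6]))))) (.i [0, 4, 6])))))) (.b 0 5 (.b 5 6 (.c [0,
    1, 2, 6, 5]) (.b 1 6 (.c [0, 1, 6, 2, 5]) (.b 1 5 (.k [0, 1, 2, 5]) (.i [1, 5, 6])))) (.i [0, 3,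
    5]))) (.i [0, 2, 3]))) (.b 3 6 (.b 4 6 (.b 0 3 (.b 3 5 (.c [0, 1, 2, 5, 3]) (.b 1 4 (.c [0, 1,
    4, 6, 3]) (.b 1 6 (.c [0, 1, 6, 4, 3]) (.b 1 5 (.b 4 5 (.c [0, 1, 5, 4, 3]) (.b 5 6 (.c [0, 1,
    5, 6, 3]) (.b 0 2 (.b 1 3 (.c [0, 2, 5, 1, 3]) (.b 0 5 (.k [0, 1, 2, 5]) (.b 0 4 (.b 0 6 (.k [0,
    3, 4, 6]) (.i [0, 5, 6])) (.i [0, 4, 5])))) (.b 0 4 (.b 1 3 (.c [0, 1, 3, 6, 4]) (.b 0 6 (.k [0,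
    3, 4, 6]) (.i [0, 2, 6]))) (.i [0, 2, 4]))))) (.b 1 3 (.b 0 6 (.c [0, 1, 3, 4, 6]) (.b 0 4 (.c
    [0, 1, 3, 6, 4]) (.b 0 5 (.c [0, 3, 1, 2, 5]) (.b 4 5 (.c [1, 2, 5, 4, 3]) (.i [0, 4, 5])))))
    (.i [1, 3, 5])))))) (.b 0 2 (.b 3 5 (.b 1 3 (.c [0, 1, 3, 5, 2]) (.b 0 4 (.c [0, 2, 5, 3, 4])
    (.b 0 6 (.c [0, 2, 5, 3, 6]) (.b 1 4 (.c [1, 2, 5, 3, 4]) (.b 1 6 (.c [1, 2, 5, 3, 6]) (.b 0 5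
    (.b 1 5 (.k [0, 1, 2, 5]) (.b 4 5 (.b 5 6 (.k [3, 4, 5, 6]) (.i [1, 5, 6])) (.i [1, 4, 5]))) (.b
    4 5 (.b 5 6 (.k [3, 4, 5, 6]) (.i [0, 5, 6])) (.i [0, 4, 5])))))))) (.b 0 5 (.b 1 5 (.k [0, 1,
    2, 5]) (.b 1 3 (.b 4 5 (.c [0, 1, 3, 4, 5]) (.b 0 6 (.c [0, 1, 3, 4, 6]) (.b 0 4 (.c [0, 1, 3,
    6, 4]) (.b 5 6 (.c [0, 1, 3, 6, 5]) (.b 1 4 (.b 1 6 (.k [1, 3, 4, 6]) (.i [1, 5, 6])) (.i [1, 4,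
    5])))))) (.i [1, 3, 5]))) (.i [0, 3, 5]))) (.i [0, 2, 3]))) (.i [2, 4, 6])) (.i [2, 3, 6]))) (.b
    1 3 (.b 1 4 (.b 0 2 (.b 3 5 (.c [0, 1, 3, 5, 2]) (.b 4 5 (.c [0, 1, 4, 5, 2]) (.b 2 6 (.b 3 6
    (.c [0, 1, 3, 6, 2]) (.b 4 6 (.c [0, 1, 4, 6, 2]) (.b 5 6 (.b 1 5 (.c [0, 1, 5, 6, 2]) (.b 1 6
    (.c [0, 1, 6, 5, 2]) (.b 0 3 (.b 0 4 (.k [0, 1, 3, 4]) (.b 0 5 (.b 0 6 (.k [0, 2, 5, 6]) (.i [0,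
    4, 6])) (.i [0, 4, 5]))) (.b 0 5 (.b 0 6 (.k [0, 2, 5, 6]) (.i [0, 3, 6])) (.i [0, 3, 5])))))
    (.i [3, 5, 6])))) (.b 1 6 (.b 5 6 (.c [0, 1, 6, 5, 2]) (.b 3 6 (.b 0 6 (.c [0, 1, 4, 3, 6]) (.b
    0 4 (.c [0, 1, 6, 3, 4]) (.b 4 6 (.k [1, 3, 4, 6]) (.i [0, 4, 6])))) (.i [2, 3, 6]))) (.i [1, 2,
    6]))))) (.b 0 3 (.b 0 4 (.k [0, 1, 3, 4]) (.i [0, 2, 4])) (.i [0, 2, 3]))) (.i [1, 2, 4])) (.i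
    [1, 2, 3]))) (.b 3 5 (.b 4 5 (.b 0 3 (.b 1 4 (.c [0, 1, 4, 5, 3]) (.b 1 5 (.c [0, 1, 5, 4, 3])
    (.b 1 2 (.b 4 6 (.b 1 6 (.c [0, 1, 6, 4, 3]) (.b 0 6 (.c [0, 3, 5, 4, 6]) (.b 5 6 (.b 0 5 (.c
    [0, 3, 4, 6, 5]) (.b 0 4 (.c [0, 3, 5, 6, 4]) (.b 3 6 (.k [3, 4, 5, 6]) (.b 0 2 (.b 2 6 (.c [0,
    2, 6, 4, 3]) (.i [2, 3, 6])) (.i [0, 2, 4]))))) (.i [1, 5, 6])))) (.b 1 6 (.b 5 6 (.c [0, 1, 6,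
    5, 3]) (.b 2 6 (.b 3 6 (.c [0, 1, 2, 6, 3]) (.b 0 2 (.b 1 3 (.c [0, 2, 6, 1, 3]) (.b 0 6 (.k [0,
    1, 2, 6]) (.b 0 4 (.b 0 5 (.k [0, 3, 4, 5]) (.i [0, 5, 6])) (.i [0, 4, 6])))) (.b 0 4 (.b 1 3
    (.c [0, 1, 3, 5, 4]) (.b 0 5 (.k [0, 3, 4, 5]) (.i [0, 2, 5]))) (.i [0, 2, 4])))) (.i [2, 4,
    6]))) (.i [1, 4, 6]))) (.i [1, 2, 4])))) (.b 0 2 (.b 1 3 (.b 0 5 (.c [0, 1, 3, 4, 5]) (.b 0 4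
    (.c [0, 1, 3, 5, 4]) (.b 0 6 (.b 4 6 (.c [0, 1, 3, 4, 6]) (.b 5 6 (.c [0, 1, 3, 5, 6]) (.b 2 6
    (.b 3 6 (.c [0, 1, 3, 6, 2]) (.b 1 2 (.b 1 6 (.k [0, 1, 2, 6]) (.b 1 4 (.b 1 5 (.k [1, 3, 4, 5])
    (.i [1, 5, 6])) (.i [1, 4, 6]))) (.b 1 4 (.b 1 5 (.k [1, 3, 4, 5]) (.i [1, 2, 5])) (.i [1, 2,
    4])))) (.i [2, 4, 6])))) (.b 3 6 (.b 2 6 (.c [0, 1, 3, 6, 2]) (.b 4 6 (.b 1 6 (.c [1, 3, 5, 4,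
    6]) (.b 1 5 (.c [1, 3, 6, 4, 5]) (.b 5 6 (.k [3, 4, 5, 6]) (.i [0, 5, 6])))) (.i [0, 4, 6])))
    (.i [0, 3, 6]))))) (.b 1 2 (.b 2 6 (.b 3 6 (.b 0 4 (.c [0, 2, 6, 3, 4]) (.b 0 5 (.c [0, 2, 6, 3,
    5]) (.b 1 4 (.c [1, 2, 6, 3, 4]) (.b 1 5 (.c [1, 2, 6, 3, 5]) (.b 0 6 (.b 1 6 (.k [0, 1, 2, 6])
    (.b 4 6 (.b 5 6 (.k [3, 4, 5, 6]) (.i [1, 5, 6])) (.i [1, 4, 6]))) (.b 4 6 (.b 5 6 (.k [3, 4, 5,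
    6]) (.i [0, 5, 6])) (.i [0, 4, 6]))))))) (.b 0 6 (.b 1 6 (.k [0, 1, 2, 6]) (.i [1, 3, 6])) (.i
    [0, 3, 6]))) (.b 3 6 (.b 4 6 (.b 5 6 (.k [3, 4, 5, 6]) (.i [2, 5, 6])) (.i [2, 4, 6])) (.i [2,
    3, 6]))) (.i [1, 2, 3]))) (.i [0, 2, 3]))) (.i [2, 4, 5])) (.i [2, 3, 5]))) (.i [2, 3, 4]))))
    (.b 0 2 (.b 1 3 (.b 0 5 (.b 1 4 (.b 0 6 (.b 1 2 (.b 3 5 (.c [0, 2, 1, 3, 5]) (.b 3 6 (.c [0, 2,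
    1, 3, 6]) (.b 4 5 (.c [0, 2, 1, 4, 5]) (.b 4 6 (.c [0, 2, 1, 4, 6]) (.b 3 4 (.b 0 4 (.c [0, 2,
    1, 3, 4]) (.b 0 3 (.c [0, 2, 1, 4, 3]) (.b 5 6 (.b 1 5 (.c [0, 2, 1, 5, 6]) (.b 1 6 (.c [0, 2,
    1, 6, 5]) (.b 2 3 (.b 2 4 (.k [1, 2, 3, 4]) (.b 2 5 (.b 2 6 (.k [0, 2, 5, 6]) (.i [2, 4, 6]))
    (.i [2, 4, 5]))) (.b 2 5 (.b 2 6 (.k [0, 2, 5, 6]) (.i [2, 3, 6])) (.i [2, 3, 5]))))) (.i [3, 5,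
    6])))) (.i [3, 4, 5])))))) (.b 1 5 (.b 2 3 (.c [0, 2, 3, 1, 5]) (.b 2 4 (.c [0, 2, 4, 1, 5]) (.b
    3 6 (.c [0, 5, 1, 3, 6]) (.b 4 6 (.c [0, 5, 1, 4, 6]) (.b 3 4 (.b 0 3 (.c [0, 3, 4, 1, 5]) (.b 0
    4 (.c [0, 4, 3, 1, 5]) (.b 2 6 (.b 1 6 (.c [0, 2, 6, 1, 5]) (.b 2 5 (.b 5 6 (.k [0, 2, 5, 6])
    (.b 3 5 (.b 4 5 (.k [1, 3, 4, 5]) (.i [4, 5, 6])) (.i [3, 5, 6]))) (.b 3 5 (.b 4 5 (.k [1, 3, 4,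
    5]) (.i [2, 4, 5])) (.i [2, 3, 5])))) (.i [2, 3, 6])))) (.i [2, 3, 4])))))) (.b 2 5 (.b 1 6 (.b
    2 3 (.c [0, 2, 3, 1, 6]) (.b 2 4 (.c [0, 2, 4, 1, 6]) (.b 3 5 (.c [0, 5, 3, 1, 6]) (.b 4 5 (.c
    [0, 5, 4, 1, 6]) (.b 3 4 (.b 0 3 (.c [0, 3, 4, 1, 6]) (.b 0 4 (.c [0, 4, 3, 1, 6]) (.b 2 6 (.b 5
    6 (.k [0, 2, 5, 6]) (.b 3 6 (.b 4 6 (.k [1, 3, 4, 6]) (.i [4, 5, 6])) (.i [3, 5, 6]))) (.b 3 6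
    (.b 4 6 (.k [1, 3, 4, 6]) (.i [2, 4, 6])) (.i [2, 3, 6]))))) (.i [2, 3, 4])))))) (.b 2 6 (.b 5 6
    (.k [0, 2, 5, 6]) (.i [1, 5, 6])) (.i [1, 2, 6]))) (.i [1, 2, 5])))) (.b 1 6 (.b 0 3 (.b 2 4 (.c
    [0, 2, 4, 1, 3]) (.b 2 6 (.c [0, 2, 6, 1, 3]) (.b 4 5 (.c [0, 3, 1, 4, 5]) (.b 5 6 (.c [0, 3, 1,
    6, 5]) (.b 2 5 (.b 1 5 (.c [0, 2, 5, 1, 3]) (.b 1 2 (.c [0, 3, 1, 2, 5]) (.b 4 6 (.b 0 4 (.c [0,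
    3, 1, 6, 4]) (.b 2 3 (.b 3 5 (.k [0, 2, 3, 5]) (.b 3 4 (.b 3 6 (.k [1, 3, 4, 6]) (.i [3, 5, 6]))
    (.i [3, 4, 5]))) (.b 3 4 (.b 3 6 (.k [1, 3, 4, 6]) (.i [2, 3, 6])) (.i [2, 3, 4])))) (.i [2, 4,
    6])))) (.i [2, 4, 5])))))) (.b 3 6 (.b 0 4 (.b 2 3 (.c [0, 2, 3, 1, 4]) (.b 2 6 (.c [0, 2, 6, 1,
    4]) (.b 3 5 (.c [0, 4, 1, 3, 5]) (.b 5 6 (.c [0, 4, 1, 6, 5]) (.b 2 5 (.b 1 5 (.c [0, 2, 5, 1,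
    4]) (.b 1 2 (.c [0, 4, 1, 2, 5]) (.b 2 4 (.b 4 5 (.k [0, 2, 4, 5]) (.b 3 4 (.b 4 6 (.k [1, 3, 4,
    6]) (.i [4, 5, 6])) (.i [3, 4, 5]))) (.b 3 4 (.b 4 6 (.k [1, 3, 4, 6]) (.i [2, 4, 6])) (.i [2,
    3, 4]))))) (.i [2, 3, 5])))))) (.b 3 4 (.b 4 6 (.k [1, 3, 4, 6]) (.i [0, 4, 6])) (.i [0, 3,
    4]))) (.i [0, 3, 6]))) (.i [0, 1, 6]))) (.b 0 4 (.b 1 2 (.b 3 4 (.c [0, 2, 1, 3, 4]) (.b 3 5 (.c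
    [0, 2, 1, 3, 5]) (.b 4 5 (.b 1 5 (.c [0, 2, 1, 5, 4]) (.b 1 6 (.b 4 6 (.c [0, 2, 1, 6, 4]) (.b 5
    6 (.c [0, 2, 1, 6, 5]) (.b 3 6 (.b 0 6 (.c [0, 2, 1, 3, 6]) (.b 0 3 (.c [0, 2, 1, 6, 3]) (.b 2 3
    (.b 2 6 (.k [1, 2, 3, 6]) (.b 2 4 (.b 2 5 (.k [0, 2, 4, 5]) (.i [2, 5, 6])) (.i [2, 4, 6]))) (.b
    2 4 (.b 2 5 (.k [0, 2, 4, 5]) (.i [2, 3, 5])) (.i [2, 3, 4]))))) (.i [3, 4, 6])))) (.b 0 6 (.b 3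
    6 (.c [0, 2, 1, 3, 6]) (.b 4 6 (.b 2 5 (.c [0, 2, 5, 4, 6]) (.b 2 6 (.c [0, 2, 6, 4, 5]) (.b 5 6
    (.k [0, 4, 5, 6]) (.i [1, 5, 6])))) (.i [1, 4, 6]))) (.i [0, 1, 6])))) (.i [3, 4, 5])))) (.b 2 4
    (.b 1 5 (.b 2 3 (.c [0, 2, 3, 1, 5]) (.b 3 4 (.c [0, 4, 3, 1, 5]) (.b 1 6 (.b 2 6 (.c [0, 2, 6,
    1, 5]) (.b 4 6 (.c [0, 4, 6, 1, 5]) (.b 3 6 (.b 0 3 (.c [0, 3, 6, 1, 5]) (.b 0 6 (.c [0, 5, 1,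
    3, 6]) (.b 2 5 (.b 4 5 (.k [0, 2, 4, 5]) (.b 3 5 (.b 5 6 (.k [1, 3, 5, 6]) (.i [4, 5, 6])) (.i
    [3, 4, 5]))) (.b 3 5 (.b 5 6 (.k [1, 3, 5, 6]) (.i [2, 5, 6])) (.i [2, 3, 5]))))) (.i [2, 3,
    6])))) (.b 0 6 (.b 3 6 (.c [0, 5, 1, 3, 6]) (.b 2 6 (.b 5 6 (.c [0, 4, 2, 6, 5]) (.b 4 5 (.c [0,
    5, 4, 2, 6]) (.b 4 6 (.k [0, 2, 4, 6]) (.i [1, 4, 6])))) (.i [1, 2, 6]))) (.i [0, 1, 6]))))) (.b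
    2 5 (.b 4 5 (.k [0, 2, 4, 5]) (.i [1, 4, 5])) (.i [1, 2, 5]))) (.i [1, 2, 4]))) (.i [0, 1, 4])))
    (.b 1 5 (.b 0 3 (.b 2 5 (.c [0, 2, 5, 1, 3]) (.b 0 4 (.b 4 5 (.c [0, 3, 1, 5, 4]) (.b 2 4 (.b 1
    4 (.c [0, 2, 4, 1, 3]) (.b 1 2 (.c [0, 3, 1, 2, 4]) (.b 1 6 (.b 2 6 (.c [0, 2, 6, 1, 3]) (.b 4 6
    (.c [0, 3, 1, 6, 4]) (.b 5 6 (.b 0 6 (.c [0, 3, 1, 5, 6]) (.b 2 3 (.b 3 4 (.k [0, 2, 3, 4]) (.b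
    3 5 (.b 3 6 (.k [1, 3, 5, 6]) (.i [3, 4, 6])) (.i [3, 4, 5]))) (.b 3 5 (.b 3 6 (.k [1, 3, 5, 6])
    (.i [2, 3, 6])) (.i [2, 3, 5])))) (.i [2, 5, 6])))) (.b 0 6 (.b 5 6 (.c [0, 3, 1, 5, 6]) (.b 2 6
    (.b 3 4 (.c [0, 3, 4, 2, 6]) (.b 3 6 (.c [0, 3, 6, 2, 4]) (.b 4 6 (.k [0, 2, 4, 6]) (.i [1, 4,
    6])))) (.i [1, 2, 6]))) (.i [0, 1, 6]))))) (.i [2, 4, 5]))) (.b 1 4 (.b 2 4 (.c [0, 2, 4, 1, 3])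
    (.b 4 5 (.b 0 6 (.b 4 6 (.c [0, 3, 1, 4, 6]) (.b 5 6 (.c [0, 3, 1, 5, 6]) (.b 2 6 (.b 1 6 (.c
    [0, 2, 6, 1, 3]) (.b 1 2 (.c [0, 3, 1, 2, 6]) (.b 2 3 (.b 3 6 (.k [0, 2, 3, 6]) (.b 3 4 (.b 3 5
    (.k [1, 3, 4, 5]) (.i [3, 5, 6])) (.i [3, 4, 6]))) (.b 3 4 (.b 3 5 (.k [1, 3, 4, 5]) (.i [2, 3,
    5])) (.i [2, 3, 4]))))) (.i [2, 4, 6])))) (.b 1 6 (.b 2 6 (.c [0, 2, 6, 1, 3]) (.b 4 6 (.b 3 5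
    (.c [1, 3, 5, 4, 6]) (.b 3 6 (.c [1, 3, 6, 4, 5]) (.b 5 6 (.k [1, 4, 5, 6]) (.i [0, 5, 6]))))
    (.i [0, 4, 6]))) (.i [0, 1, 6]))) (.i [0, 4, 5]))) (.i [0, 1, 4])))) (.b 3 5 (.b 0 4 (.b 0 6 (.b
    1 2 (.b 3 4 (.c [0, 2, 1, 3, 4]) (.b 3 6 (.c [0, 2, 1, 3, 6]) (.b 4 5 (.c [0, 2, 1, 5, 4]) (.b 5
    6 (.c [0, 2, 1, 5, 6]) (.b 4 6 (.b 1 4 (.c [0, 2, 1, 4, 6]) (.b 1 6 (.c [0, 2, 1, 6, 4]) (.b 2 3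
    (.b 2 5 (.k [1, 2, 3, 5]) (.b 2 4 (.b 2 6 (.k [0, 2, 4, 6]) (.i [2, 5, 6])) (.i [2, 4, 5]))) (.b
    2 4 (.b 2 6 (.k [0, 2, 4, 6]) (.i [2, 3, 6])) (.i [2, 3, 4]))))) (.i [3, 4, 6])))))) (.b 1 4 (.b
    2 3 (.c [0, 2, 3, 1, 4]) (.b 2 5 (.c [0, 2, 5, 1, 4]) (.b 3 6 (.c [0, 4, 1, 3, 6]) (.b 5 6 (.c
    [0, 4, 1, 5, 6]) (.b 2 6 (.b 1 6 (.c [0, 2, 6, 1, 4]) (.b 2 4 (.b 4 6 (.k [0, 2, 4, 6]) (.b 3 4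
    (.b 4 5 (.k [1, 3, 4, 5]) (.i [4, 5, 6])) (.i [3, 4, 6]))) (.b 3 4 (.b 4 5 (.k [1, 3, 4, 5]) (.i
    [2, 4, 5])) (.i [2, 3, 4])))) (.i [2, 3, 6])))))) (.b 2 4 (.b 1 6 (.b 2 3 (.c [0, 2, 3, 1, 6])
    (.b 2 5 (.c [0, 2, 5, 1, 6]) (.b 3 4 (.c [0, 4, 3, 1, 6]) (.b 4 5 (.c [0, 4, 5, 1, 6]) (.b 2 6
    (.b 4 6 (.k [0, 2, 4, 6]) (.b 3 6 (.b 5 6 (.k [1, 3, 5, 6]) (.i [4, 5, 6])) (.i [3, 4, 6]))) (.b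
    3 6 (.b 5 6 (.k [1, 3, 5, 6]) (.i [2, 5, 6])) (.i [2, 3, 6]))))))) (.b 2 6 (.b 4 6 (.k [0, 2, 4,
    6]) (.i [1, 4, 6])) (.i [1, 2, 6]))) (.i [1, 2, 4])))) (.b 1 6 (.b 3 6 (.b 5 6 (.k [1, 3, 5, 6])
    (.i [0, 5, 6])) (.i [0, 3, 6])) (.i [0, 1, 6]))) (.b 1 4 (.b 3 4 (.b 4 5 (.k [1, 3, 4, 5]) (.i
    [0, 4, 5])) (.i [0, 3, 4])) (.i [0, 1, 4]))) (.i [0, 3, 5]))) (.i [0, 1, 5]))) (.b 0 3 (.b 1 4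
    (.b 1 2 (.b 3 4 (.c [0, 2, 1, 4, 3]) (.b 1 5 (.b 3 5 (.c [0, 2, 1, 5, 3]) (.b 4 5 (.b 0 5 (.c
    [0, 2, 1, 4, 5]) (.b 0 4 (.c [0, 2, 1, 5, 4]) (.b 0 6 (.b 4 6 (.c [0, 2, 1, 4, 6]) (.b 5 6 (.c
    [0, 2, 1, 5, 6]) (.b 3 6 (.b 1 6 (.c [0, 2, 1, 6, 3]) (.b 2 3 (.b 2 6 (.k [0, 2, 3, 6]) (.b 2 4
    (.b 2 5 (.k [1, 2, 4, 5]) (.i [2, 5, 6])) (.i [2, 4, 6]))) (.b 2 4 (.b 2 5 (.k [1, 2, 4, 5]) (.i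
    [2, 3, 5])) (.i [2, 3, 4])))) (.i [3, 4, 6])))) (.b 1 6 (.b 3 6 (.c [0, 2, 1, 6, 3]) (.b 4 6 (.b
    2 5 (.c [1, 2, 5, 4, 6]) (.b 2 6 (.c [1, 2, 6, 4, 5]) (.b 5 6 (.k [1, 4, 5, 6]) (.i [0, 5,
    6])))) (.i [0, 4, 6]))) (.i [0, 1, 6]))))) (.i [3, 4, 5]))) (.b 0 5 (.b 4 5 (.c [0, 2, 1, 4, 5])
    (.b 3 5 (.b 1 6 (.b 3 6 (.c [0, 2, 1, 6, 3]) (.b 5 6 (.c [0, 2, 1, 6, 5]) (.b 4 6 (.b 0 6 (.c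
    [0, 2, 1, 4, 6]) (.b 0 4 (.c [0, 2, 1, 6, 4]) (.b 2 3 (.b 2 5 (.k [0, 2, 3, 5]) (.b 2 4 (.b 2 6
    (.k [1, 2, 4, 6]) (.i [2, 5, 6])) (.i [2, 4, 5]))) (.b 2 4 (.b 2 6 (.k [1, 2, 4, 6]) (.i [2, 3,
    6])) (.i [2, 3, 4]))))) (.i [3, 4, 6])))) (.b 0 6 (.b 4 6 (.c [0, 2, 1, 4, 6]) (.b 3 6 (.b 2 5
    (.c [0, 2, 5, 3, 6]) (.b 2 6 (.c [0, 2, 6, 3, 5]) (.b 5 6 (.k [0, 3, 5, 6]) (.i [1, 5, 6]))))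
    (.i [1, 3, 6]))) (.i [0, 1, 6]))) (.i [1, 3, 5]))) (.i [0, 1, 5])))) (.b 2 3 (.b 1 5 (.b 1 6 (.b
    0 4 (.b 2 5 (.c [0, 2, 5, 1, 4]) (.b 2 6 (.c [0, 2, 6, 1, 4]) (.b 3 5 (.c [0, 3, 5, 1, 4]) (.b 3
    6 (.c [0, 3, 6, 1, 4]) (.b 5 6 (.b 0 6 (.c [0, 4, 1, 5, 6]) (.b 0 5 (.c [0, 4, 1, 6, 5]) (.b 2 4
    (.b 3 4 (.k [0, 2, 3, 4]) (.b 4 5 (.b 4 6 (.k [1, 4, 5, 6]) (.i [3, 4, 6])) (.i [3, 4, 5]))) (.b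
    4 5 (.b 4 6 (.k [1, 4, 5, 6]) (.i [2, 4, 6])) (.i [2, 4, 5]))))) (.i [2, 5, 6])))))) (.b 0 5 (.b
    2 4 (.c [0, 2, 4, 1, 5]) (.b 2 6 (.c [0, 2, 6, 1, 5]) (.b 3 4 (.c [0, 3, 4, 1, 5]) (.b 3 6 (.c
    [0, 3, 6, 1, 5]) (.b 4 6 (.b 0 6 (.c [0, 5, 1, 4, 6]) (.b 2 5 (.b 3 5 (.k [0, 2, 3, 5]) (.b 4 5
    (.b 5 6 (.k [1, 4, 5, 6]) (.i [3, 5, 6])) (.i [3, 4, 5]))) (.b 4 5 (.b 5 6 (.k [1, 4, 5, 6]) (.i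
    [2, 5, 6])) (.i [2, 4, 5])))) (.i [2, 4, 6])))))) (.b 4 5 (.b 0 6 (.b 2 4 (.c [0, 2, 4, 1, 6])
    (.b 2 5 (.c [0, 2, 5, 1, 6]) (.b 3 4 (.c [0, 3, 4, 1, 6]) (.b 3 5 (.c [0, 3, 5, 1, 6]) (.b 2 6
    (.b 3 6 (.k [0, 2, 3, 6]) (.b 4 6 (.b 5 6 (.k [1, 4, 5, 6]) (.i [3, 5, 6])) (.i [3, 4, 6]))) (.b
    4 6 (.b 5 6 (.k [1, 4, 5, 6]) (.i [2, 5, 6])) (.i [2, 4, 6]))))))) (.b 4 6 (.b 5 6 (.k [1, 4, 5,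
    6]) (.i [0, 5, 6])) (.i [0, 4, 6]))) (.i [0, 4, 5])))) (.b 0 6 (.b 2 6 (.b 3 6 (.k [0, 2, 3, 6])
    (.i [1, 3, 6])) (.i [1, 2, 6])) (.i [0, 1, 6]))) (.b 0 5 (.b 2 5 (.b 3 5 (.k [0, 2, 3, 5]) (.i
    [1, 3, 5])) (.i [1, 2, 5])) (.i [0, 1, 5]))) (.i [1, 2, 3]))) (.b 0 4 (.b 3 4 (.b 3 5 (.b 2 5
    (.c [0, 2, 5, 3, 4]) (.b 2 4 (.b 0 5 (.c [0, 2, 4, 3, 5]) (.b 4 5 (.c [0, 2, 4, 5, 3]) (.b 2 3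
    (.k [0, 2, 3, 4]) (.b 1 5 (.b 1 2 (.c [0, 2, 1, 5, 3]) (.i [1, 2, 3])) (.i [0, 1, 5]))))) (.b 1
    2 (.b 1 5 (.c [0, 2, 1, 5, 3]) (.b 0 5 (.b 4 5 (.k [0, 3, 4, 5]) (.i [1, 4, 5])) (.i [0, 1,
    5]))) (.i [1, 2, 4])))) (.b 1 5 (.b 3 6 (.b 2 6 (.c [0, 2, 6, 3, 4]) (.b 1 6 (.b 1 2 (.c [0, 2,
    1, 6, 3]) (.b 0 5 (.c [0, 3, 6, 1, 5]) (.b 4 5 (.c [1, 5, 4, 3, 6]) (.b 2 3 (.b 4 6 (.c [0, 2,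
    3, 6, 4]) (.b 2 5 (.c [1, 5, 2, 3, 6]) (.b 2 4 (.k [0, 2, 3, 4]) (.i [1, 2, 4])))) (.i [1, 2,
    3]))))) (.b 0 6 (.b 2 4 (.c [0, 2, 4, 3, 6]) (.b 4 6 (.k [0, 3, 4, 6]) (.i [1, 4, 6]))) (.i [0,
    1, 6])))) (.b 1 6 (.b 5 6 (.b 1 2 (.b 4 5 (.c [0, 2, 1, 5, 4]) (.b 0 6 (.c [0, 2, 1, 5, 6]) (.b
    4 6 (.c [0, 2, 1, 6, 4]) (.b 0 5 (.c [0, 2, 1, 6, 5]) (.b 2 3 (.b 2 4 (.k [0, 2, 3, 4]) (.b 2 5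
    (.b 2 6 (.k [1, 2, 5, 6]) (.i [2, 4, 6])) (.i [2, 4, 5]))) (.b 2 5 (.b 2 6 (.k [1, 2, 5, 6]) (.i
    [2, 3, 6])) (.i [2, 3, 5]))))))) (.b 2 3 (.b 2 4 (.k [0, 2, 3, 4]) (.i [1, 2, 4])) (.i [1, 2,
    3]))) (.i [3, 5, 6])) (.i [1, 3, 6]))) (.i [1, 3, 5]))) (.i [1, 3, 4])) (.i [0, 1, 4]))) (.i [0,
    1, 3]))) (.b 1 2 (.b 0 3 (.b 0 4 (.b 0 5 (.b 0 6 (.b 1 3 (.b 2 4 (.c [0, 3, 1, 2, 4]) (.b 2 5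
    (.c [0, 3, 1, 2, 5]) (.b 2 6 (.c [0, 3, 1, 2, 6]) (.b 4 5 (.b 1 4 (.c [0, 3, 1, 4, 5]) (.b 1 5
    (.c [0, 3, 1, 5, 4]) (.b 4 6 (.b 1 6 (.c [0, 3, 1, 6, 4]) (.b 3 5 (.c [0, 3, 5, 4, 6]) (.b 3 6
    (.c [0, 3, 6, 4, 5]) (.b 5 6 (.k [0, 4, 5, 6]) (.i [1, 5, 6]))))) (.i [2, 4, 6])))) (.i [2, 4,
    5]))))) (.b 1 4 (.b 2 3 (.c [0, 3, 2, 1, 4]) (.b 2 5 (.c [0, 4, 1, 2, 5]) (.b 2 6 (.c [0, 4, 1,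
    2, 6]) (.b 3 5 (.b 1 5 (.c [0, 3, 5, 1, 4]) (.b 3 6 (.b 1 6 (.c [0, 3, 6, 1, 4]) (.b 4 5 (.c [0,
    4, 5, 3, 6]) (.b 4 6 (.c [0, 4, 6, 3, 5]) (.b 5 6 (.k [0, 3, 5, 6]) (.i [1, 5, 6]))))) (.i [2,
    3, 6]))) (.i [2, 3, 5]))))) (.b 3 4 (.b 1 5 (.b 2 3 (.c [0, 3, 2, 1, 5]) (.b 2 4 (.c [0, 4, 2,
    1, 5]) (.b 2 6 (.c [0, 5, 1, 2, 6]) (.b 3 6 (.b 1 6 (.c [0, 3, 6, 1, 5]) (.b 5 6 (.c [0, 4, 3,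
    6, 5]) (.b 4 5 (.c [0, 5, 4, 3, 6]) (.b 4 6 (.k [0, 3, 4, 6]) (.i [1, 4, 6]))))) (.i [2, 3,
    6]))))) (.b 3 5 (.b 5 6 (.c [0, 4, 3, 5, 6]) (.b 4 6 (.c [0, 5, 3, 4, 6]) (.b 4 5 (.k [0, 3, 4,
    5]) (.i [1, 4, 5])))) (.i [1, 3, 5]))) (.i [1, 3, 4])))) (.b 1 6 (.b 2 6 (.b 1 3 (.b 2 4 (.c [0,
    3, 1, 2, 4]) (.b 2 5 (.c [0, 3, 1, 2, 5]) (.b 4 6 (.c [0, 3, 1, 6, 4]) (.b 5 6 (.c [0, 3, 1, 6,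
    5]) (.b 4 5 (.b 1 4 (.c [0, 3, 1, 4, 5]) (.b 1 5 (.c [0, 3, 1, 5, 4]) (.b 2 3 (.b 3 6 (.k [1, 2,
    3, 6]) (.b 3 4 (.b 3 5 (.k [0, 3, 4, 5]) (.i [3, 5, 6])) (.i [3, 4, 6]))) (.b 3 4 (.b 3 5 (.k
    [0, 3, 4, 5]) (.i [2, 3, 5])) (.i [2, 3, 4]))))) (.i [2, 4, 5])))))) (.b 1 4 (.b 2 3 (.c [0, 3,
    2, 1, 4]) (.b 3 6 (.c [0, 3, 6, 1, 4]) (.b 2 5 (.c [0, 4, 1, 2, 5]) (.b 5 6 (.c [0, 4, 1, 6, 5])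
    (.b 3 5 (.b 1 5 (.c [0, 3, 5, 1, 4]) (.b 2 4 (.b 4 6 (.k [1, 2, 4, 6]) (.b 3 4 (.b 4 5 (.k [0,
    3, 4, 5]) (.i [4, 5, 6])) (.i [3, 4, 6]))) (.b 3 4 (.b 4 5 (.k [0, 3, 4, 5]) (.i [2, 4, 5])) (.i
    [2, 3, 4])))) (.i [2, 3, 5])))))) (.b 3 4 (.b 1 5 (.b 2 3 (.c [0, 3, 2, 1, 5]) (.b 3 6 (.c [0,
    3, 6, 1, 5]) (.b 2 4 (.c [0, 4, 2, 1, 5]) (.b 4 6 (.c [0, 4, 6, 1, 5]) (.b 2 5 (.b 5 6 (.k [1,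
    2, 5, 6]) (.b 3 5 (.b 4 5 (.k [0, 3, 4, 5]) (.i [4, 5, 6])) (.i [3, 5, 6]))) (.b 3 5 (.b 4 5 (.k
    [0, 3, 4, 5]) (.i [2, 4, 5])) (.i [2, 3, 5]))))))) (.b 3 5 (.b 4 5 (.k [0, 3, 4, 5]) (.i [1, 4,
    5])) (.i [1, 3, 5]))) (.i [1, 3, 4])))) (.i [0, 2, 6])) (.i [0, 1, 6]))) (.b 1 5 (.b 2 5 (.b 0 6
    (.b 1 3 (.b 2 4 (.c [0, 3, 1, 2, 4]) (.b 2 6 (.c [0, 3, 1, 2, 6]) (.b 4 5 (.c [0, 3, 1, 5, 4])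
    (.b 5 6 (.c [0, 3, 1, 5, 6]) (.b 4 6 (.b 1 4 (.c [0, 3, 1, 4, 6]) (.b 1 6 (.c [0, 3, 1, 6, 4])
    (.b 2 3 (.b 3 5 (.k [1, 2, 3, 5]) (.b 3 4 (.b 3 6 (.k [0, 3, 4, 6]) (.i [3, 5, 6])) (.i [3, 4,
    5]))) (.b 3 4 (.b 3 6 (.k [0, 3, 4, 6]) (.i [2, 3, 6])) (.i [2, 3, 4]))))) (.i [2, 4, 6]))))))
    (.b 1 4 (.b 2 3 (.c [0, 3, 2, 1, 4]) (.b 3 5 (.c [0, 3, 5, 1, 4]) (.b 2 6 (.c [0, 4, 1, 2, 6])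
    (.b 5 6 (.c [0, 4, 1, 5, 6]) (.b 3 6 (.b 1 6 (.c [0, 3, 6, 1, 4]) (.b 2 4 (.b 4 5 (.k [1, 2, 4,
    5]) (.b 3 4 (.b 4 6 (.k [0, 3, 4, 6]) (.i [4, 5, 6])) (.i [3, 4, 5]))) (.b 3 4 (.b 4 6 (.k [0,
    3, 4, 6]) (.i [2, 4, 6])) (.i [2, 3, 4])))) (.i [2, 3, 6])))))) (.b 3 4 (.b 1 6 (.b 2 3 (.c [0,
    3, 2, 1, 6]) (.b 3 5 (.c [0, 3, 5, 1, 6]) (.b 2 4 (.c [0, 4, 2, 1, 6]) (.b 4 5 (.c [0, 4, 5, 1,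
    6]) (.b 2 6 (.b 5 6 (.k [1, 2, 5, 6]) (.b 3 6 (.b 4 6 (.k [0, 3, 4, 6]) (.i [4, 5, 6])) (.i [3,
    5, 6]))) (.b 3 6 (.b 4 6 (.k [0, 3, 4, 6]) (.i [2, 4, 6])) (.i [2, 3, 6]))))))) (.b 3 6 (.b 4 6
    (.k [0, 3, 4, 6]) (.i [1, 4, 6])) (.i [1, 3, 6]))) (.i [1, 3, 4])))) (.b 1 6 (.b 2 6 (.b 5 6 (.k
    [1, 2, 5, 6]) (.i [0, 5, 6])) (.i [0, 2, 6])) (.i [0, 1, 6]))) (.i [0, 2, 5])) (.i [0, 1, 5])))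
    (.b 1 4 (.b 2 4 (.b 0 5 (.b 0 6 (.b 1 3 (.b 2 5 (.c [0, 3, 1, 2, 5]) (.b 2 6 (.c [0, 3, 1, 2,
    6]) (.b 4 5 (.c [0, 3, 1, 4, 5]) (.b 4 6 (.c [0, 3, 1, 4, 6]) (.b 5 6 (.b 1 5 (.c [0, 3, 1, 5,
    6]) (.b 1 6 (.c [0, 3, 1, 6, 5]) (.b 2 3 (.b 3 4 (.k [1, 2, 3, 4]) (.b 3 5 (.b 3 6 (.k [0, 3, 5,
    6]) (.i [3, 4, 6])) (.i [3, 4, 5]))) (.b 3 5 (.b 3 6 (.k [0, 3, 5, 6]) (.i [2, 3, 6])) (.i [2,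
    3, 5]))))) (.i [2, 5, 6])))))) (.b 1 5 (.b 2 3 (.c [0, 3, 2, 1, 5]) (.b 3 4 (.c [0, 3, 4, 1, 5])
    (.b 2 6 (.c [0, 5, 1, 2, 6]) (.b 4 6 (.c [0, 5, 1, 4, 6]) (.b 3 6 (.b 1 6 (.c [0, 3, 6, 1, 5])
    (.b 2 5 (.b 4 5 (.k [1, 2, 4, 5]) (.b 3 5 (.b 5 6 (.k [0, 3, 5, 6]) (.i [4, 5, 6])) (.i [3, 4,
    5]))) (.b 3 5 (.b 5 6 (.k [0, 3, 5, 6]) (.i [2, 5, 6])) (.i [2, 3, 5])))) (.i [2, 3, 6]))))))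
    (.b 3 5 (.b 1 6 (.b 2 3 (.c [0, 3, 2, 1, 6]) (.b 3 4 (.c [0, 3, 4, 1, 6]) (.b 2 5 (.c [0, 5, 2,
    1, 6]) (.b 4 5 (.c [0, 5, 4, 1, 6]) (.b 2 6 (.b 4 6 (.k [1, 2, 4, 6]) (.b 3 6 (.b 5 6 (.k [0, 3,
    5, 6]) (.i [4, 5, 6])) (.i [3, 4, 6]))) (.b 3 6 (.b 5 6 (.k [0, 3, 5, 6]) (.i [2, 5, 6])) (.i
    [2, 3, 6]))))))) (.b 3 6 (.b 5 6 (.k [0, 3, 5, 6]) (.i [1, 5, 6])) (.i [1, 3, 6]))) (.i [1, 3,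
    5])))) (.b 1 6 (.b 2 6 (.b 4 6 (.k [1, 2, 4, 6]) (.i [0, 4, 6])) (.i [0, 2, 6])) (.i [0, 1,
    6]))) (.b 1 5 (.b 2 5 (.b 4 5 (.k [1, 2, 4, 5]) (.i [0, 4, 5])) (.i [0, 2, 5])) (.i [0, 1, 5])))
    (.i [0, 2, 4])) (.i [0, 1, 4]))) (.b 1 3 (.b 2 3 (.b 0 4 (.b 0 5 (.b 0 6 (.b 1 4 (.b 2 5 (.c [0,
    4, 1, 2, 5]) (.b 2 6 (.c [0, 4, 1, 2, 6]) (.b 3 5 (.c [0, 4, 1, 3, 5]) (.b 3 6 (.c [0, 4, 1, 3,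
    6]) (.b 5 6 (.b 1 5 (.c [0, 4, 1, 5, 6]) (.b 1 6 (.c [0, 4, 1, 6, 5]) (.b 2 4 (.b 3 4 (.k [1, 2,
    3, 4]) (.b 4 5 (.b 4 6 (.k [0, 4, 5, 6]) (.i [3, 4, 6])) (.i [3, 4, 5]))) (.b 4 5 (.b 4 6 (.k
    [0, 4, 5, 6]) (.i [2, 4, 6])) (.i [2, 4, 5]))))) (.i [2, 5, 6])))))) (.b 1 5 (.b 2 4 (.c [0, 4,
    2, 1, 5]) (.b 3 4 (.c [0, 4, 3, 1, 5]) (.b 2 6 (.c [0, 5, 1, 2, 6]) (.b 3 6 (.c [0, 5, 1, 3, 6])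
    (.b 4 6 (.b 1 6 (.c [0, 4, 6, 1, 5]) (.b 2 5 (.b 3 5 (.k [1, 2, 3, 5]) (.b 4 5 (.b 5 6 (.k [0,
    4, 5, 6]) (.i [3, 5, 6])) (.i [3, 4, 5]))) (.b 4 5 (.b 5 6 (.k [0, 4, 5, 6]) (.i [2, 5, 6])) (.i
    [2, 4, 5])))) (.i [2, 4, 6])))))) (.b 4 5 (.b 1 6 (.b 2 4 (.c [0, 4, 2, 1, 6]) (.b 3 4 (.c [0,
    4, 3, 1, 6]) (.b 2 5 (.c [0, 5, 2, 1, 6]) (.b 3 5 (.c [0, 5, 3, 1, 6]) (.b 2 6 (.b 3 6 (.k [1,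
    2, 3, 6]) (.b 4 6 (.b 5 6 (.k [0, 4, 5, 6]) (.i [3, 5, 6])) (.i [3, 4, 6]))) (.b 4 6 (.b 5 6 (.k
    [0, 4, 5, 6]) (.i [2, 5, 6])) (.i [2, 4, 6]))))))) (.b 4 6 (.b 5 6 (.k [0, 4, 5, 6]) (.i [1, 5,
    6])) (.i [1, 4, 6]))) (.i [1, 4, 5])))) (.b 1 6 (.b 2 6 (.b 3 6 (.k [1, 2, 3, 6]) (.i [0, 3,
    6])) (.i [0, 2, 6])) (.i [0, 1, 6]))) (.b 1 5 (.b 2 5 (.b 3 5 (.k [1, 2, 3, 5]) (.i [0, 3, 5]))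
    (.i [0, 2, 5])) (.i [0, 1, 5]))) (.b 1 4 (.b 2 4 (.b 3 4 (.k [1, 2, 3, 4]) (.i [0, 3, 4])) (.i
    [0, 2, 4])) (.i [0, 1, 4]))) (.i [0, 2, 3])) (.i [0, 1, 3]))) (.i [0, 1, 2]))),
  by decide +kernel⟩

/-- a graph on `7` vertices without independent triple and `K_4` has a `C_6` -/
theorem treeF6 : ∃ t : Tr, t.check 7 6 4 3 (mask []) 0 = true :=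
  ⟨.b 1 6 (.b 2 4 (.b 0 5 (.b 2 5 (.b 0 1 (.b 4 6 (.c [0, 1, 6, 4, 2, 5]) (.b 3 4 (.b 1 3 (.c [0,
    1, 3, 4, 2, 5]) (.b 0 6 (.b 1 4 (.c [0, 5, 2, 4, 1, 6]) (.b 3 6 (.c [0, 5, 2, 4, 3, 6]) (.b 5 6
    (.b 0 4 (.c [0, 1, 6, 5, 2, 4]) (.b 0 3 (.c [0, 3, 4, 2, 5, 6]) (.b 1 5 (.k [0, 1, 5, 6]) (.b 3
    5 (.b 1 2 (.c [0, 1, 2, 4, 3, 5]) (.b 0 2 (.c [0, 2, 4, 3, 5, 6]) (.b 2 6 (.c [0, 5, 3, 4, 2,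
    6]) (.b 2 3 (.b 4 5 (.k [2, 3, 4, 5]) (.i [1, 4, 5])) (.i [0, 2, 3]))))) (.i [1, 3, 5]))))) (.b
    3 5 (.b 1 2 (.c [0, 1, 2, 4, 3, 5]) (.b 2 6 (.c [0, 5, 3, 4, 2, 6]) (.b 2 3 (.b 4 5 (.k [2, 3,
    4, 5]) (.i [4, 5, 6])) (.i [1, 2, 3])))) (.i [3, 5, 6]))))) (.b 0 4 (.b 5 6 (.c [0, 1, 6, 5, 2,
    4]) (.b 4 5 (.b 2 6 (.c [0, 1, 6, 2, 4, 5]) (.b 3 6 (.c [0, 1, 6, 3, 4, 5]) (.b 0 2 (.k [0, 2,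
    4, 5]) (.i [0, 2, 6])))) (.i [4, 5, 6]))) (.i [0, 4, 6])))) (.b 3 6 (.b 2 3 (.c [0, 1, 6, 3, 2,
    5]) (.b 0 4 (.b 5 6 (.c [0, 1, 6, 5, 2, 4]) (.b 4 5 (.b 2 6 (.c [0, 1, 6, 2, 4, 5]) (.b 3 5 (.c
    [0, 1, 6, 3, 5, 4]) (.b 0 2 (.k [0, 2, 4, 5]) (.b 0 3 (.b 1 2 (.c [0, 3, 6, 1, 2, 4]) (.b 1 4
    (.c [0, 3, 6, 1, 4, 5]) (.b 1 5 (.c [0, 3, 6, 1, 5, 4]) (.b 0 6 (.b 1 3 (.k [0, 1, 3, 6]) (.i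
    [1, 2, 3])) (.i [0, 2, 6]))))) (.i [0, 2, 3]))))) (.i [4, 5, 6]))) (.b 0 3 (.b 1 2 (.c [0, 3, 6,
    1, 2, 5]) (.b 0 6 (.b 1 4 (.c [0, 5, 2, 4, 1, 6]) (.b 1 3 (.k [0, 1, 3, 6]) (.i [1, 2, 3]))) (.i
    [0, 4, 6]))) (.i [0, 3, 4])))) (.i [3, 4, 6])))) (.b 1 4 (.b 0 6 (.c [0, 5, 2, 4, 1, 6]) (.b 0 2
    (.b 5 6 (.c [0, 2, 4, 1, 6, 5]) (.b 3 6 (.b 0 3 (.c [0, 2, 4, 1, 6, 3]) (.b 3 5 (.c [1, 4, 2, 5,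
    3, 6]) (.b 1 3 (.b 0 4 (.b 2 3 (.c [0, 2, 3, 6, 1, 4]) (.b 2 6 (.c [0, 2, 6, 3, 1, 4]) (.b 4 5
    (.k [0, 2, 4, 5]) (.b 3 4 (.b 1 2 (.c [0, 2, 1, 6, 3, 4]) (.b 1 5 (.c [0, 2, 4, 3, 1, 5]) (.b 4
    6 (.k [1, 3, 4, 6]) (.i [4, 5, 6])))) (.i [3, 4, 5]))))) (.b 3 4 (.b 1 5 (.c [0, 2, 4, 3, 1, 5])
    (.b 4 6 (.k [1, 3, 4, 6]) (.i [0, 4, 6]))) (.i [0, 3, 4]))) (.i [0, 1, 3])))) (.b 0 3 (.b 1 3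
    (.c [0, 3, 1, 4, 2, 5]) (.b 3 5 (.b 1 5 (.c [0, 2, 4, 1, 5, 3]) (.b 2 3 (.k [0, 2, 3, 5]) (.b 1
    2 (.b 3 4 (.c [0, 2, 1, 4, 3, 5]) (.b 4 5 (.c [0, 2, 1, 4, 5, 3]) (.b 0 4 (.c [0, 3, 5, 2, 1,
    4]) (.b 4 6 (.b 2 6 (.k [1, 2, 4, 6]) (.i [2, 3, 6])) (.i [0, 4, 6]))))) (.i [1, 2, 3])))) (.i
    [3, 5, 6]))) (.i [0, 3, 6])))) (.b 1 2 (.b 2 6 (.b 0 4 (.c [0, 4, 1, 6, 2, 5]) (.b 4 6 (.k [1,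
    2, 4, 6]) (.i [0, 4, 6]))) (.i [0, 2, 6])) (.i [0, 1, 2])))) (.b 0 4 (.b 1 2 (.b 5 6 (.c [0, 4,
    2, 1, 6, 5]) (.b 4 6 (.c [0, 4, 6, 1, 2, 5]) (.b 4 5 (.b 0 6 (.c [0, 4, 5, 2, 1, 6]) (.b 0 2 (.k
    [0, 2, 4, 5]) (.b 2 6 (.b 1 5 (.c [0, 4, 2, 6, 1, 5]) (.b 1 3 (.b 0 3 (.c [0, 3, 1, 2, 4, 5])
    (.b 3 5 (.c [0, 4, 2, 1, 3, 5]) (.b 3 4 (.c [0, 4, 3, 1, 2, 5]) (.b 2 3 (.b 3 6 (.k [1, 2, 3,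
    6]) (.i [0, 3, 6])) (.i [0, 2, 3]))))) (.b 0 3 (.b 3 6 (.c [0, 3, 6, 1, 2, 4]) (.b 3 4 (.b 3 5
    (.k [0, 3, 4, 5]) (.i [1, 3, 5])) (.i [1, 3, 4]))) (.i [0, 1, 3])))) (.i [0, 2, 6])))) (.i [4,
    5, 6])))) (.b 0 2 (.b 4 5 (.k [0, 2, 4, 5]) (.b 1 5 (.b 4 6 (.c [0, 2, 4, 6, 1, 5]) (.b 0 6 (.c
    [0, 4, 2, 5, 1, 6]) (.b 2 6 (.c [0, 4, 2, 6, 1, 5]) (.b 5 6 (.b 3 4 (.b 1 3 (.c [0, 2, 4, 3, 1,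
    5]) (.b 3 6 (.c [0, 2, 4, 3, 6, 5]) (.b 0 3 (.b 2 3 (.k [0, 2, 3, 4]) (.i [1, 2, 3])) (.i [0, 1,
    3])))) (.b 1 3 (.b 2 3 (.c [0, 2, 3, 1, 6, 5]) (.b 0 3 (.c [0, 2, 5, 6, 1, 3]) (.b 3 6 (.b 3 5
    (.k [1, 3, 5, 6]) (.i [3, 4, 5])) (.i [0, 3, 6])))) (.i [1, 3, 4]))) (.i [4, 5, 6]))))) (.i [1,
    4, 5]))) (.i [0, 1, 2]))) (.i [0, 1, 4])))) (.b 5 6 (.b 1 2 (.b 0 4 (.c [0, 4, 2, 1, 6, 5]) (.b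
    0 3 (.b 2 3 (.c [0, 3, 2, 1, 6, 5]) (.b 3 5 (.b 0 2 (.c [0, 2, 1, 6, 5, 3]) (.b 3 4 (.c [1, 2,
    4, 3, 5, 6]) (.b 2 6 (.b 0 1 (.c [0, 1, 2, 6, 5, 3]) (.b 1 3 (.c [0, 3, 1, 2, 6, 5]) (.b 1 4 (.b
    4 6 (.k [1, 2, 4, 6]) (.b 0 6 (.b 1 5 (.c [0, 3, 5, 1, 2, 6]) (.b 4 5 (.c [0, 3, 5, 4, 1, 6])
    (.b 3 6 (.k [0, 3, 5, 6]) (.i [3, 4, 6])))) (.i [0, 4, 6]))) (.i [0, 1, 4])))) (.b 0 6 (.b 4 5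
    (.c [0, 5, 4, 2, 1, 6]) (.b 3 6 (.k [0, 3, 5, 6]) (.i [2, 3, 6]))) (.i [0, 2, 6]))))) (.i [2, 3,
    5]))) (.b 3 4 (.b 3 5 (.c [1, 2, 4, 3, 5, 6]) (.b 2 3 (.b 4 5 (.c [1, 2, 3, 4, 5, 6]) (.b 1 5
    (.b 4 6 (.c [1, 2, 3, 4, 6, 5]) (.b 3 6 (.c [1, 2, 4, 3, 6, 5]) (.b 0 6 (.b 0 1 (.k [0, 1, 5,
    6]) (.b 1 3 (.b 0 2 (.c [0, 2, 3, 1, 5, 6]) (.b 2 6 (.c [0, 5, 1, 3, 2, 6]) (.b 1 4 (.k [1, 2,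
    3, 4]) (.i [0, 1, 4])))) (.i [0, 1, 3]))) (.i [0, 3, 6])))) (.b 1 3 (.b 0 2 (.c [0, 2, 3, 1, 6,
    5]) (.b 1 4 (.k [1, 2, 3, 4]) (.i [1, 4, 5]))) (.i [1, 3, 5])))) (.i [2, 3, 5]))) (.i [0, 3,
    4])))) (.b 1 5 (.b 0 2 (.b 1 4 (.c [0, 2, 4, 1, 6, 5]) (.b 4 6 (.c [0, 2, 4, 6, 1, 5]) (.b 3 4
    (.b 1 3 (.c [0, 2, 4, 3, 1, 5]) (.b 3 6 (.c [0, 2, 4, 3, 6, 5]) (.b 2 3 (.b 0 1 (.b 3 5 (.c [0,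
    1, 5, 3, 4, 2]) (.b 4 5 (.c [0, 1, 5, 4, 3, 2]) (.b 0 6 (.k [0, 1, 5, 6]) (.b 0 3 (.b 2 6 (.c
    [0, 1, 5, 6, 2, 3]) (.b 0 4 (.k [0, 2, 3, 4]) (.i [0, 4, 6]))) (.i [0, 3, 6]))))) (.b 0 3 (.b 2
    6 (.c [0, 3, 2, 6, 1, 5]) (.b 0 4 (.k [0, 2, 3, 4]) (.i [0, 1, 4]))) (.i [0, 1, 3]))) (.i [1, 2,
    3])))) (.b 1 3 (.b 2 3 (.c [0, 2, 3, 1, 6, 5]) (.b 3 5 (.b 2 6 (.c [0, 2, 6, 1, 3, 5]) (.b 3 6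
    (.k [1, 3, 5, 6]) (.i [2, 3, 6]))) (.i [2, 3, 5]))) (.i [1, 3, 4]))))) (.b 0 1 (.b 0 6 (.k [0,
    1, 5, 6]) (.b 2 6 (.b 1 4 (.c [0, 1, 4, 2, 6, 5]) (.b 0 4 (.c [0, 1, 5, 6, 2, 4]) (.b 4 5 (.c
    [0, 1, 6, 2, 4, 5]) (.b 4 6 (.b 0 3 (.b 2 3 (.c [0, 1, 5, 6, 2, 3]) (.b 3 4 (.c [0, 1, 5, 6, 4,
    3]) (.b 1 3 (.b 3 5 (.k [0, 1, 3, 5]) (.i [2, 3, 5])) (.i [1, 2, 3])))) (.b 2 3 (.b 1 3 (.c [0,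
    1, 3, 2, 6, 5]) (.b 3 5 (.c [0, 1, 6, 2, 3, 5]) (.b 3 4 (.b 3 6 (.k [2, 3, 4, 6]) (.i [0, 3,
    6])) (.i [0, 3, 4])))) (.i [0, 2, 3]))) (.i [0, 4, 6]))))) (.i [0, 2, 6]))) (.i [0, 1, 2]))) (.i
    [1, 2, 5]))) (.b 2 6 (.b 4 5 (.b 0 1 (.c [0, 1, 6, 2, 4, 5]) (.b 3 5 (.b 1 3 (.c [1, 3, 5, 4, 2,
    6]) (.b 0 3 (.b 0 6 (.c [0, 3, 5, 4, 2, 6]) (.b 3 6 (.c [0, 3, 6, 2, 4, 5]) (.b 4 6 (.b 0 2 (.c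
    [0, 2, 6, 4, 5, 3]) (.b 2 3 (.c [0, 3, 2, 6, 4, 5]) (.b 1 2 (.b 1 4 (.k [1, 2, 4, 6]) (.b 0 4
    (.b 1 5 (.c [0, 3, 5, 1, 2, 4]) (.b 3 4 (.k [0, 3, 4, 5]) (.i [1, 3, 4]))) (.i [0, 1, 4]))) (.i
    [0, 1, 2])))) (.b 0 4 (.b 1 5 (.c [0, 4, 2, 6, 1, 5]) (.b 3 4 (.k [0, 3, 4, 5]) (.i [3, 4, 6])))
    (.i [0, 4, 6]))))) (.i [0, 1, 3]))) (.b 2 3 (.b 3 6 (.b 0 3 (.c [0, 3, 6, 2, 4, 5]) (.b 0 6 (.c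
    [0, 5, 4, 2, 3, 6]) (.b 1 5 (.c [1, 5, 4, 2, 3, 6]) (.b 1 3 (.b 1 2 (.k [1, 2, 3, 6]) (.i [1, 2,
    5])) (.i [0, 1, 3]))))) (.i [3, 5, 6])) (.i [2, 3, 5])))) (.b 4 6 (.b 1 5 (.b 0 2 (.c [0, 2, 4,
    6, 1, 5]) (.b 0 4 (.c [0, 4, 2, 6, 1, 5]) (.b 3 5 (.b 2 3 (.c [1, 5, 3, 2, 4, 6]) (.b 3 4 (.c
    [1, 5, 3, 4, 2, 6]) (.b 0 3 (.b 1 4 (.b 0 6 (.c [0, 3, 5, 1, 4, 6]) (.b 3 6 (.c [0, 3, 6, 4, 1,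
    5]) (.b 1 2 (.k [1, 2, 4, 6]) (.b 0 1 (.b 1 3 (.k [0, 1, 3, 5]) (.i [1, 2, 3])) (.i [0, 1,
    2]))))) (.b 0 1 (.b 1 3 (.k [0, 1, 3, 5]) (.i [1, 3, 4])) (.i [0, 1, 4]))) (.i [0, 2, 3])))) (.b
    2 3 (.b 0 3 (.c [0, 3, 2, 6, 1, 5]) (.b 3 4 (.b 3 6 (.k [2, 3, 4, 6]) (.i [3, 5, 6])) (.i [0, 3,
    4]))) (.i [2, 3, 5]))))) (.b 1 2 (.b 1 4 (.k [1, 2, 4, 6]) (.i [1, 4, 5])) (.i [1, 2, 5]))) (.i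
    [4, 5, 6]))) (.i [2, 5, 6])))) (.b 0 2 (.b 0 3 (.b 1 5 (.b 4 5 (.b 1 3 (.c [0, 2, 4, 5, 1, 3])
    (.b 0 6 (.c [0, 2, 4, 5, 1, 6]) (.b 5 6 (.b 0 1 (.c [0, 1, 6, 5, 4, 2]) (.b 3 6 (.c [0, 2, 4, 5,
    6, 3]) (.b 0 4 (.b 1 2 (.c [0, 2, 1, 6, 5, 4]) (.b 2 6 (.c [0, 2, 6, 1, 5, 4]) (.b 2 3 (.b 3 4
    (.k [0, 2, 3, 4]) (.b 1 4 (.b 3 5 (.c [0, 2, 3, 5, 1, 4]) (.b 2 5 (.c [0, 2, 5, 6, 1, 4]) (.b 4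
    6 (.k [1, 4, 5, 6]) (.i [3, 4, 6])))) (.i [1, 3, 4]))) (.i [1, 2, 3])))) (.b 1 4 (.b 3 5 (.c [0,
    2, 4, 1, 5, 3]) (.b 4 6 (.k [1, 4, 5, 6]) (.i [0, 4, 6]))) (.i [0, 1, 4]))))) (.i [0, 5, 6]))))
    (.b 0 4 (.b 3 5 (.b 1 4 (.c [0, 2, 4, 1, 5, 3]) (.b 2 6 (.c [0, 2, 6, 1, 5, 3]) (.b 1 2 (.c [0,
    3, 5, 1, 2, 4]) (.b 4 6 (.c [0, 3, 5, 1, 6, 4]) (.b 5 6 (.b 2 3 (.b 0 1 (.c [0, 1, 5, 3, 2, 4])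
    (.b 0 6 (.c [0, 2, 3, 5, 1, 6]) (.b 3 4 (.k [0, 2, 3, 4]) (.b 1 3 (.b 2 5 (.c [0, 2, 5, 6, 1,
    3]) (.b 3 6 (.k [1, 3, 5, 6]) (.i [3, 4, 6]))) (.i [1, 3, 4]))))) (.b 1 3 (.b 2 5 (.c [0, 2, 5,
    6, 1, 3]) (.b 3 6 (.k [1, 3, 5, 6]) (.i [2, 3, 6]))) (.i [1, 2, 3]))) (.i [4, 5, 6])))))) (.b 3
    4 (.b 2 3 (.k [0, 2, 3, 4]) (.b 2 5 (.b 0 1 (.c [0, 1, 5, 2, 4, 3]) (.b 1 3 (.c [0, 2, 5, 1, 3,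
    4]) (.b 1 4 (.c [0, 2, 5, 1, 4, 3]) (.b 3 6 (.c [0, 2, 5, 1, 6, 3]) (.b 4 6 (.c [0, 2, 5, 1, 6,
    4]) (.b 0 6 (.c [0, 4, 2, 5, 1, 6]) (.b 5 6 (.b 1 2 (.b 2 6 (.k [1, 2, 5, 6]) (.i [2, 3, 6]))
    (.i [1, 2, 3])) (.i [0, 5, 6])))))))) (.i [2, 3, 5]))) (.i [3, 4, 5]))) (.i [0, 4, 5]))) (.b 0 1
    (.b 4 5 (.b 5 6 (.c [0, 1, 6, 5, 4, 2]) (.b 0 6 (.b 3 5 (.b 1 2 (.c [0, 1, 2, 4, 5, 3]) (.b 1 3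
    (.c [0, 1, 3, 5, 4, 2]) (.b 4 6 (.c [0, 1, 6, 4, 5, 3]) (.b 3 6 (.c [0, 2, 4, 5, 3, 6]) (.b 1 4
    (.c [0, 3, 5, 4, 1, 6]) (.b 2 6 (.c [0, 3, 5, 4, 2, 6]) (.b 2 3 (.b 2 5 (.b 3 4 (.k [2, 3, 4,
    5]) (.i [1, 3, 4])) (.i [1, 2, 5])) (.i [1, 2, 3])))))))) (.b 1 3 (.b 3 4 (.c [0, 2, 4, 3, 1,
    6]) (.b 4 6 (.c [0, 2, 4, 6, 1, 3]) (.b 3 6 (.k [0, 1, 3, 6]) (.i [3, 4, 6])))) (.i [1, 3, 5])))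
    (.i [0, 5, 6]))) (.b 0 4 (.b 1 4 (.b 3 6 (.c [0, 2, 4, 1, 6, 3]) (.b 1 2 (.k [0, 1, 2, 4]) (.b 2
    5 (.b 3 5 (.c [0, 1, 4, 2, 5, 3]) (.b 5 6 (.c [0, 1, 6, 5, 2, 4]) (.i [3, 5, 6]))) (.i [1, 2,
    5])))) (.i [1, 4, 5])) (.i [0, 4, 5]))) (.i [0, 1, 5]))) (.b 3 5 (.b 0 1 (.b 3 4 (.b 1 5 (.c [0,
    1, 5, 3, 4, 2]) (.b 3 6 (.c [0, 1, 6, 3, 4, 2]) (.b 0 6 (.b 1 3 (.c [0, 2, 4, 3, 1, 6]) (.b 5 6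
    (.c [0, 2, 4, 3, 5, 6]) (.b 2 3 (.b 4 6 (.c [0, 1, 6, 4, 3, 2]) (.b 1 4 (.c [0, 2, 3, 4, 1, 6])
    (.b 4 5 (.b 2 5 (.k [2, 3, 4, 5]) (.b 1 2 (.b 0 4 (.c [0, 1, 2, 3, 5, 4]) (.b 2 6 (.k [0, 1, 2,
    6]) (.i [2, 5, 6]))) (.i [1, 2, 5]))) (.i [1, 4, 5])))) (.b 1 2 (.b 2 6 (.k [0, 1, 2, 6]) (.i
    [2, 3, 6])) (.i [1, 2, 3]))))) (.i [0, 3, 6])))) (.b 0 4 (.b 3 6 (.b 2 3 (.c [0, 1, 6, 3, 2, 4])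
    (.b 2 5 (.c [0, 1, 6, 3, 5, 2]) (.b 4 5 (.c [0, 1, 6, 3, 5, 4]) (.b 1 3 (.b 2 6 (.c [0, 1, 3, 6,
    2, 4]) (.b 4 6 (.c [0, 1, 3, 6, 4, 2]) (.b 5 6 (.b 1 5 (.k [1, 3, 5, 6]) (.b 1 2 (.b 0 6 (.c [0,
    2, 1, 3, 5, 6]) (.b 1 4 (.k [0, 1, 2, 4]) (.i [1, 4, 5]))) (.i [1, 2, 5]))) (.i [2, 5, 6]))))
    (.b 1 2 (.b 1 4 (.k [0, 1, 2, 4]) (.i [1, 3, 4])) (.i [1, 2, 3])))))) (.b 0 6 (.b 4 6 (.b 1 4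
    (.k [0, 1, 4, 6]) (.b 2 6 (.k [0, 2, 4, 6]) (.b 1 3 (.b 2 3 (.c [0, 1, 3, 2, 4, 6]) (.i [2, 3,
    6])) (.i [1, 3, 4])))) (.i [3, 4, 6])) (.i [0, 3, 6]))) (.i [0, 3, 4]))) (.b 1 3 (.b 1 5 (.b 0 6
    (.b 2 3 (.c [0, 2, 3, 5, 1, 6]) (.b 3 4 (.c [0, 2, 4, 3, 1, 6]) (.b 4 5 (.c [0, 2, 4, 5, 1, 6])
    (.b 2 5 (.c [0, 2, 5, 3, 1, 6]) (.b 0 4 (.b 5 6 (.b 1 2 (.c [0, 2, 1, 3, 5, 6]) (.b 1 4 (.c [0,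
    2, 4, 1, 5, 6]) (.b 3 6 (.k [1, 3, 5, 6]) (.b 2 6 (.b 4 6 (.k [0, 2, 4, 6]) (.i [3, 4, 6])) (.i
    [2, 3, 6]))))) (.b 2 6 (.b 4 6 (.k [0, 2, 4, 6]) (.i [4, 5, 6])) (.i [2, 5, 6]))) (.i [0, 3,
    4])))))) (.b 3 6 (.b 5 6 (.k [1, 3, 5, 6]) (.i [0, 5, 6])) (.i [0, 3, 6]))) (.i [0, 1, 5])) (.i
    [0, 1, 3]))) (.i [0, 3, 5]))) (.b 2 5 (.b 0 6 (.b 0 4 (.b 1 5 (.c [0, 4, 2, 5, 1, 6]) (.b 0 1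
    (.b 5 6 (.c [0, 1, 6, 5, 2, 4]) (.b 3 5 (.b 1 3 (.c [0, 1, 3, 5, 2, 4]) (.b 3 6 (.c [0, 4, 2, 5,
    3, 6]) (.b 3 4 (.b 1 2 (.c [0, 1, 2, 5, 3, 4]) (.b 2 6 (.c [0, 4, 3, 5, 2, 6]) (.b 2 3 (.b 4 5
    (.k [2, 3, 4, 5]) (.b 1 4 (.b 0 3 (.c [0, 1, 4, 2, 5, 3]) (.b 4 6 (.k [0, 1, 4, 6]) (.i [4, 5,
    6]))) (.i [1, 4, 5]))) (.i [1, 2, 3])))) (.b 1 4 (.b 0 3 (.c [0, 1, 4, 2, 5, 3]) (.b 4 6 (.k [0,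
    1, 4, 6]) (.i [3, 4, 6]))) (.i [1, 3, 4]))))) (.b 0 3 (.b 1 3 (.b 2 6 (.c [0, 3, 1, 6, 2, 4])
    (.b 2 3 (.c [0, 4, 2, 3, 1, 6]) (.b 3 6 (.k [0, 1, 3, 6]) (.i [2, 3, 6])))) (.i [1, 3, 5])) (.i
    [0, 3, 5])))) (.i [0, 1, 5]))) (.b 4 5 (.b 0 3 (.b 0 1 (.b 3 5 (.b 1 2 (.c [0, 1, 2, 4, 5, 3])
    (.b 1 4 (.c [0, 1, 4, 2, 5, 3]) (.b 2 6 (.c [0, 1, 6, 2, 5, 3]) (.b 4 6 (.c [0, 1, 6, 4, 5, 3])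
    (.b 3 4 (.b 1 5 (.c [0, 1, 5, 2, 4, 3]) (.b 5 6 (.c [0, 1, 6, 5, 4, 3]) (.b 2 3 (.k [2, 3, 4,
    5]) (.b 1 3 (.b 3 6 (.k [0, 1, 3, 6]) (.i [2, 3, 6])) (.i [1, 2, 3]))))) (.b 1 3 (.b 3 6 (.k [0,
    1, 3, 6]) (.i [3, 4, 6])) (.i [1, 3, 4]))))))) (.b 5 6 (.b 1 2 (.c [0, 1, 2, 4, 5, 6]) (.b 1 4
    (.c [0, 1, 4, 2, 5, 6]) (.b 2 3 (.c [0, 1, 6, 5, 2, 3]) (.b 3 4 (.c [0, 1, 6, 5, 4, 3]) (.b 1 3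
    (.b 3 6 (.k [0, 1, 3, 6]) (.b 2 6 (.b 1 5 (.c [0, 1, 5, 4, 2, 6]) (.b 4 6 (.k [2, 4, 5, 6]) (.i
    [3, 4, 6]))) (.i [2, 3, 6]))) (.i [1, 2, 3])))))) (.b 3 6 (.b 1 3 (.k [0, 1, 3, 6]) (.b 1 5 (.b
    2 3 (.c [0, 1, 5, 2, 3, 6]) (.b 3 4 (.c [0, 1, 5, 2, 4, 3]) (.b 4 6 (.c [0, 1, 5, 2, 4, 6]) (.b
    2 6 (.c [0, 1, 5, 2, 6, 3]) (.b 1 2 (.b 1 4 (.k [1, 2, 4, 5]) (.i [1, 3, 4])) (.i [1, 2,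
    3])))))) (.i [1, 3, 5]))) (.i [3, 5, 6])))) (.b 1 2 (.b 3 4 (.c [0, 3, 4, 2, 1, 6]) (.b 3 5 (.c
    [0, 3, 5, 2, 1, 6]) (.b 1 4 (.b 2 3 (.c [0, 3, 2, 4, 1, 6]) (.b 1 5 (.k [1, 2, 4, 5]) (.i [0, 1,
    5]))) (.i [0, 1, 4])))) (.i [0, 1, 2]))) (.b 2 3 (.b 3 4 (.b 3 5 (.k [2, 3, 4, 5]) (.i [0, 3,
    5])) (.i [0, 3, 4])) (.i [0, 2, 3]))) (.i [0, 4, 5]))) (.b 2 6 (.b 5 6 (.b 0 4 (.b 0 1 (.c [0,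
    1, 6, 5, 2, 4]) (.b 1 2 (.b 1 5 (.k [1, 2, 5, 6]) (.i [0, 1, 5])) (.i [0, 1, 2]))) (.b 4 5 (.b 4
    6 (.k [2, 4, 5, 6]) (.i [0, 4, 6])) (.i [0, 4, 5]))) (.i [0, 5, 6])) (.i [0, 2, 6]))) (.i [0, 2,
    5])))) (.b 4 5 (.b 0 2 (.b 1 4 (.b 2 6 (.b 0 5 (.c [0, 2, 6, 1, 4, 5]) (.b 3 5 (.b 2 3 (.c [1,
    4, 5, 3, 2, 6]) (.b 3 4 (.b 0 3 (.c [0, 2, 6, 1, 4, 3]) (.b 2 5 (.c [1, 4, 3, 5, 2, 6]) (.b 1 2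
    (.b 3 6 (.c [1, 2, 6, 3, 5, 4]) (.b 5 6 (.c [1, 2, 6, 5, 3, 4]) (.b 0 6 (.b 0 1 (.k [0, 1, 2,
    6]) (.b 1 3 (.b 4 6 (.c [0, 2, 1, 3, 4, 6]) (.b 0 4 (.c [0, 2, 1, 3, 5, 4]) (.b 1 5 (.k [1, 3,
    4, 5]) (.i [0, 1, 5])))) (.i [0, 1, 3]))) (.i [0, 3, 6])))) (.b 1 3 (.b 0 4 (.c [0, 2, 6, 1, 3,
    4]) (.b 1 5 (.k [1, 3, 4, 5]) (.i [1, 2, 5]))) (.i [1, 2, 3]))))) (.i [2, 3, 4]))) (.b 0 3 (.b 3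
    4 (.c [0, 2, 6, 1, 4, 3]) (.b 2 3 (.b 0 4 (.c [0, 3, 2, 6, 1, 4]) (.b 3 6 (.b 2 5 (.c [1, 4, 5,
    2, 3, 6]) (.b 0 6 (.k [0, 2, 3, 6]) (.b 4 6 (.b 0 1 (.c [0, 1, 4, 6, 2, 3]) (.b 1 2 (.c [0, 2,
    1, 4, 6, 3]) (.b 1 3 (.c [0, 2, 6, 4, 1, 3]) (.b 1 5 (.b 5 6 (.k [1, 4, 5, 6]) (.i [0, 5, 6]))
    (.i [0, 1, 5]))))) (.i [0, 4, 6])))) (.b 4 6 (.b 0 1 (.c [0, 1, 4, 6, 2, 3]) (.b 1 3 (.c [0, 2,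
    6, 4, 1, 3]) (.b 1 5 (.b 5 6 (.k [1, 4, 5, 6]) (.i [3, 5, 6])) (.i [0, 1, 5])))) (.i [3, 4,
    6])))) (.i [2, 3, 4]))) (.i [0, 3, 5])))) (.b 4 6 (.b 2 3 (.b 2 5 (.b 0 1 (.c [0, 1, 6, 4, 5,
    2]) (.b 0 6 (.c [0, 2, 5, 4, 1, 6]) (.b 1 3 (.c [1, 3, 2, 5, 4, 6]) (.b 3 6 (.c [1, 4, 5, 2, 3,
    6]) (.b 0 3 (.b 5 6 (.b 0 4 (.c [0, 2, 5, 6, 1, 4]) (.b 3 4 (.c [0, 2, 5, 6, 4, 3]) (.b 1 5 (.k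
    [1, 4, 5, 6]) (.b 0 5 (.b 1 2 (.c [0, 2, 1, 4, 6, 5]) (.b 3 5 (.k [0, 2, 3, 5]) (.i [1, 3, 5])))
    (.i [0, 1, 5]))))) (.b 0 5 (.b 1 2 (.c [0, 2, 1, 6, 4, 5]) (.b 3 5 (.k [0, 2, 3, 5]) (.i [3, 5,
    6]))) (.i [0, 5, 6]))) (.i [0, 1, 3])))))) (.b 5 6 (.b 1 5 (.k [1, 4, 5, 6]) (.b 1 2 (.b 0 6 (.c
    [0, 2, 1, 4, 5, 6]) (.b 0 5 (.c [0, 2, 1, 4, 6, 5]) (.b 0 4 (.c [0, 2, 1, 6, 5, 4]) (.b 3 4 (.c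
    [1, 2, 3, 4, 5, 6]) (.b 3 5 (.c [1, 2, 3, 5, 4, 6]) (.b 3 6 (.c [1, 2, 3, 6, 5, 4]) (.b 0 1 (.b
    0 3 (.b 1 3 (.k [0, 1, 2, 3]) (.i [1, 3, 5])) (.i [0, 3, 4])) (.i [0, 1, 5])))))))) (.i [1, 2,
    5]))) (.i [2, 5, 6]))) (.b 3 4 (.b 3 6 (.b 1 3 (.k [1, 3, 4, 6]) (.b 1 2 (.b 0 6 (.c [0, 2, 1,
    4, 3, 6]) (.b 0 3 (.c [0, 2, 1, 4, 6, 3]) (.b 0 4 (.c [0, 2, 1, 6, 3, 4]) (.b 0 5 (.c [0, 2, 1,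
    6, 4, 5]) (.b 2 5 (.c [1, 2, 5, 4, 3, 6]) (.b 0 1 (.b 3 5 (.b 5 6 (.k [3, 4, 5, 6]) (.i [0, 5,
    6])) (.i [0, 3, 5])) (.i [0, 1, 3]))))))) (.i [1, 2, 3]))) (.i [2, 3, 6])) (.i [2, 3, 4]))) (.i
    [2, 4, 6]))) (.b 1 2 (.b 0 4 (.b 5 6 (.c [0, 2, 1, 6, 5, 4]) (.b 3 4 (.b 3 6 (.c [0, 2, 1, 6, 3,
    4]) (.b 3 5 (.b 1 3 (.c [0, 2, 1, 3, 5, 4]) (.b 1 5 (.c [0, 2, 1, 5, 3, 4]) (.b 4 6 (.b 0 3 (.c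
    [0, 2, 1, 6, 4, 3]) (.b 0 5 (.c [0, 2, 1, 6, 4, 5]) (.b 2 3 (.c [1, 2, 3, 5, 4, 6]) (.b 2 5 (.c
    [1, 2, 5, 3, 4, 6]) (.b 0 1 (.b 0 6 (.b 2 6 (.k [0, 1, 2, 6]) (.i [2, 3, 6])) (.i [0, 3, 6]))
    (.i [0, 1, 3])))))) (.b 2 6 (.b 0 1 (.b 2 3 (.c [0, 1, 2, 3, 5, 4]) (.b 2 5 (.c [0, 1, 2, 5, 3,
    4]) (.b 0 6 (.k [0, 1, 2, 6]) (.b 0 3 (.b 0 5 (.k [0, 3, 4, 5]) (.i [0, 5, 6])) (.i [0, 3,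
    6]))))) (.b 0 3 (.b 0 5 (.k [0, 3, 4, 5]) (.i [0, 1, 5])) (.i [0, 1, 3]))) (.i [2, 4, 6])))))
    (.i [3, 5, 6]))) (.b 1 3 (.b 3 5 (.c [0, 2, 1, 3, 5, 4]) (.b 2 3 (.b 1 5 (.c [0, 2, 3, 1, 5, 4])
    (.b 4 6 (.c [0, 2, 3, 1, 6, 4]) (.b 2 6 (.b 3 6 (.k [1, 2, 3, 6]) (.i [3, 4, 6])) (.i [2, 4,
    6])))) (.i [2, 3, 4]))) (.i [1, 3, 4])))) (.b 0 1 (.b 4 6 (.b 2 5 (.c [0, 1, 6, 4, 5, 2]) (.b 0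
    5 (.c [0, 2, 1, 6, 4, 5]) (.b 3 4 (.b 2 3 (.c [0, 1, 6, 4, 3, 2]) (.b 0 3 (.c [0, 2, 1, 6, 4,
    3]) (.b 3 5 (.b 2 6 (.b 1 3 (.c [0, 1, 3, 4, 6, 2]) (.b 1 5 (.c [0, 1, 5, 4, 6, 2]) (.b 0 6 (.k
    [0, 1, 2, 6]) (.b 3 6 (.b 5 6 (.k [3, 4, 5, 6]) (.i [0, 5, 6])) (.i [0, 3, 6]))))) (.b 3 6 (.b 5
    6 (.k [3, 4, 5, 6]) (.i [2, 5, 6])) (.i [2, 3, 6]))) (.i [0, 3, 5])))) (.b 0 3 (.b 3 5 (.c [0,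
    1, 6, 4, 5, 3]) (.b 1 3 (.b 2 3 (.k [0, 1, 2, 3]) (.i [2, 3, 4])) (.i [1, 3, 4]))) (.i [0, 3,
    4]))))) (.b 0 6 (.b 2 6 (.k [0, 1, 2, 6]) (.i [2, 4, 6])) (.i [0, 4, 6]))) (.i [0, 1, 4]))) (.i
    [1, 2, 4]))) (.b 0 4 (.b 2 3 (.b 1 2 (.b 0 6 (.b 3 4 (.c [0, 4, 3, 2, 1, 6]) (.b 2 5 (.c [0, 4,
    5, 2, 1, 6]) (.b 0 5 (.b 3 5 (.c [0, 5, 3, 2, 1, 6]) (.b 3 6 (.b 1 4 (.c [0, 4, 1, 2, 3, 6]) (.b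
    1 5 (.c [0, 5, 1, 2, 3, 6]) (.b 1 3 (.b 2 6 (.k [1, 2, 3, 6]) (.b 4 6 (.b 0 1 (.c [0, 1, 2, 3,
    6, 4]) (.b 0 3 (.c [0, 3, 1, 6, 4, 5]) (.b 5 6 (.k [0, 4, 5, 6]) (.i [2, 5, 6])))) (.i [2, 4,
    6]))) (.i [1, 3, 4])))) (.b 4 6 (.b 0 3 (.c [0, 3, 2, 1, 6, 4]) (.b 5 6 (.k [0, 4, 5, 6]) (.i
    [3, 5, 6]))) (.i [3, 4, 6])))) (.i [0, 2, 5])))) (.b 2 6 (.b 0 3 (.b 1 5 (.c [0, 3, 2, 1, 5, 4])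
    (.b 4 6 (.c [0, 3, 2, 1, 6, 4]) (.b 1 4 (.c [0, 3, 2, 6, 1, 4]) (.b 5 6 (.c [0, 3, 2, 6, 5, 4])
    (.b 0 5 (.b 3 4 (.b 0 1 (.c [0, 1, 2, 3, 4, 5]) (.b 3 5 (.k [0, 3, 4, 5]) (.b 1 3 (.b 2 5 (.c
    [0, 3, 1, 2, 5, 4]) (.b 3 6 (.k [1, 2, 3, 6]) (.i [3, 5, 6]))) (.i [1, 3, 5])))) (.b 1 3 (.b 2 5
    (.c [0, 3, 1, 2, 5, 4]) (.b 3 6 (.k [1, 2, 3, 6]) (.i [3, 4, 6]))) (.i [1, 3, 4]))) (.i [0, 5,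
    6])))))) (.b 3 6 (.b 1 3 (.k [1, 2, 3, 6]) (.b 0 1 (.b 3 5 (.c [0, 1, 2, 3, 5, 4]) (.b 4 6 (.c
    [0, 1, 2, 3, 6, 4]) (.b 3 4 (.c [0, 1, 2, 6, 3, 4]) (.b 5 6 (.c [0, 1, 2, 6, 5, 4]) (.b 2 5 (.c
    [0, 1, 6, 2, 5, 4]) (.b 0 5 (.b 1 4 (.b 1 5 (.k [0, 1, 4, 5]) (.i [1, 3, 5])) (.i [1, 3, 4]))
    (.i [0, 2, 5]))))))) (.i [0, 1, 3]))) (.i [0, 3, 6]))) (.i [0, 2, 6]))) (.b 0 1 (.b 1 4 (.b 2 6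
    (.b 3 4 (.c [0, 1, 6, 2, 3, 4]) (.b 2 5 (.c [0, 1, 6, 2, 5, 4]) (.b 0 3 (.c [0, 3, 2, 6, 1, 4])
    (.b 3 5 (.c [1, 4, 5, 3, 2, 6]) (.b 0 5 (.b 1 5 (.k [0, 1, 4, 5]) (.i [1, 2, 5])) (.i [0, 2,
    5])))))) (.b 0 6 (.b 4 6 (.k [0, 1, 4, 6]) (.i [2, 4, 6])) (.i [0, 2, 6]))) (.i [1, 2, 4])) (.i
    [0, 1, 2]))) (.b 0 3 (.b 3 4 (.b 3 5 (.b 0 5 (.k [0, 3, 4, 5]) (.b 2 5 (.b 2 6 (.b 0 1 (.c [0,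
    1, 6, 2, 5, 3]) (.b 0 6 (.c [0, 3, 4, 5, 2, 6]) (.b 4 6 (.c [0, 3, 5, 2, 6, 4]) (.b 3 6 (.c [0,
    3, 6, 2, 5, 4]) (.b 1 3 (.c [1, 3, 4, 5, 2, 6]) (.b 1 4 (.c [1, 4, 3, 5, 2, 6]) (.b 1 2 (.b 1 5
    (.b 5 6 (.k [1, 2, 5, 6]) (.i [0, 5, 6])) (.i [0, 1, 5])) (.i [0, 1, 2])))))))) (.b 0 6 (.b 1 5
    (.c [0, 3, 4, 5, 1, 6]) (.b 1 2 (.c [0, 3, 5, 2, 1, 6]) (.b 1 4 (.c [0, 3, 5, 4, 1, 6]) (.i [1,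
    2, 4])))) (.i [0, 2, 6]))) (.i [0, 2, 5]))) (.b 2 5 (.b 1 2 (.b 0 1 (.c [0, 1, 2, 5, 4, 3]) (.b
    1 3 (.c [0, 3, 1, 2, 5, 4]) (.b 0 6 (.c [0, 4, 5, 2, 1, 6]) (.b 3 6 (.c [1, 2, 5, 4, 3, 6]) (.b
    2 6 (.b 1 5 (.b 5 6 (.k [1, 2, 5, 6]) (.i [3, 5, 6])) (.i [1, 3, 5])) (.i [0, 2, 6])))))) (.b 0
    1 (.b 2 6 (.c [0, 1, 6, 2, 5, 4]) (.b 5 6 (.c [0, 1, 6, 5, 4, 3]) (.b 0 6 (.b 1 5 (.c [0, 3, 4,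
    5, 1, 6]) (.b 1 3 (.b 0 5 (.c [0, 5, 4, 3, 1, 6]) (.b 1 4 (.k [0, 1, 3, 4]) (.i [1, 2, 4]))) (.i
    [1, 2, 3]))) (.i [0, 2, 6])))) (.i [0, 1, 2]))) (.i [2, 3, 5]))) (.i [2, 3, 4])) (.i [0, 2,
    3]))) (.i [0, 2, 4]))) (.b 2 5 (.b 1 4 (.b 0 4 (.b 2 6 (.b 0 5 (.c [0, 4, 1, 6, 2, 5]) (.b 3 5
    (.b 3 4 (.c [1, 4, 3, 5, 2, 6]) (.b 2 3 (.b 0 3 (.c [0, 3, 2, 6, 1, 4]) (.b 5 6 (.b 0 2 (.c [0,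
    2, 5, 6, 1, 4]) (.b 3 6 (.k [2, 3, 5, 6]) (.b 0 6 (.b 1 2 (.c [0, 4, 1, 2, 5, 6]) (.b 1 3 (.c
    [0, 4, 1, 3, 2, 6]) (.b 1 5 (.c [0, 4, 1, 5, 2, 6]) (.b 0 1 (.b 4 6 (.k [0, 1, 4, 6]) (.i [3, 4,
    6])) (.i [0, 1, 2]))))) (.i [0, 3, 6])))) (.b 0 6 (.b 1 3 (.c [0, 4, 1, 3, 2, 6]) (.b 1 5 (.c
    [0, 4, 1, 5, 2, 6]) (.b 0 1 (.b 4 6 (.k [0, 1, 4, 6]) (.i [4, 5, 6])) (.i [0, 1, 3])))) (.i [0,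
    5, 6])))) (.i [2, 3, 4]))) (.b 0 3 (.b 2 3 (.c [0, 3, 2, 6, 1, 4]) (.b 3 4 (.b 0 2 (.c [0, 2, 6,
    1, 4, 3]) (.b 1 2 (.b 0 6 (.c [0, 3, 4, 1, 2, 6]) (.b 3 6 (.c [0, 3, 6, 2, 1, 4]) (.b 5 6 (.b 1
    5 (.k [1, 2, 5, 6]) (.b 0 1 (.b 4 6 (.c [0, 1, 2, 5, 6, 4]) (.b 1 3 (.k [0, 1, 3, 4]) (.i [1, 3,
    5]))) (.i [0, 1, 5]))) (.i [0, 5, 6])))) (.b 0 1 (.b 1 3 (.k [0, 1, 3, 4]) (.i [1, 2, 3])) (.i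
    [0, 1, 2])))) (.i [2, 3, 4]))) (.i [0, 3, 5])))) (.b 4 6 (.b 0 2 (.b 1 5 (.c [0, 2, 5, 1, 6, 4])
    (.b 5 6 (.c [0, 2, 5, 6, 1, 4]) (.b 3 5 (.b 1 3 (.c [0, 2, 5, 3, 1, 4]) (.b 3 6 (.c [0, 2, 5, 3,
    6, 4]) (.b 2 3 (.b 0 5 (.b 1 2 (.c [0, 4, 1, 2, 3, 5]) (.b 0 3 (.k [0, 2, 3, 5]) (.b 0 1 (.b 3 4
    (.c [0, 1, 4, 3, 2, 5]) (.b 0 6 (.k [0, 1, 4, 6]) (.i [0, 3, 6]))) (.i [0, 1, 3])))) (.b 0 1 (.b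
    3 4 (.c [0, 1, 4, 3, 5, 2]) (.b 0 6 (.k [0, 1, 4, 6]) (.i [0, 5, 6]))) (.i [0, 1, 5]))) (.i [2,
    3, 6])))) (.b 1 3 (.b 2 3 (.c [0, 2, 3, 1, 6, 4]) (.b 3 4 (.b 3 6 (.k [1, 3, 4, 6]) (.i [2, 3,
    6])) (.i [2, 3, 4]))) (.i [1, 3, 5]))))) (.b 0 6 (.b 0 1 (.k [0, 1, 4, 6]) (.b 1 2 (.b 5 6 (.c
    [0, 4, 1, 2, 5, 6]) (.b 0 5 (.c [0, 4, 6, 1, 2, 5]) (.b 1 5 (.b 0 3 (.b 2 3 (.c [0, 3, 2, 1, 4,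
    6]) (.b 3 5 (.c [0, 3, 5, 1, 4, 6]) (.b 3 4 (.b 3 6 (.k [0, 3, 4, 6]) (.i [2, 3, 6])) (.i [2, 3,
    4])))) (.b 1 3 (.b 2 3 (.b 3 6 (.c [0, 4, 1, 2, 3, 6]) (.b 3 4 (.c [0, 4, 3, 2, 1, 6]) (.b 3 5
    (.k [1, 2, 3, 5]) (.i [0, 3, 5])))) (.i [0, 2, 3])) (.i [0, 1, 3]))) (.i [0, 1, 5])))) (.i [0,
    1, 2]))) (.i [0, 2, 6]))) (.i [2, 4, 6]))) (.b 0 2 (.b 0 5 (.b 3 4 (.b 4 6 (.b 3 5 (.b 0 1 (.c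
    [0, 1, 4, 3, 5, 2]) (.b 1 2 (.c [0, 2, 1, 4, 3, 5]) (.b 0 6 (.c [0, 2, 5, 3, 4, 6]) (.b 2 6 (.c
    [0, 2, 6, 4, 3, 5]) (.b 0 3 (.b 1 5 (.c [0, 2, 5, 1, 4, 3]) (.b 5 6 (.c [0, 2, 5, 6, 4, 3]) (.b
    2 3 (.k [0, 2, 3, 5]) (.b 1 3 (.b 3 6 (.k [1, 3, 4, 6]) (.i [2, 3, 6])) (.i [1, 2, 3]))))) (.b 1
    3 (.b 3 6 (.k [1, 3, 4, 6]) (.i [0, 3, 6])) (.i [0, 1, 3]))))))) (.b 1 5 (.b 2 3 (.c [0, 2, 3,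
    4, 1, 5]) (.b 0 3 (.c [0, 2, 5, 1, 4, 3]) (.b 0 6 (.c [0, 2, 5, 1, 4, 6]) (.b 2 6 (.c [0, 2, 6,
    4, 1, 5]) (.b 3 6 (.b 1 3 (.k [1, 3, 4, 6]) (.b 0 1 (.b 5 6 (.c [0, 1, 4, 3, 6, 5]) (.b 1 2 (.k
    [0, 1, 2, 5]) (.i [1, 2, 3]))) (.i [0, 1, 3]))) (.i [0, 3, 6])))))) (.b 1 3 (.b 3 6 (.k [1, 3,
    4, 6]) (.b 5 6 (.b 0 1 (.c [0, 1, 3, 4, 6, 5]) (.b 1 2 (.c [0, 2, 1, 4, 6, 5]) (.b 2 3 (.c [0,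
    2, 3, 1, 6, 5]) (.b 0 3 (.c [0, 2, 5, 6, 1, 3]) (.b 0 6 (.b 2 6 (.k [0, 2, 5, 6]) (.i [2, 3,
    6])) (.i [0, 3, 6])))))) (.i [3, 5, 6]))) (.i [1, 3, 5])))) (.b 0 6 (.b 2 3 (.c [0, 2, 3, 4, 1,
    6]) (.b 3 5 (.c [0, 5, 3, 4, 1, 6]) (.b 2 6 (.b 0 3 (.c [0, 2, 6, 1, 4, 3]) (.b 5 6 (.k [0, 2,
    5, 6]) (.i [4, 5, 6]))) (.i [2, 4, 6])))) (.i [0, 4, 6]))) (.b 0 3 (.b 2 3 (.b 3 5 (.k [0, 2, 3,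
    5]) (.i [3, 4, 5])) (.i [2, 3, 4])) (.i [0, 3, 4]))) (.i [0, 4, 5])) (.i [0, 2, 4]))) (.b 1 2
    (.b 1 5 (.b 3 4 (.b 4 6 (.b 3 5 (.c [1, 2, 5, 3, 4, 6]) (.b 2 3 (.c [1, 5, 2, 3, 4, 6]) (.b 0 4
    (.b 0 2 (.c [0, 2, 5, 1, 6, 4]) (.b 0 5 (.c [0, 4, 6, 1, 2, 5]) (.b 0 3 (.b 5 6 (.b 0 1 (.c [0,
    1, 2, 5, 6, 4]) (.b 1 3 (.c [0, 3, 1, 5, 6, 4]) (.b 2 6 (.k [1, 2, 5, 6]) (.b 0 6 (.b 3 6 (.k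
    [0, 3, 4, 6]) (.i [2, 3, 6])) (.i [0, 2, 6]))))) (.b 0 6 (.b 3 6 (.k [0, 3, 4, 6]) (.i [3, 5,
    6])) (.i [0, 5, 6]))) (.i [0, 2, 3])))) (.b 0 1 (.b 0 2 (.b 0 3 (.c [0, 2, 1, 6, 4, 3]) (.b 0 5
    (.k [0, 1, 2, 5]) (.i [0, 3, 5]))) (.i [0, 2, 4])) (.i [0, 1, 4]))))) (.b 2 6 (.b 5 6 (.k [1, 2,
    5, 6]) (.i [4, 5, 6])) (.i [2, 4, 6]))) (.b 1 3 (.b 2 3 (.b 3 5 (.k [1, 2, 3, 5]) (.i [3, 4,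
    5])) (.i [2, 3, 4])) (.i [1, 3, 4]))) (.i [1, 4, 5])) (.i [1, 2, 4]))) (.i [2, 4, 5])))) (.b 1 2
    (.b 5 6 (.b 4 6 (.b 1 3 (.b 0 6 (.b 3 4 (.b 0 2 (.c [0, 2, 1, 3, 4, 6]) (.b 2 5 (.c [1, 2, 5, 6,
    4, 3]) (.b 0 5 (.b 0 1 (.c [0, 1, 3, 4, 6, 5]) (.b 1 5 (.c [0, 5, 1, 3, 4, 6]) (.b 2 4 (.b 0 3
    (.c [0, 3, 1, 2, 4, 6]) (.b 3 5 (.c [1, 2, 4, 6, 5, 3]) (.b 2 3 (.b 1 4 (.k [1, 2, 3, 4]) (.b 0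
    4 (.b 3 6 (.c [0, 4, 2, 1, 3, 6]) (.b 2 6 (.c [0, 4, 3, 1, 2, 6]) (.b 4 5 (.k [0, 4, 5, 6]) (.i
    [1, 4, 5])))) (.i [0, 1, 4]))) (.i [0, 2, 3])))) (.b 0 4 (.b 2 6 (.c [0, 4, 3, 1, 2, 6]) (.b 4 5
    (.k [0, 4, 5, 6]) (.i [2, 4, 5]))) (.i [0, 2, 4]))))) (.i [0, 2, 5])))) (.b 0 3 (.b 2 4 (.c [0,
    3, 1, 2, 4, 6]) (.b 2 5 (.c [0, 3, 1, 2, 5, 6]) (.b 2 3 (.b 1 4 (.c [0, 3, 2, 1, 4, 6]) (.b 1 5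
    (.c [0, 3, 2, 1, 5, 6]) (.b 4 5 (.b 0 5 (.b 2 6 (.c [0, 3, 1, 2, 6, 5]) (.b 0 4 (.k [0, 4, 5,
    6]) (.b 0 1 (.b 3 5 (.c [0, 1, 2, 3, 5, 6]) (.b 3 6 (.c [0, 1, 2, 3, 6, 5]) (.b 0 2 (.k [0, 1,
    2, 3]) (.i [0, 2, 4])))) (.i [0, 1, 4])))) (.b 0 1 (.b 3 5 (.c [0, 1, 2, 3, 5, 6]) (.b 0 2 (.k
    [0, 1, 2, 3]) (.i [0, 2, 5]))) (.i [0, 1, 5]))) (.i [1, 4, 5])))) (.i [2, 3, 4])))) (.b 0 4 (.b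
    3 5 (.b 0 1 (.c [0, 1, 3, 5, 6, 4]) (.b 0 2 (.c [0, 2, 1, 3, 5, 6]) (.b 1 4 (.c [0, 4, 1, 3, 5,
    6]) (.b 2 4 (.c [1, 2, 4, 6, 5, 3]) (.b 2 3 (.b 0 5 (.b 2 6 (.c [0, 4, 6, 2, 3, 5]) (.b 4 5 (.k
    [0, 4, 5, 6]) (.b 1 5 (.b 3 6 (.c [0, 4, 6, 3, 1, 5]) (.b 2 5 (.k [1, 2, 3, 5]) (.i [2, 4, 5])))
    (.i [1, 4, 5])))) (.b 1 5 (.b 2 5 (.k [1, 2, 3, 5]) (.i [0, 2, 5])) (.i [0, 1, 5]))) (.i [0, 2,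
    3])))))) (.b 0 5 (.b 4 5 (.k [0, 4, 5, 6]) (.i [3, 4, 5])) (.i [0, 3, 5]))) (.i [0, 3, 4]))))
    (.b 0 1 (.b 0 2 (.b 3 6 (.b 2 4 (.c [0, 1, 3, 6, 4, 2]) (.b 2 5 (.c [0, 1, 3, 6, 5, 2]) (.b 0 4
    (.c [0, 2, 1, 3, 6, 4]) (.b 0 5 (.c [0, 2, 1, 3, 6, 5]) (.b 4 5 (.b 0 3 (.b 1 4 (.c [0, 1, 4, 5,
    6, 3]) (.b 1 5 (.c [0, 1, 5, 4, 6, 3]) (.b 2 3 (.k [0, 1, 2, 3]) (.b 3 4 (.b 2 6 (.c [0, 1, 2,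
    6, 4, 3]) (.b 3 5 (.k [3, 4, 5, 6]) (.i [2, 3, 5]))) (.i [2, 3, 4]))))) (.b 3 4 (.b 2 6 (.c [0,
    1, 3, 4, 6, 2]) (.b 3 5 (.k [3, 4, 5, 6]) (.i [0, 3, 5]))) (.i [0, 3, 4]))) (.i [0, 4, 5]))))))
    (.b 0 3 (.b 2 3 (.k [0, 1, 2, 3]) (.b 2 6 (.b 3 4 (.c [0, 1, 2, 6, 4, 3]) (.b 3 5 (.c [0, 1, 2,
    6, 5, 3]) (.b 1 4 (.c [0, 2, 6, 4, 1, 3]) (.b 1 5 (.c [0, 2, 6, 5, 1, 3]) (.b 0 4 (.c [0, 3, 1,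
    2, 6, 4]) (.b 0 5 (.c [0, 3, 1, 2, 6, 5]) (.b 4 5 (.b 2 4 (.b 2 5 (.k [2, 4, 5, 6]) (.i [2, 3,
    5])) (.i [2, 3, 4])) (.i [0, 4, 5])))))))) (.i [2, 3, 6]))) (.i [0, 3, 6]))) (.b 2 6 (.b 0 3 (.b
    3 4 (.c [0, 1, 2, 6, 4, 3]) (.b 3 5 (.c [0, 1, 2, 6, 5, 3]) (.b 0 4 (.c [0, 3, 1, 2, 6, 4]) (.b
    0 5 (.c [0, 3, 1, 2, 6, 5]) (.b 2 4 (.b 3 6 (.c [0, 1, 2, 4, 6, 3]) (.b 2 5 (.b 4 5 (.k [2, 4,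
    5, 6]) (.i [0, 4, 5])) (.i [0, 2, 5]))) (.i [0, 2, 4])))))) (.b 2 3 (.b 0 4 (.c [0, 1, 3, 2, 6,
    4]) (.b 0 5 (.c [0, 1, 3, 2, 6, 5]) (.b 2 4 (.b 3 5 (.c [1, 2, 4, 6, 5, 3]) (.i [0, 3, 5])) (.i
    [0, 2, 4])))) (.i [0, 2, 3]))) (.i [0, 2, 6]))) (.i [0, 1, 6]))) (.b 3 6 (.b 0 1 (.b 0 3 (.b 2 4
    (.c [0, 1, 2, 4, 6, 3]) (.b 2 5 (.c [0, 1, 2, 5, 6, 3]) (.b 4 5 (.b 1 4 (.c [0, 1, 4, 5, 6, 3])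
    (.b 1 5 (.c [0, 1, 5, 4, 6, 3]) (.b 3 4 (.b 2 6 (.c [0, 1, 2, 6, 4, 3]) (.b 3 5 (.k [3, 4, 5,
    6]) (.i [1, 3, 5]))) (.i [1, 3, 4])))) (.i [2, 4, 5])))) (.b 0 4 (.b 2 3 (.c [0, 1, 2, 3, 6, 4])
    (.b 2 5 (.c [0, 1, 2, 5, 6, 4]) (.b 0 2 (.b 1 5 (.c [0, 2, 1, 5, 6, 4]) (.b 3 5 (.b 2 4 (.b 0 5
    (.c [0, 1, 2, 4, 6, 5]) (.b 1 4 (.k [0, 1, 2, 4]) (.b 3 4 (.b 0 6 (.c [0, 1, 2, 4, 3, 6]) (.b 2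
    6 (.c [0, 1, 2, 6, 3, 4]) (.b 4 5 (.k [3, 4, 5, 6]) (.i [1, 4, 5])))) (.i [1, 3, 4])))) (.b 3 4
    (.b 2 6 (.c [0, 1, 2, 6, 3, 4]) (.b 4 5 (.k [3, 4, 5, 6]) (.i [2, 4, 5]))) (.i [2, 3, 4]))) (.i
    [1, 3, 5]))) (.i [0, 2, 3])))) (.b 3 4 (.b 0 5 (.b 2 3 (.c [0, 1, 2, 3, 6, 5]) (.b 2 4 (.c [0,
    1, 2, 4, 6, 5]) (.b 1 4 (.c [0, 1, 4, 3, 6, 5]) (.b 0 2 (.b 3 5 (.b 2 6 (.c [0, 1, 2, 6, 3, 5])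
    (.b 4 5 (.k [3, 4, 5, 6]) (.b 1 5 (.b 0 6 (.c [0, 1, 5, 3, 4, 6]) (.b 2 5 (.k [0, 1, 2, 5]) (.i
    [2, 4, 5]))) (.i [1, 4, 5])))) (.b 1 5 (.b 2 5 (.k [0, 1, 2, 5]) (.i [2, 3, 5])) (.i [1, 3,
    5]))) (.i [0, 2, 3]))))) (.b 3 5 (.b 4 5 (.k [3, 4, 5, 6]) (.i [0, 4, 5])) (.i [0, 3, 5]))) (.i
    [0, 3, 4])))) (.b 0 3 (.b 0 6 (.b 1 5 (.b 0 2 (.c [0, 2, 1, 5, 6, 3]) (.b 2 3 (.c [0, 3, 2, 1,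
    5, 6]) (.b 1 4 (.b 3 4 (.c [0, 3, 4, 1, 5, 6]) (.b 3 5 (.c [0, 3, 5, 1, 4, 6]) (.b 0 5 (.c [0,
    3, 6, 4, 1, 5]) (.b 0 4 (.c [0, 3, 6, 5, 1, 4]) (.b 2 4 (.b 2 5 (.b 4 5 (.k [1, 2, 4, 5]) (.i
    [0, 4, 5])) (.i [0, 2, 5])) (.i [0, 2, 4])))))) (.b 0 4 (.b 2 4 (.c [0, 4, 2, 1, 5, 6]) (.b 3 4
    (.k [0, 3, 4, 6]) (.i [1, 3, 4]))) (.i [0, 1, 4]))))) (.b 0 5 (.b 3 5 (.k [0, 3, 5, 6]) (.i [1,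
    3, 5])) (.i [0, 1, 5]))) (.i [0, 1, 6])) (.i [0, 1, 3]))) (.i [1, 3, 6]))) (.b 1 4 (.b 3 6 (.b 0
    6 (.b 0 4 (.b 2 3 (.c [0, 4, 1, 2, 3, 6]) (.b 2 5 (.c [0, 4, 1, 2, 5, 6]) (.b 3 5 (.b 1 3 (.c
    [0, 4, 1, 3, 5, 6]) (.b 1 5 (.c [0, 4, 1, 5, 3, 6]) (.b 2 6 (.b 0 3 (.c [0, 3, 6, 2, 1, 4]) (.b
    0 5 (.c [0, 4, 1, 2, 6, 5]) (.b 4 5 (.c [1, 2, 6, 3, 5, 4]) (.b 3 4 (.c [1, 2, 6, 5, 3, 4]) (.b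
    0 1 (.b 0 2 (.b 2 4 (.k [0, 1, 2, 4]) (.i [2, 3, 4])) (.i [0, 2, 3])) (.i [0, 1, 3])))))) (.b 2
    4 (.b 0 2 (.b 3 4 (.c [0, 2, 1, 4, 3, 6]) (.b 4 5 (.c [0, 2, 1, 4, 5, 6]) (.b 0 1 (.k [0, 1, 2,
    4]) (.b 0 3 (.b 0 5 (.k [0, 3, 5, 6]) (.i [0, 1, 5])) (.i [0, 1, 3]))))) (.b 0 3 (.b 0 5 (.k [0,
    3, 5, 6]) (.i [0, 2, 5])) (.i [0, 2, 3]))) (.i [2, 4, 6]))))) (.i [2, 3, 5])))) (.b 4 5 (.b 0 2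
    (.c [0, 2, 1, 4, 5, 6]) (.b 2 3 (.c [1, 2, 3, 6, 5, 4]) (.b 0 3 (.b 0 1 (.c [0, 1, 4, 5, 6, 3])
    (.b 1 3 (.c [0, 3, 1, 4, 5, 6]) (.b 2 4 (.b 0 5 (.b 2 6 (.c [0, 3, 6, 2, 4, 5]) (.b 3 5 (.k [0,
    3, 5, 6]) (.b 1 5 (.b 3 4 (.c [0, 3, 4, 1, 5, 6]) (.b 2 5 (.k [1, 2, 4, 5]) (.i [2, 3, 5]))) (.i
    [1, 3, 5])))) (.b 1 5 (.b 3 4 (.c [0, 3, 4, 1, 5, 6]) (.b 2 5 (.k [1, 2, 4, 5]) (.i [0, 2, 5])))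
    (.i [0, 1, 5]))) (.i [0, 2, 4])))) (.i [0, 2, 3])))) (.b 0 5 (.b 3 4 (.b 0 1 (.c [0, 1, 4, 3, 6,
    5]) (.b 0 2 (.c [0, 2, 1, 4, 3, 6]) (.b 1 5 (.c [0, 5, 1, 4, 3, 6]) (.b 2 5 (.c [1, 2, 5, 6, 3,
    4]) (.b 2 4 (.b 0 3 (.b 2 6 (.c [0, 3, 4, 1, 2, 6]) (.b 3 5 (.k [0, 3, 5, 6]) (.b 1 3 (.b 2 3
    (.k [1, 2, 3, 4]) (.i [2, 3, 5])) (.i [1, 3, 5])))) (.b 1 3 (.b 2 3 (.k [1, 2, 3, 4]) (.i [0, 2,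
    3])) (.i [0, 1, 3]))) (.i [0, 2, 4])))))) (.b 0 3 (.b 3 5 (.k [0, 3, 5, 6]) (.i [3, 4, 5])) (.i
    [0, 3, 4]))) (.i [0, 4, 5])))) (.b 0 1 (.b 0 4 (.b 2 6 (.b 3 4 (.c [0, 1, 2, 6, 3, 4]) (.b 4 5
    (.c [0, 1, 2, 6, 5, 4]) (.b 0 3 (.c [0, 3, 6, 2, 1, 4]) (.b 0 5 (.c [0, 4, 1, 2, 6, 5]) (.b 3 5
    (.b 2 4 (.b 1 3 (.c [0, 1, 3, 6, 2, 4]) (.b 1 5 (.c [0, 1, 5, 6, 2, 4]) (.b 0 2 (.k [0, 1, 2,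
    4]) (.b 2 3 (.b 2 5 (.k [2, 3, 5, 6]) (.i [0, 2, 5])) (.i [0, 2, 3]))))) (.b 2 3 (.b 2 5 (.k [2,
    3, 5, 6]) (.i [2, 4, 5])) (.i [2, 3, 4]))) (.i [0, 3, 5])))))) (.b 0 2 (.b 2 4 (.k [0, 1, 2, 4])
    (.i [2, 4, 6])) (.i [0, 2, 6]))) (.i [0, 4, 6])) (.i [0, 1, 6]))) (.b 1 3 (.b 3 4 (.b 2 6 (.b 3
    5 (.c [1, 2, 6, 5, 3, 4]) (.b 4 5 (.c [1, 2, 6, 5, 4, 3]) (.b 0 6 (.b 0 3 (.c [0, 3, 4, 1, 2,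
    6]) (.b 0 4 (.c [0, 4, 3, 1, 2, 6]) (.b 0 5 (.b 2 3 (.b 0 1 (.c [0, 1, 3, 2, 6, 5]) (.b 1 5 (.c
    [0, 5, 1, 3, 2, 6]) (.b 2 4 (.k [1, 2, 3, 4]) (.b 0 2 (.b 2 5 (.k [0, 2, 5, 6]) (.i [2, 4, 5]))
    (.i [0, 2, 4]))))) (.b 0 2 (.b 2 5 (.k [0, 2, 5, 6]) (.i [2, 3, 5])) (.i [0, 2, 3]))) (.i [0, 3,
    5])))) (.b 0 1 (.b 0 3 (.b 0 5 (.c [0, 3, 1, 2, 6, 5]) (.b 0 4 (.k [0, 1, 3, 4]) (.i [0, 4,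
    5]))) (.i [0, 3, 6])) (.i [0, 1, 6]))))) (.b 2 3 (.b 2 4 (.k [1, 2, 3, 4]) (.i [2, 4, 6])) (.i
    [2, 3, 6]))) (.i [3, 4, 6])) (.i [1, 3, 6]))) (.i [1, 4, 6]))) (.b 1 5 (.b 4 6 (.b 3 6 (.b 0 6
    (.b 3 5 (.b 0 2 (.c [0, 2, 1, 5, 3, 6]) (.b 2 4 (.c [1, 2, 4, 6, 3, 5]) (.b 0 4 (.b 0 1 (.c [0,
    1, 5, 3, 6, 4]) (.b 1 4 (.c [0, 4, 1, 5, 3, 6]) (.b 1 3 (.b 4 5 (.c [0, 4, 5, 1, 3, 6]) (.b 0 5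
    (.c [0, 4, 6, 3, 1, 5]) (.b 2 5 (.b 2 3 (.k [1, 2, 3, 5]) (.b 0 3 (.b 2 6 (.c [0, 3, 1, 2, 6,
    4]) (.b 3 4 (.k [0, 3, 4, 6]) (.i [2, 3, 4]))) (.i [0, 2, 3]))) (.i [0, 2, 5])))) (.b 0 3 (.b 2
    6 (.c [0, 3, 5, 1, 2, 6]) (.b 3 4 (.k [0, 3, 4, 6]) (.i [1, 3, 4]))) (.i [0, 1, 3]))))) (.i [0,
    2, 4])))) (.b 2 3 (.b 0 5 (.c [0, 5, 1, 2, 3, 6]) (.b 4 5 (.c [1, 2, 3, 6, 4, 5]) (.b 0 3 (.b 1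
    4 (.c [0, 3, 2, 1, 4, 6]) (.b 0 4 (.b 0 1 (.c [0, 1, 2, 3, 6, 4]) (.b 3 4 (.k [0, 3, 4, 6]) (.i
    [3, 4, 5]))) (.i [0, 4, 5]))) (.i [0, 3, 5])))) (.b 2 5 (.b 4 5 (.b 0 1 (.c [0, 1, 2, 5, 4, 6])
    (.b 0 2 (.c [0, 2, 1, 5, 4, 6]) (.b 1 3 (.c [1, 2, 5, 4, 6, 3]) (.b 0 3 (.b 1 4 (.b 0 5 (.c [0,
    3, 6, 4, 1, 5]) (.b 2 4 (.k [1, 2, 4, 5]) (.b 0 4 (.b 2 6 (.c [0, 3, 6, 2, 1, 4]) (.b 3 4 (.k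
    [0, 3, 4, 6]) (.i [2, 3, 4]))) (.i [0, 2, 4])))) (.b 0 4 (.b 2 6 (.c [0, 3, 6, 2, 5, 4]) (.b 3 4
    (.k [0, 3, 4, 6]) (.i [1, 3, 4]))) (.i [0, 1, 4]))) (.i [0, 1, 3]))))) (.b 3 4 (.b 0 5 (.b 2 4
    (.c [0, 5, 1, 2, 4, 6]) (.b 1 3 (.c [0, 5, 1, 3, 4, 6]) (.b 1 4 (.c [0, 5, 1, 4, 3, 6]) (.b 0 4
    (.b 2 6 (.c [0, 4, 3, 6, 2, 5]) (.b 0 3 (.k [0, 3, 4, 6]) (.b 0 1 (.b 0 2 (.k [0, 1, 2, 5]) (.i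
    [0, 2, 3])) (.i [0, 1, 3])))) (.b 0 1 (.b 0 2 (.k [0, 1, 2, 5]) (.i [0, 2, 4])) (.i [0, 1,
    4])))))) (.b 0 3 (.b 0 4 (.k [0, 3, 4, 6]) (.i [0, 4, 5])) (.i [0, 3, 5]))) (.i [3, 4, 5]))) (.i
    [2, 3, 5])))) (.b 0 1 (.b 0 5 (.b 2 6 (.b 3 5 (.c [0, 1, 2, 6, 3, 5]) (.b 4 5 (.c [0, 1, 2, 6,
    4, 5]) (.b 0 3 (.c [0, 3, 6, 2, 1, 5]) (.b 0 4 (.c [0, 4, 6, 2, 1, 5]) (.b 3 4 (.b 0 2 (.b 1 3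
    (.c [0, 1, 3, 4, 6, 2]) (.b 1 4 (.c [0, 1, 4, 3, 6, 2]) (.b 2 5 (.k [0, 1, 2, 5]) (.b 2 3 (.b 2
    4 (.k [2, 3, 4, 6]) (.i [2, 4, 5])) (.i [2, 3, 5]))))) (.b 2 3 (.b 2 4 (.k [2, 3, 4, 6]) (.i [0,
    2, 4])) (.i [0, 2, 3]))) (.i [0, 3, 4])))))) (.b 0 2 (.b 2 5 (.k [0, 1, 2, 5]) (.i [2, 5, 6]))
    (.i [0, 2, 6]))) (.i [0, 5, 6])) (.i [0, 1, 6]))) (.b 1 3 (.b 3 5 (.b 2 6 (.b 3 4 (.c [1, 2, 6,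
    4, 3, 5]) (.b 4 5 (.c [1, 2, 6, 4, 5, 3]) (.b 0 6 (.b 0 3 (.c [0, 3, 5, 1, 2, 6]) (.b 0 5 (.c
    [0, 5, 3, 1, 2, 6]) (.b 0 4 (.b 2 5 (.b 0 1 (.c [0, 1, 3, 5, 2, 6]) (.b 1 4 (.c [0, 4, 1, 5, 2,
    6]) (.b 2 3 (.k [1, 2, 3, 5]) (.b 0 2 (.b 2 4 (.k [0, 2, 4, 6]) (.i [2, 3, 4])) (.i [0, 2,
    3]))))) (.b 0 2 (.b 2 4 (.k [0, 2, 4, 6]) (.i [2, 4, 5])) (.i [0, 2, 5]))) (.i [0, 3, 4])))) (.b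
    0 1 (.b 0 3 (.b 0 4 (.c [0, 3, 1, 2, 6, 4]) (.b 0 5 (.k [0, 1, 3, 5]) (.i [0, 4, 5]))) (.i [0,
    3, 6])) (.i [0, 1, 6]))))) (.b 2 3 (.b 2 5 (.k [1, 2, 3, 5]) (.i [2, 5, 6])) (.i [2, 3, 6])))
    (.i [3, 5, 6])) (.i [1, 3, 6]))) (.b 1 4 (.b 4 5 (.b 3 6 (.b 2 6 (.b 3 4 (.c [1, 2, 6, 3, 4, 5])
    (.b 3 5 (.c [1, 2, 6, 3, 5, 4]) (.b 0 6 (.b 0 4 (.c [0, 4, 5, 1, 2, 6]) (.b 0 5 (.c [0, 5, 4, 1,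
    2, 6]) (.b 0 3 (.b 2 5 (.b 0 1 (.c [0, 1, 4, 5, 2, 6]) (.b 1 3 (.c [0, 3, 1, 5, 2, 6]) (.b 2 4
    (.k [1, 2, 4, 5]) (.b 0 2 (.b 2 3 (.k [0, 2, 3, 6]) (.i [2, 3, 4])) (.i [0, 2, 4]))))) (.b 0 2
    (.b 2 3 (.k [0, 2, 3, 6]) (.i [2, 3, 5])) (.i [0, 2, 5]))) (.i [0, 3, 4])))) (.b 0 1 (.b 0 4 (.b
    0 3 (.c [0, 3, 6, 2, 1, 4]) (.b 0 5 (.k [0, 1, 4, 5]) (.i [0, 3, 5]))) (.i [0, 4, 6])) (.i [0,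
    1, 6]))))) (.b 2 4 (.b 2 5 (.k [1, 2, 4, 5]) (.i [2, 5, 6])) (.i [2, 4, 6]))) (.b 1 3 (.b 3 4
    (.b 3 5 (.k [1, 3, 4, 5]) (.i [3, 5, 6])) (.i [3, 4, 6])) (.i [1, 3, 6]))) (.i [4, 5, 6])) (.i
    [1, 4, 6]))) (.i [1, 5, 6]))) (.b 2 6 (.b 1 5 (.b 1 3 (.b 0 1 (.b 2 4 (.b 4 6 (.b 3 4 (.b 0 6
    (.c [0, 1, 3, 4, 2, 6]) (.b 0 2 (.c [0, 1, 3, 4, 6, 2]) (.b 5 6 (.c [1, 3, 4, 2, 6, 5]) (.b 2 5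
    (.c [1, 3, 4, 6, 2, 5]) (.b 0 5 (.b 3 6 (.b 0 4 (.c [0, 1, 3, 6, 2, 4]) (.b 4 5 (.c [0, 1, 3, 6,
    4, 5]) (.b 2 3 (.k [2, 3, 4, 6]) (.b 0 3 (.b 1 4 (.c [0, 1, 4, 2, 6, 3]) (.b 3 5 (.k [0, 1, 3,
    5]) (.i [2, 3, 5]))) (.i [0, 2, 3]))))) (.b 0 3 (.b 3 5 (.k [0, 1, 3, 5]) (.i [3, 5, 6])) (.i
    [0, 3, 6]))) (.i [0, 2, 5])))))) (.b 0 4 (.b 2 3 (.c [0, 1, 3, 2, 6, 4]) (.b 3 6 (.c [0, 1, 3,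
    6, 2, 4]) (.b 2 5 (.c [0, 1, 5, 2, 6, 4]) (.b 5 6 (.c [0, 1, 5, 6, 2, 4]) (.b 3 5 (.b 0 6 (.b 4
    5 (.c [0, 1, 3, 5, 4, 6]) (.b 0 2 (.k [0, 2, 4, 6]) (.b 0 3 (.b 1 4 (.c [0, 3, 1, 4, 2, 6]) (.b
    0 5 (.k [0, 1, 3, 5]) (.i [0, 2, 5]))) (.i [0, 2, 3])))) (.b 0 3 (.b 0 5 (.k [0, 1, 3, 5]) (.i
    [0, 5, 6])) (.i [0, 3, 6]))) (.i [2, 3, 5])))))) (.b 0 3 (.b 4 5 (.b 2 3 (.c [0, 1, 5, 4, 2, 3])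
    (.b 0 6 (.c [0, 1, 5, 4, 2, 6]) (.b 0 2 (.c [0, 1, 5, 4, 6, 2]) (.b 3 6 (.c [0, 1, 5, 4, 6, 3])
    (.b 2 5 (.b 5 6 (.k [2, 4, 5, 6]) (.b 0 5 (.b 1 4 (.c [0, 1, 4, 6, 2, 5]) (.b 3 5 (.k [0, 1, 3,
    5]) (.i [3, 5, 6]))) (.i [0, 5, 6]))) (.b 0 5 (.b 3 5 (.k [0, 1, 3, 5]) (.i [2, 3, 5])) (.i [0,
    2, 5]))))))) (.b 0 5 (.b 3 5 (.k [0, 1, 3, 5]) (.i [3, 4, 5])) (.i [0, 4, 5]))) (.i [0, 3,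
    4])))) (.b 1 4 (.b 3 6 (.b 0 4 (.c [0, 1, 3, 6, 2, 4]) (.b 0 3 (.c [0, 1, 4, 2, 6, 3]) (.b 4 5
    (.c [1, 3, 6, 2, 4, 5]) (.b 3 5 (.c [1, 4, 2, 6, 3, 5]) (.b 3 4 (.b 0 6 (.c [0, 1, 3, 4, 2, 6])
    (.i [0, 4, 6])) (.i [0, 3, 4])))))) (.b 3 4 (.b 0 6 (.c [0, 1, 3, 4, 2, 6]) (.b 5 6 (.c [1, 3,
    4, 2, 6, 5]) (.b 0 3 (.b 2 5 (.c [0, 1, 5, 2, 4, 3]) (.b 0 4 (.k [0, 1, 3, 4]) (.i [0, 4, 6])))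
    (.i [0, 3, 6])))) (.i [3, 4, 6]))) (.i [1, 4, 6]))) (.b 1 4 (.b 2 5 (.b 0 4 (.b 4 6 (.c [0, 1,
    5, 2, 6, 4]) (.b 0 6 (.c [0, 4, 1, 5, 2, 6]) (.b 3 6 (.b 0 5 (.c [0, 1, 3, 6, 2, 5]) (.b 0 3 (.c
    [0, 1, 5, 2, 6, 3]) (.b 0 2 (.c [0, 2, 6, 3, 1, 4]) (.b 4 5 (.c [1, 3, 6, 2, 5, 4]) (.b 3 4 (.c
    [1, 4, 3, 6, 2, 5]) (.b 2 3 (.b 3 5 (.b 5 6 (.k [2, 3, 5, 6]) (.i [0, 5, 6])) (.i [0, 3, 5]))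
    (.i [0, 2, 3]))))))) (.b 0 3 (.b 2 3 (.c [0, 3, 2, 5, 1, 4]) (.b 3 4 (.k [0, 1, 3, 4]) (.i [2,
    3, 4]))) (.i [0, 3, 6]))))) (.b 0 2 (.b 3 4 (.b 4 5 (.c [0, 1, 3, 4, 5, 2]) (.b 4 6 (.c [0, 1,
    3, 4, 6, 2]) (.b 3 5 (.c [0, 1, 4, 3, 5, 2]) (.b 3 6 (.c [0, 1, 4, 3, 6, 2]) (.b 0 3 (.c [0, 2,
    5, 1, 4, 3]) (.b 0 5 (.b 2 3 (.c [0, 1, 4, 3, 2, 5]) (.b 0 6 (.b 5 6 (.k [0, 2, 5, 6]) (.i [3,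
    5, 6])) (.i [0, 3, 6]))) (.i [0, 3, 5]))))))) (.b 0 3 (.b 3 6 (.c [0, 1, 5, 2, 6, 3]) (.b 4 5
    (.c [0, 2, 5, 4, 1, 3]) (.b 4 6 (.c [0, 2, 6, 4, 1, 3]) (.i [3, 4, 6])))) (.i [0, 3, 4]))) (.i
    [0, 2, 4]))) (.b 4 5 (.b 2 3 (.b 4 6 (.c [1, 3, 2, 6, 4, 5]) (.b 5 6 (.c [1, 3, 2, 6, 5, 4]) (.b
    0 6 (.b 3 4 (.c [0, 1, 4, 3, 2, 6]) (.b 3 5 (.c [0, 1, 5, 3, 2, 6]) (.b 0 4 (.c [0, 4, 1, 3, 2,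
    6]) (.b 0 5 (.c [0, 5, 1, 3, 2, 6]) (.b 0 2 (.b 0 3 (.b 3 6 (.k [0, 2, 3, 6]) (.i [3, 4, 6]))
    (.i [0, 3, 4])) (.i [0, 2, 4])))))) (.b 0 4 (.b 0 2 (.c [0, 2, 3, 1, 5, 4]) (.b 0 5 (.k [0, 1,
    4, 5]) (.i [0, 2, 5]))) (.i [0, 4, 6]))))) (.b 3 4 (.b 3 5 (.k [1, 3, 4, 5]) (.i [2, 3, 5])) (.i
    [2, 3, 4]))) (.i [2, 4, 5]))) (.i [1, 2, 4]))) (.b 0 2 (.b 0 6 (.b 1 4 (.b 0 3 (.b 4 6 (.c [0,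
    2, 6, 4, 1, 3]) (.b 5 6 (.c [0, 2, 6, 5, 1, 3]) (.b 2 4 (.c [0, 3, 1, 4, 2, 6]) (.b 2 5 (.c [0,
    3, 1, 5, 2, 6]) (.b 4 5 (.b 3 6 (.b 0 4 (.c [0, 2, 6, 3, 1, 4]) (.b 0 5 (.c [0, 2, 6, 3, 1, 5])
    (.b 2 3 (.k [0, 2, 3, 6]) (.b 3 4 (.b 3 5 (.k [1, 3, 4, 5]) (.i [2, 3, 5])) (.i [2, 3, 4])))))
    (.b 3 4 (.b 3 5 (.k [1, 3, 4, 5]) (.i [3, 5, 6])) (.i [3, 4, 6]))) (.i [2, 4, 5])))))) (.b 0 4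
    (.b 3 6 (.c [0, 2, 6, 3, 1, 4]) (.b 5 6 (.c [0, 2, 6, 5, 1, 4]) (.b 2 3 (.c [0, 4, 1, 3, 2, 6])
    (.b 2 5 (.c [0, 4, 1, 5, 2, 6]) (.b 3 5 (.b 2 4 (.b 0 5 (.c [0, 2, 4, 1, 3, 5]) (.b 4 6 (.k [0,
    2, 4, 6]) (.b 3 4 (.b 4 5 (.k [1, 3, 4, 5]) (.i [4, 5, 6])) (.i [3, 4, 6])))) (.b 3 4 (.b 4 5
    (.k [1, 3, 4, 5]) (.i [2, 4, 5])) (.i [2, 3, 4]))) (.i [2, 3, 5])))))) (.b 3 4 (.b 0 5 (.b 2 3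
    (.c [0, 2, 3, 4, 1, 5]) (.b 2 4 (.c [0, 2, 4, 3, 1, 5]) (.b 3 6 (.c [0, 2, 6, 3, 1, 5]) (.b 4 6
    (.c [0, 2, 6, 4, 1, 5]) (.b 4 5 (.b 3 5 (.k [1, 3, 4, 5]) (.b 2 5 (.b 5 6 (.k [0, 2, 5, 6]) (.i
    [3, 5, 6])) (.i [2, 3, 5]))) (.b 2 5 (.b 5 6 (.k [0, 2, 5, 6]) (.i [4, 5, 6])) (.i [2, 4,
    5]))))))) (.b 3 5 (.b 4 5 (.k [1, 3, 4, 5]) (.i [0, 4, 5])) (.i [0, 3, 5]))) (.i [0, 3, 4]))))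
    (.b 0 4 (.b 2 4 (.b 4 6 (.k [0, 2, 4, 6]) (.i [1, 4, 6])) (.i [1, 2, 4])) (.i [0, 1, 4]))) (.i
    [0, 1, 6])) (.i [0, 1, 2]))) (.b 2 3 (.b 3 6 (.b 0 1 (.b 1 4 (.b 3 4 (.b 0 6 (.c [0, 1, 4, 3, 2,
    6]) (.b 0 2 (.c [0, 1, 4, 3, 6, 2]) (.b 5 6 (.c [1, 4, 3, 2, 6, 5]) (.b 2 5 (.c [1, 4, 3, 6, 2,
    5]) (.b 0 5 (.b 2 4 (.b 3 5 (.c [0, 1, 4, 2, 3, 5]) (.b 0 3 (.c [0, 1, 4, 2, 6, 3]) (.b 4 6 (.k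
    [2, 3, 4, 6]) (.b 0 4 (.b 4 5 (.k [0, 1, 4, 5]) (.i [4, 5, 6])) (.i [0, 4, 6]))))) (.b 0 4 (.b 4
    5 (.k [0, 1, 4, 5]) (.i [2, 4, 5])) (.i [0, 2, 4]))) (.i [0, 2, 5])))))) (.b 3 5 (.b 0 6 (.c [0,
    1, 5, 3, 2, 6]) (.b 0 2 (.c [0, 1, 5, 3, 6, 2]) (.b 2 4 (.c [1, 4, 2, 6, 3, 5]) (.b 4 6 (.c [1,
    4, 6, 2, 3, 5]) (.b 0 4 (.b 5 6 (.b 0 3 (.c [0, 1, 5, 6, 2, 3]) (.b 2 5 (.k [2, 3, 5, 6]) (.b 0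
    5 (.b 4 5 (.k [0, 1, 4, 5]) (.i [2, 4, 5])) (.i [0, 2, 5])))) (.b 0 5 (.b 4 5 (.k [0, 1, 4, 5])
    (.i [4, 5, 6])) (.i [0, 5, 6]))) (.i [0, 2, 4])))))) (.b 4 5 (.b 0 3 (.b 2 4 (.c [0, 1, 4, 2, 6,
    3]) (.b 2 5 (.c [0, 1, 4, 5, 2, 3]) (.b 5 6 (.c [0, 1, 4, 5, 6, 3]) (.b 4 6 (.c [0, 1, 4, 6, 2,
    3]) (.b 0 6 (.b 0 2 (.k [0, 2, 3, 6]) (.b 0 4 (.b 0 5 (.k [0, 1, 4, 5]) (.i [0, 2, 5])) (.i [0,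
    2, 4]))) (.b 0 4 (.b 0 5 (.k [0, 1, 4, 5]) (.i [0, 5, 6])) (.i [0, 4, 6]))))))) (.b 0 4 (.b 0 5
    (.k [0, 1, 4, 5]) (.i [0, 3, 5])) (.i [0, 3, 4]))) (.i [3, 4, 5])))) (.b 2 4 (.b 3 4 (.b 4 6 (.k
    [2, 3, 4, 6]) (.i [1, 4, 6])) (.i [1, 3, 4])) (.i [1, 2, 4]))) (.b 0 2 (.b 0 3 (.b 0 6 (.k [0,
    2, 3, 6]) (.i [0, 1, 6])) (.i [0, 1, 3])) (.i [0, 1, 2]))) (.i [1, 3, 6])) (.i [1, 2, 3]))) (.b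
    2 5 (.b 5 6 (.b 0 1 (.b 1 3 (.b 1 4 (.b 3 5 (.b 0 6 (.c [0, 1, 3, 5, 2, 6]) (.b 0 2 (.c [0, 1,
    3, 5, 6, 2]) (.b 4 6 (.c [1, 3, 5, 2, 6, 4]) (.b 2 4 (.c [1, 3, 5, 6, 2, 4]) (.b 0 4 (.b 3 6 (.b
    0 5 (.c [0, 1, 3, 6, 2, 5]) (.b 4 5 (.c [0, 1, 3, 6, 5, 4]) (.b 2 3 (.k [2, 3, 5, 6]) (.b 0 3
    (.b 3 4 (.k [0, 1, 3, 4]) (.i [2, 3, 4])) (.i [0, 2, 3]))))) (.b 0 3 (.b 3 4 (.k [0, 1, 3, 4])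
    (.i [3, 4, 6])) (.i [0, 3, 6]))) (.i [0, 2, 4])))))) (.b 4 5 (.b 0 6 (.c [0, 1, 4, 5, 2, 6]) (.b
    0 2 (.c [0, 1, 4, 5, 6, 2]) (.b 2 3 (.c [1, 3, 2, 6, 5, 4]) (.b 3 6 (.c [1, 3, 6, 2, 5, 4]) (.b
    0 3 (.b 2 4 (.b 0 5 (.c [0, 1, 4, 2, 6, 5]) (.b 4 6 (.k [2, 4, 5, 6]) (.b 0 4 (.b 3 4 (.k [0, 1,
    3, 4]) (.i [3, 4, 6])) (.i [0, 4, 6])))) (.b 0 4 (.b 3 4 (.k [0, 1, 3, 4]) (.i [2, 3, 4])) (.i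
    [0, 2, 4]))) (.i [0, 2, 3])))))) (.b 3 4 (.b 0 5 (.b 2 3 (.c [0, 1, 3, 2, 6, 5]) (.b 2 4 (.c [0,
    1, 3, 4, 2, 5]) (.b 4 6 (.c [0, 1, 3, 4, 6, 5]) (.b 3 6 (.c [0, 1, 3, 6, 2, 5]) (.b 0 4 (.b 0 3
    (.k [0, 1, 3, 4]) (.b 0 2 (.b 0 6 (.k [0, 2, 5, 6]) (.i [0, 3, 6])) (.i [0, 2, 3]))) (.b 0 2 (.b
    0 6 (.k [0, 2, 5, 6]) (.i [0, 4, 6])) (.i [0, 2, 4]))))))) (.b 0 3 (.b 0 4 (.k [0, 1, 3, 4]) (.i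
    [0, 4, 5])) (.i [0, 3, 5]))) (.i [3, 4, 5])))) (.b 2 4 (.b 4 5 (.b 4 6 (.k [2, 4, 5, 6]) (.i [1,
    4, 6])) (.i [1, 4, 5])) (.i [1, 2, 4]))) (.b 2 3 (.b 3 5 (.b 3 6 (.k [2, 3, 5, 6]) (.i [1, 3,
    6])) (.i [1, 3, 5])) (.i [1, 2, 3]))) (.b 0 2 (.b 0 5 (.b 0 6 (.k [0, 2, 5, 6]) (.i [0, 1, 6]))
    (.i [0, 1, 5])) (.i [0, 1, 2]))) (.i [1, 5, 6])) (.i [1, 2, 5]))) (.i [1, 2, 6]))),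
  by decide +kernel⟩

/-- a graph on `9` vertices without independent triple and `K_5` has a `C_8` -/
theorem treeF8 : ∃ t : Tr, t.check 9 8 5 3 (mask [(0, 1), (0, 2), (0, 3), (0, 4)]) 0 = true :=
  ⟨.b 5 8 (.b 1 7 (.b 2 6 (.b 7 8 (.b 5 6 (.b 2 3 (.c [0, 1, 7, 8, 5, 6, 2, 3]) (.b 2 4 (.c [0, 1,
    7, 8, 5, 6, 2, 4]) (.b 1 3 (.c [0, 2, 6, 5, 8, 7, 1, 3]) (.b 1 4 (.c [0, 2, 6, 5, 8, 7, 1, 4])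
    (.b 1 2 (.b 3 7 (.c [0, 1, 2, 6, 5, 8, 7, 3]) (.b 4 7 (.c [0, 1, 2, 6, 5, 8, 7, 4]) (.b 3 6 (.c
    [0, 2, 1, 7, 8, 5, 6, 3]) (.b 4 6 (.c [0, 2, 1, 7, 8, 5, 6, 4]) (.b 3 4 (.b 3 8 (.c [0, 1, 2, 6,
    5, 8, 3, 4]) (.b 4 8 (.c [0, 1, 2, 6, 5, 8, 4, 3]) (.b 3 5 (.c [0, 2, 1, 7, 8, 5, 3, 4]) (.b 4 5
    (.c [0, 2, 1, 7, 8, 5, 4, 3]) (.b 1 5 (.b 1 6 (.b 1 8 (.b 2 5 (.b 2 7 (.b 2 8 (.b 6 8 (.k [1, 2,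
    5, 6, 8]) (.i [3, 6, 8])) (.i [2, 3, 8])) (.i [2, 3, 7])) (.i [2, 3, 5])) (.i [1, 3, 8])) (.i
    [1, 3, 6])) (.i [1, 3, 5])))))) (.i [1, 3, 4])))))) (.i [1, 2, 3])))))) (.b 3 6 (.b 2 5 (.c [0,
    1, 7, 8, 5, 2, 6, 3]) (.b 3 5 (.c [0, 1, 7, 8, 5, 3, 6, 2]) (.b 2 3 (.b 4 5 (.b 2 4 (.c [0, 1,
    7, 8, 5, 4, 2, 3]) (.b 3 4 (.c [0, 1, 7, 8, 5, 4, 3, 2]) (.b 4 6 (.c [0, 1, 7, 8, 5, 4, 6, 2])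
    (.b 1 3 (.c [0, 2, 3, 1, 7, 8, 5, 4]) (.b 6 7 (.c [0, 2, 3, 6, 7, 8, 5, 4]) (.b 1 6 (.c [0, 2,
    6, 1, 7, 8, 5, 4]) (.b 3 7 (.c [0, 2, 6, 3, 7, 8, 5, 4]) (.b 1 2 (.c [0, 3, 2, 1, 7, 8, 5, 4])
    (.b 2 7 (.c [0, 3, 6, 2, 7, 8, 5, 4]) (.b 1 4 (.b 2 8 (.c [0, 1, 4, 5, 8, 2, 6, 3]) (.b 3 8 (.c
    [0, 1, 4, 5, 8, 3, 6, 2]) (.b 6 8 (.c [0, 1, 4, 5, 8, 6, 2, 3]) (.b 1 5 (.b 1 8 (.b 4 7 (.b 4 8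
    (.b 5 7 (.k [1, 4, 5, 7, 8]) (.i [2, 5, 7])) (.i [2, 4, 8])) (.i [2, 4, 7])) (.i [1, 2, 8])) (.i
    [1, 2, 5]))))) (.i [1, 2, 4]))))))))))) (.b 2 4 (.b 3 8 (.c [0, 1, 7, 8, 3, 6, 2, 4]) (.b 4 8
    (.c [0, 1, 7, 8, 4, 2, 6, 3]) (.b 6 8 (.c [0, 1, 7, 8, 6, 3, 2, 4]) (.b 3 4 (.b 2 8 (.c [0, 1,
    7, 8, 2, 6, 3, 4]) (.b 4 6 (.b 0 6 (.k [0, 2, 3, 4, 6]) (.b 0 5 (.b 1 4 (.c [0, 2, 3, 4, 1, 7,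
    8, 5]) (.b 6 7 (.c [0, 2, 3, 4, 6, 7, 8, 5]) (.b 1 6 (.c [0, 2, 3, 6, 1, 7, 8, 5]) (.b 4 7 (.c
    [0, 2, 3, 6, 4, 7, 8, 5]) (.b 1 3 (.c [0, 2, 4, 3, 1, 7, 8, 5]) (.b 3 7 (.c [0, 2, 4, 6, 3, 7,
    8, 5]) (.b 1 2 (.c [0, 3, 4, 2, 1, 7, 8, 5]) (.b 2 7 (.c [0, 3, 4, 6, 2, 7, 8, 5]) (.b 0 7 (.b 0
    8 (.b 1 5 (.b 1 8 (.b 5 7 (.k [0, 1, 5, 7, 8]) (.i [2, 5, 7])) (.i [1, 2, 8])) (.i [1, 2, 5]))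
    (.i [0, 6, 8])) (.i [0, 6, 7])))))))))) (.i [0, 5, 6]))) (.i [4, 5, 6]))) (.i [3, 4, 5]))))) (.i
    [2, 4, 5]))) (.i [2, 3, 5])))) (.b 3 5 (.b 1 6 (.c [0, 2, 6, 1, 7, 8, 5, 3]) (.b 1 3 (.b 6 7 (.c
    [0, 1, 3, 5, 8, 7, 6, 2]) (.b 1 5 (.b 6 8 (.c [0, 2, 6, 8, 7, 1, 5, 3]) (.b 1 8 (.b 3 7 (.b 3 8
    (.b 5 7 (.k [1, 3, 5, 7, 8]) (.i [5, 6, 7])) (.i [3, 6, 8])) (.i [3, 6, 7])) (.i [1, 6, 8])))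
    (.i [1, 5, 6]))) (.i [1, 3, 6]))) (.i [3, 5, 6])))) (.b 3 8 (.b 6 7 (.b 2 5 (.c [0, 1, 7, 6, 2,
    5, 8, 3]) (.b 1 5 (.c [0, 2, 6, 7, 1, 5, 8, 3]) (.b 1 2 (.b 5 7 (.c [0, 1, 2, 6, 7, 5, 8, 3])
    (.b 5 6 (.c [0, 2, 1, 7, 6, 5, 8, 3]) (.b 1 6 (.b 2 7 (.b 4 5 (.b 3 6 (.c [0, 1, 2, 6, 3, 8, 5,
    4]) (.b 4 6 (.c [0, 1, 2, 6, 4, 5, 8, 3]) (.b 3 7 (.c [0, 1, 2, 7, 3, 8, 5, 4]) (.b 4 7 (.c [0,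
    1, 2, 7, 4, 5, 8, 3]) (.b 6 8 (.c [0, 1, 2, 7, 6, 8, 5, 4]) (.b 2 3 (.c [0, 1, 6, 2, 3, 8, 5,
    4]) (.b 2 4 (.c [0, 1, 6, 2, 4, 5, 8, 3]) (.b 2 8 (.c [0, 1, 6, 7, 2, 8, 5, 4]) (.b 1 3 (.c [0,
    2, 6, 1, 3, 8, 5, 4]) (.b 1 4 (.c [0, 2, 6, 1, 4, 5, 8, 3]) (.b 1 8 (.c [0, 2, 6, 7, 1, 8, 5,
    4]) (.b 3 4 (.b 3 5 (.b 4 8 (.b 0 6 (.b 0 7 (.k [0, 1, 2, 6, 7]) (.b 0 5 (.b 0 8 (.k [0, 3, 4,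
    5, 8]) (.i [0, 7, 8])) (.i [0, 5, 7]))) (.b 0 5 (.b 0 8 (.k [0, 3, 4, 5, 8]) (.i [0, 6, 8])) (.i
    [0, 5, 6]))) (.i [1, 4, 8])) (.i [1, 3, 5])) (.i [1, 3, 4]))))))))))))) (.b 1 4 (.b 4 8 (.c [0,
    2, 6, 7, 1, 4, 8, 3]) (.b 2 8 (.c [0, 3, 8, 2, 6, 7, 1, 4]) (.b 6 8 (.c [0, 3, 8, 6, 2, 7, 1,
    4]) (.b 2 4 (.b 1 8 (.c [0, 3, 8, 1, 6, 7, 2, 4]) (.b 4 6 (.b 0 6 (.k [0, 1, 2, 4, 6]) (.b 4 7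
    (.k [1, 2, 4, 6, 7]) (.i [4, 5, 7]))) (.i [4, 5, 6]))) (.i [2, 4, 5]))))) (.i [1, 4, 5]))) (.i
    [2, 5, 7])) (.i [1, 5, 6])))) (.i [1, 2, 5])))) (.b 6 8 (.b 4 7 (.b 2 4 (.c [0, 1, 7, 4, 2, 6,
    8, 3]) (.b 3 4 (.c [0, 1, 7, 4, 3, 8, 6, 2]) (.b 4 5 (.c [0, 1, 7, 4, 5, 8, 6, 2]) (.b 1 3 (.c
    [0, 2, 6, 8, 3, 1, 7, 4]) (.b 1 5 (.c [0, 2, 6, 8, 5, 1, 7, 4]) (.b 1 2 (.c [0, 3, 8, 6, 2, 1,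
    7, 4]) (.b 2 3 (.b 4 6 (.c [0, 1, 7, 4, 6, 8, 3, 2]) (.b 4 8 (.c [0, 1, 7, 4, 8, 6, 2, 3]) (.b 5
    7 (.c [0, 1, 7, 5, 8, 6, 2, 3]) (.b 1 6 (.c [0, 2, 3, 8, 6, 1, 7, 4]) (.b 1 8 (.c [0, 3, 2, 6,
    8, 1, 7, 4]) (.b 1 4 (.b 2 7 (.c [0, 1, 4, 7, 2, 6, 8, 3]) (.b 3 7 (.c [0, 1, 4, 7, 3, 8, 6, 2])
    (.b 2 5 (.b 2 8 (.b 3 5 (.b 3 6 (.b 5 6 (.k [2, 3, 5, 6, 8]) (.i [1, 5, 6])) (.i [1, 3, 6])) (.i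
    [1, 3, 5])) (.i [1, 2, 8])) (.i [1, 2, 5])))) (.i [1, 2, 4]))))))) (.i [1, 2, 3])))))))) (.b 4 6
    (.b 4 8 (.b 2 7 (.c [0, 1, 7, 2, 6, 4, 8, 3]) (.b 3 7 (.c [0, 1, 7, 3, 8, 4, 6, 2]) (.b 5 7 (.c
    [0, 1, 7, 5, 8, 4, 6, 2]) (.b 2 3 (.b 1 5 (.c [0, 1, 5, 8, 3, 2, 6, 4]) (.b 2 4 (.b 2 5 (.b 1 3
    (.c [0, 1, 3, 2, 5, 8, 6, 4]) (.b 1 4 (.c [0, 1, 4, 6, 2, 5, 8, 3]) (.b 1 6 (.c [0, 1, 6, 4, 2,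
    5, 8, 3]) (.b 3 4 (.b 1 2 (.c [0, 1, 2, 5, 8, 6, 4, 3]) (.b 1 8 (.c [0, 1, 8, 5, 2, 6, 4, 3])
    (.b 2 8 (.b 0 8 (.k [0, 2, 3, 4, 8]) (.b 3 6 (.k [2, 3, 4, 6, 8]) (.i [1, 3, 6]))) (.i [1, 2,
    8])))) (.i [1, 3, 4]))))) (.i [2, 5, 7])) (.i [2, 4, 7]))) (.i [2, 3, 7]))))) (.i [4, 7, 8]))
    (.i [4, 6, 7]))) (.i [6, 7, 8]))) (.b 3 7 (.b 6 8 (.b 3 5 (.c [0, 1, 7, 3, 5, 8, 6, 2]) (.b 1 5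
    (.c [0, 2, 6, 8, 5, 1, 7, 3]) (.b 1 3 (.b 5 7 (.c [0, 1, 3, 7, 5, 8, 6, 2]) (.b 4 5 (.b 2 3 (.c
    [0, 1, 3, 2, 6, 8, 5, 4]) (.b 3 4 (.c [0, 1, 3, 4, 5, 8, 6, 2]) (.b 6 7 (.c [0, 1, 3, 7, 6, 8,
    5, 4]) (.b 2 7 (.c [0, 1, 7, 2, 6, 8, 5, 4]) (.b 3 6 (.c [0, 1, 7, 3, 6, 8, 5, 4]) (.b 4 7 (.c
    [0, 1, 7, 4, 5, 8, 6, 2]) (.b 1 4 (.c [0, 2, 6, 8, 5, 4, 1, 3]) (.b 1 2 (.c [0, 3, 1, 2, 6, 8,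
    5, 4]) (.b 1 6 (.c [0, 3, 7, 1, 6, 8, 5, 4]) (.b 2 4 (.b 1 8 (.c [0, 2, 4, 5, 8, 1, 7, 3]) (.b 2
    5 (.b 2 8 (.b 4 6 (.b 4 8 (.b 5 6 (.k [2, 4, 5, 6, 8]) (.i [1, 5, 6])) (.i [1, 4, 8])) (.i [1,
    4, 6])) (.i [1, 2, 8])) (.i [1, 2, 5]))) (.i [1, 2, 4]))))))))))) (.b 1 4 (.b 4 8 (.c [0, 2, 6,
    8, 4, 1, 7, 3]) (.b 3 4 (.b 1 8 (.c [0, 2, 6, 8, 1, 7, 3, 4]) (.b 4 7 (.b 0 7 (.k [0, 1, 3, 4,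
    7]) (.b 0 5 (.b 2 4 (.c [0, 1, 3, 4, 2, 6, 8, 5]) (.b 6 7 (.c [0, 1, 3, 4, 7, 6, 8, 5]) (.b 2 7
    (.c [0, 1, 3, 7, 2, 6, 8, 5]) (.b 4 6 (.c [0, 1, 3, 7, 4, 6, 8, 5]) (.b 2 3 (.c [0, 1, 4, 3, 2,
    6, 8, 5]) (.b 3 6 (.c [0, 1, 4, 7, 3, 6, 8, 5]) (.b 1 2 (.c [0, 3, 4, 1, 2, 6, 8, 5]) (.b 1 6
    (.c [0, 3, 4, 7, 1, 6, 8, 5]) (.b 0 6 (.b 0 8 (.b 2 5 (.b 2 8 (.b 5 6 (.k [0, 2, 5, 6, 8]) (.i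
    [1, 5, 6])) (.i [1, 2, 8])) (.i [1, 2, 5])) (.i [0, 7, 8])) (.i [0, 6, 7])))))))))) (.i [0, 5,
    7]))) (.i [4, 5, 7]))) (.i [3, 4, 5]))) (.i [1, 4, 5])))) (.i [1, 3, 5])))) (.b 3 6 (.b 6 7 (.b
    4 8 (.b 2 8 (.c [0, 1, 7, 3, 6, 2, 8, 4]) (.b 5 6 (.c [0, 1, 7, 3, 6, 5, 8, 4]) (.b 2 5 (.c [0,
    1, 7, 6, 2, 5, 8, 4]) (.b 3 5 (.c [0, 1, 7, 6, 3, 5, 8, 4]) (.b 1 8 (.c [0, 2, 6, 3, 7, 1, 8,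
    4]) (.b 5 7 (.c [0, 2, 6, 3, 7, 5, 8, 4]) (.b 1 5 (.c [0, 2, 6, 7, 1, 5, 8, 4]) (.b 1 2 (.b 1 3
    (.b 1 6 (.b 2 3 (.b 0 6 (.k [0, 1, 2, 3, 6]) (.b 2 7 (.k [1, 2, 3, 6, 7]) (.i [2, 5, 7]))) (.i
    [2, 3, 5])) (.i [1, 5, 6])) (.i [1, 3, 5])) (.i [1, 2, 5]))))))))) (.b 3 4 (.b 4 6 (.b 4 7 (.b 1
    8 (.b 2 8 (.c [0, 1, 8, 2, 6, 3, 7, 4]) (.b 2 5 (.c [0, 1, 8, 5, 2, 6, 3, 4]) (.b 3 5 (.c [0, 1,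
    8, 5, 3, 4, 6, 2]) (.b 4 5 (.c [0, 1, 8, 5, 4, 3, 6, 2]) (.b 5 6 (.c [0, 1, 8, 5, 6, 3, 7, 4])
    (.b 5 7 (.c [0, 1, 8, 5, 7, 3, 6, 2]) (.b 0 8 (.c [0, 2, 6, 3, 4, 7, 1, 8]) (.b 0 5 (.c [0, 2,
    6, 3, 7, 1, 8, 5]) (.b 0 6 (.b 0 7 (.k [0, 3, 4, 6, 7]) (.i [0, 5, 7])) (.i [0, 5, 6]))))))))))
    (.b 1 3 (.b 1 4 (.b 0 7 (.k [0, 1, 3, 4, 7]) (.b 1 6 (.k [1, 3, 4, 6, 7]) (.i [1, 6, 8]))) (.i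
    [1, 4, 8])) (.i [1, 3, 8]))) (.i [4, 7, 8])) (.i [4, 6, 8])) (.i [3, 4, 8]))) (.i [6, 7, 8]))
    (.i [3, 6, 8]))) (.i [3, 7, 8])))) (.b 5 6 (.b 4 6 (.b 2 8 (.b 2 7 (.c [0, 1, 7, 2, 8, 5, 6, 4])
    (.b 4 7 (.c [0, 1, 7, 4, 6, 5, 8, 2]) (.b 2 4 (.b 6 7 (.c [0, 1, 7, 6, 5, 8, 2, 4]) (.i [2, 6,
    7])) (.i [2, 4, 7])))) (.b 6 8 (.b 2 7 (.b 2 5 (.c [0, 1, 7, 2, 5, 8, 6, 4]) (.b 1 5 (.c [0, 2,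
    7, 1, 5, 8, 6, 4]) (.b 1 8 (.c [0, 2, 7, 1, 8, 5, 6, 4]) (.b 1 2 (.b 5 7 (.c [0, 1, 2, 7, 5, 8,
    6, 4]) (.b 7 8 (.c [0, 1, 2, 7, 8, 5, 6, 4]) (.b 3 5 (.b 2 3 (.c [0, 1, 2, 3, 5, 8, 6, 4]) (.b 2
    4 (.c [0, 1, 2, 4, 6, 8, 5, 3]) (.b 3 7 (.c [0, 1, 2, 7, 3, 5, 6, 4]) (.b 4 7 (.c [0, 1, 2, 7,
    4, 6, 5, 3]) (.b 6 7 (.c [0, 1, 2, 7, 6, 8, 5, 3]) (.b 1 3 (.c [0, 2, 1, 3, 5, 8, 6, 4]) (.b 1 4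
    (.c [0, 2, 1, 4, 6, 8, 5, 3]) (.b 1 6 (.c [0, 2, 7, 1, 6, 8, 5, 3]) (.b 3 4 (.b 3 6 (.b 3 8 (.b
    4 5 (.b 4 8 (.k [3, 4, 5, 6, 8]) (.i [1, 4, 8])) (.i [1, 4, 5])) (.i [1, 3, 8])) (.i [1, 3, 6]))
    (.i [1, 3, 4])))))))))) (.b 1 3 (.b 3 8 (.c [0, 2, 1, 3, 8, 5, 6, 4]) (.b 2 3 (.b 3 7 (.b 0 7
    (.k [0, 1, 2, 3, 7]) (.b 0 5 (.b 3 4 (.c [0, 1, 2, 3, 4, 6, 8, 5]) (.b 4 7 (.c [0, 1, 2, 3, 7,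
    4, 6, 5]) (.b 6 7 (.c [0, 1, 2, 3, 7, 6, 8, 5]) (.b 3 6 (.c [0, 1, 2, 7, 3, 6, 8, 5]) (.b 2 4
    (.c [0, 1, 3, 2, 4, 6, 8, 5]) (.b 1 4 (.c [0, 2, 3, 1, 4, 6, 8, 5]) (.b 1 6 (.c [0, 2, 3, 7, 1,
    6, 8, 5]) (.b 0 6 (.b 0 8 (.b 4 5 (.b 4 8 (.k [0, 4, 5, 6, 8]) (.i [1, 4, 8])) (.i [1, 4, 5]))
    (.i [0, 7, 8])) (.i [0, 6, 7]))))))))) (.i [0, 5, 7]))) (.i [3, 5, 7])) (.i [2, 3, 5]))) (.i [1,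
    3, 5]))))) (.i [1, 2, 5]))))) (.b 6 7 (.b 7 8 (.b 2 4 (.c [0, 1, 7, 8, 5, 6, 4, 2]) (.b 3 4 (.c
    [0, 1, 7, 8, 5, 6, 4, 3]) (.b 1 2 (.c [0, 2, 1, 7, 8, 5, 6, 4]) (.b 1 3 (.c [0, 3, 1, 7, 8, 5,
    6, 4]) (.b 2 3 (.b 3 8 (.c [0, 1, 7, 6, 5, 8, 3, 2]) (.b 2 5 (.c [0, 1, 7, 6, 8, 5, 2, 3]) (.b 3
    5 (.c [0, 1, 7, 6, 8, 5, 3, 2]) (.b 3 6 (.c [0, 1, 7, 8, 5, 6, 3, 2]) (.b 3 7 (.c [0, 2, 3, 7,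
    8, 5, 6, 4]) (.b 1 4 (.b 1 5 (.b 1 6 (.b 1 8 (.b 5 7 (.k [1, 5, 6, 7, 8]) (.i [2, 5, 7])) (.i
    [1, 2, 8])) (.i [1, 2, 6])) (.i [1, 2, 5])) (.i [1, 2, 4]))))))) (.i [1, 2, 3])))))) (.i [2, 7,
    8])) (.i [2, 6, 7]))) (.i [2, 6, 8]))) (.b 2 4 (.b 6 7 (.b 2 8 (.c [0, 1, 7, 6, 5, 8, 2, 4]) (.b
    4 8 (.c [0, 1, 7, 6, 5, 8, 4, 2]) (.b 6 8 (.b 2 5 (.c [0, 1, 7, 6, 8, 5, 2, 4]) (.b 4 5 (.c [0,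
    1, 7, 6, 8, 5, 4, 2]) (.b 3 8 (.b 2 3 (.c [0, 1, 7, 6, 5, 8, 3, 2]) (.b 3 4 (.c [0, 1, 7, 6, 5,
    8, 3, 4]) (.b 1 2 (.c [0, 2, 1, 7, 6, 5, 8, 3]) (.b 1 4 (.c [0, 2, 4, 1, 7, 6, 8, 3]) (.b 4 7
    (.c [0, 2, 4, 7, 6, 5, 8, 3]) (.b 2 7 (.c [0, 3, 8, 5, 6, 7, 2, 4]) (.b 1 3 (.b 1 5 (.b 1 6 (.b
    1 8 (.b 3 5 (.b 3 6 (.k [1, 3, 5, 6, 8]) (.i [2, 3, 6])) (.i [2, 3, 5])) (.i [1, 2, 8])) (.i [1,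
    2, 6])) (.i [1, 2, 5])) (.i [1, 2, 3])))))))) (.b 2 3 (.b 3 5 (.c [0, 1, 7, 6, 5, 3, 2, 4]) (.b
    3 4 (.b 1 8 (.b 3 6 (.c [0, 1, 8, 5, 6, 3, 2, 4]) (.b 2 7 (.c [0, 1, 8, 5, 6, 7, 2, 3]) (.b 3 7
    (.c [0, 1, 8, 5, 6, 7, 3, 2]) (.b 4 7 (.c [0, 1, 8, 5, 6, 7, 4, 2]) (.b 5 7 (.b 7 8 (.b 1 4 (.b
    0 6 (.c [0, 2, 3, 4, 1, 7, 5, 6]) (.b 0 8 (.c [0, 2, 3, 4, 1, 7, 5, 8]) (.b 0 5 (.c [0, 2, 3, 4,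
    1, 7, 6, 5]) (.b 0 7 (.c [0, 2, 3, 4, 1, 8, 5, 7]) (.b 1 3 (.b 1 2 (.k [0, 1, 2, 3, 4]) (.b 1 5
    (.b 1 6 (.k [1, 5, 6, 7, 8]) (.i [1, 2, 6])) (.i [1, 2, 5]))) (.b 1 5 (.b 1 6 (.k [1, 5, 6, 7,
    8]) (.i [1, 3, 6])) (.i [1, 3, 5]))))))) (.b 1 5 (.b 1 6 (.k [1, 5, 6, 7, 8]) (.i [1, 4, 6]))
    (.i [1, 4, 5]))) (.i [2, 7, 8])) (.i [2, 5, 7])))))) (.b 1 2 (.b 0 8 (.c [0, 3, 2, 1, 7, 6, 5,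
    8]) (.b 0 5 (.c [0, 3, 2, 1, 7, 6, 8, 5]) (.b 1 3 (.b 1 4 (.k [0, 1, 2, 3, 4]) (.i [1, 4, 8]))
    (.i [1, 3, 8])))) (.i [1, 2, 8]))) (.i [3, 4, 5]))) (.i [2, 3, 8]))))) (.i [2, 6, 8])))) (.b 2 7
    (.b 4 7 (.b 3 6 (.b 4 5 (.c [0, 1, 7, 2, 4, 5, 6, 3]) (.b 2 8 (.c [0, 1, 7, 2, 8, 5, 6, 3]) (.b
    2 5 (.c [0, 1, 7, 4, 2, 5, 6, 3]) (.b 4 8 (.c [0, 1, 7, 4, 8, 5, 6, 3]) (.b 1 5 (.c [0, 2, 4, 7,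
    1, 5, 6, 3]) (.b 7 8 (.c [0, 2, 4, 7, 8, 5, 6, 3]) (.b 1 8 (.c [0, 2, 7, 1, 8, 5, 6, 3]) (.b 1 2
    (.b 5 7 (.c [0, 1, 2, 4, 7, 5, 6, 3]) (.b 1 4 (.b 0 7 (.k [0, 1, 2, 4, 7]) (.b 0 5 (.b 3 7 (.c
    [0, 1, 2, 4, 7, 3, 6, 5]) (.b 3 4 (.c [0, 1, 2, 7, 4, 3, 6, 5]) (.b 2 3 (.c [0, 1, 4, 7, 2, 3,
    6, 5]) (.b 1 3 (.c [0, 2, 4, 7, 1, 3, 6, 5]) (.b 0 6 (.b 0 8 (.b 1 6 (.c [0, 2, 4, 7, 1, 6, 5,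
    8]) (.b 3 5 (.b 3 8 (.b 6 8 (.k [0, 3, 5, 6, 8]) (.i [1, 6, 8])) (.i [1, 3, 8])) (.i [1, 3,
    5]))) (.i [0, 7, 8])) (.i [0, 6, 7])))))) (.i [0, 5, 7]))) (.i [1, 4, 5]))) (.i [1, 2,
    5]))))))))) (.b 2 3 (.b 3 4 (.b 3 7 (.b 0 7 (.k [0, 2, 3, 4, 7]) (.b 0 6 (.b 4 5 (.c [0, 1, 7,
    2, 3, 4, 5, 6]) (.b 3 8 (.c [0, 1, 7, 2, 3, 8, 5, 6]) (.b 3 5 (.c [0, 1, 7, 2, 4, 3, 5, 6]) (.b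
    4 8 (.c [0, 1, 7, 2, 4, 8, 5, 6]) (.b 2 8 (.c [0, 1, 7, 3, 2, 8, 5, 6]) (.b 2 5 (.c [0, 1, 7, 3,
    4, 2, 5, 6]) (.b 1 5 (.c [0, 2, 3, 4, 7, 1, 5, 6]) (.b 7 8 (.c [0, 2, 3, 4, 7, 8, 5, 6]) (.b 1 8
    (.c [0, 2, 3, 7, 1, 8, 5, 6]) (.b 0 8 (.b 1 6 (.c [0, 2, 3, 7, 1, 6, 5, 8]) (.b 1 2 (.b 5 7 (.c
    [0, 1, 2, 3, 4, 7, 5, 6]) (.b 0 5 (.b 1 3 (.b 1 4 (.k [0, 1, 2, 3, 4]) (.i [1, 4, 5])) (.i [1,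
    3, 5])) (.i [0, 5, 7]))) (.i [1, 2, 5]))) (.i [0, 7, 8]))))))))))) (.i [0, 6, 7]))) (.i [3, 6,
    7])) (.i [3, 4, 6])) (.i [2, 3, 6]))) (.i [4, 6, 7])) (.i [2, 6, 7]))) (.i [2, 4, 6]))) (.b 2 5
    (.b 6 7 (.b 6 8 (.b 2 3 (.c [0, 1, 7, 6, 8, 5, 2, 3]) (.b 2 4 (.c [0, 1, 7, 6, 8, 5, 2, 4]) (.b
    1 3 (.c [0, 2, 5, 8, 6, 7, 1, 3]) (.b 1 4 (.c [0, 2, 5, 8, 6, 7, 1, 4]) (.b 1 2 (.b 3 7 (.c [0,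
    1, 2, 5, 8, 6, 7, 3]) (.b 4 7 (.c [0, 1, 2, 5, 8, 6, 7, 4]) (.b 3 5 (.c [0, 2, 1, 7, 6, 8, 5,
    3]) (.b 4 5 (.c [0, 2, 1, 7, 6, 8, 5, 4]) (.b 3 4 (.b 3 6 (.c [0, 1, 2, 5, 8, 6, 3, 4]) (.i [2,
    3, 6])) (.i [1, 3, 4])))))) (.i [1, 2, 3])))))) (.b 2 8 (.b 4 6 (.b 4 5 (.c [0, 1, 7, 6, 4, 5,
    8, 2]) (.b 4 8 (.c [0, 1, 7, 6, 4, 8, 5, 2]) (.b 1 8 (.c [0, 2, 5, 8, 1, 7, 6, 4]) (.b 1 5 (.c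
    [0, 2, 8, 5, 1, 7, 6, 4]) (.b 1 4 (.b 5 7 (.c [0, 1, 4, 6, 7, 5, 8, 2]) (.b 7 8 (.c [0, 1, 4, 6,
    7, 8, 5, 2]) (.b 1 6 (.b 4 7 (.b 3 8 (.b 3 6 (.c [0, 1, 4, 6, 3, 8, 5, 2]) (.b 2 7 (.c [0, 1, 4,
    6, 7, 2, 8, 3]) (.b 3 7 (.c [0, 1, 4, 6, 7, 3, 8, 2]) (.b 2 4 (.c [0, 1, 6, 4, 2, 5, 8, 3]) (.b
    3 4 (.c [0, 1, 6, 4, 3, 8, 5, 2]) (.b 1 3 (.c [0, 2, 5, 8, 3, 1, 6, 4]) (.b 1 2 (.c [0, 3, 8, 2,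
    1, 6, 7, 4]) (.b 2 3 (.b 3 5 (.b 0 8 (.b 0 5 (.k [0, 2, 3, 5, 8]) (.b 0 6 (.b 0 7 (.k [0, 1, 4,
    6, 7]) (.i [0, 5, 7])) (.i [0, 5, 6]))) (.b 0 6 (.b 0 7 (.k [0, 1, 4, 6, 7]) (.i [0, 7, 8])) (.i
    [0, 6, 8]))) (.i [1, 3, 5])) (.i [1, 2, 3]))))))))) (.b 1 3 (.b 3 5 (.c [0, 2, 5, 3, 1, 6, 7,
    4]) (.b 3 4 (.b 3 6 (.b 0 6 (.k [0, 1, 3, 4, 6]) (.b 3 7 (.k [1, 3, 4, 6, 7]) (.i [3, 5, 7])))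
    (.i [3, 5, 6])) (.i [3, 4, 5]))) (.i [1, 3, 8]))) (.i [4, 5, 7])) (.i [1, 5, 6])))) (.i [1, 4,
    5])))))) (.b 2 4 (.b 4 5 (.b 4 8 (.b 3 6 (.b 2 3 (.c [0, 1, 7, 6, 3, 2, 5, 4]) (.b 3 4 (.c [0,
    1, 7, 6, 3, 4, 5, 2]) (.b 3 5 (.c [0, 1, 7, 6, 3, 5, 2, 4]) (.b 3 8 (.c [0, 1, 7, 6, 3, 8, 2,
    4]) (.b 1 5 (.c [0, 2, 4, 5, 1, 7, 6, 3]) (.b 7 8 (.c [0, 2, 4, 5, 8, 7, 6, 3]) (.b 1 8 (.c [0,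
    2, 4, 8, 1, 7, 6, 3]) (.b 5 7 (.c [0, 2, 4, 8, 5, 7, 6, 3]) (.b 1 4 (.c [0, 2, 5, 4, 1, 7, 6,
    3]) (.b 4 7 (.c [0, 2, 5, 8, 4, 7, 6, 3]) (.b 1 2 (.c [0, 3, 6, 7, 1, 2, 5, 4]) (.b 2 7 (.c [0,
    3, 6, 7, 2, 5, 8, 4]) (.b 1 3 (.b 1 6 (.b 3 7 (.b 0 6 (.b 0 7 (.k [0, 1, 3, 6, 7]) (.b 0 5 (.b 0
    8 (.k [0, 2, 4, 5, 8]) (.i [0, 7, 8])) (.i [0, 5, 7]))) (.b 0 5 (.b 0 8 (.k [0, 2, 4, 5, 8]) (.i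
    [0, 6, 8])) (.i [0, 5, 6]))) (.i [2, 3, 7])) (.i [1, 2, 6])) (.i [1, 2, 3])))))))))))))) (.b 2 3
    (.b 3 7 (.c [0, 1, 7, 3, 2, 5, 8, 4]) (.b 4 7 (.c [0, 1, 7, 4, 5, 8, 2, 3]) (.b 5 7 (.c [0, 1,
    7, 5, 4, 8, 2, 3]) (.b 7 8 (.c [0, 1, 7, 8, 4, 5, 2, 3]) (.b 3 4 (.b 2 7 (.c [0, 1, 7, 2, 5, 8,
    4, 3]) (.b 3 5 (.b 0 5 (.k [0, 2, 3, 4, 5]) (.b 3 8 (.k [2, 3, 4, 5, 8]) (.i [3, 6, 8]))) (.i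
    [3, 5, 6]))) (.i [3, 4, 6])))))) (.i [2, 3, 6]))) (.i [4, 6, 8])) (.i [4, 5, 6])) (.i [2, 4,
    6]))) (.i [2, 6, 8]))) (.b 2 7 (.b 5 7 (.b 6 8 (.b 3 6 (.c [0, 1, 7, 2, 5, 8, 6, 3]) (.b 4 6 (.c
    [0, 1, 7, 2, 5, 8, 6, 4]) (.b 2 3 (.b 1 6 (.c [0, 1, 6, 8, 5, 7, 2, 3]) (.b 1 2 (.b 4 8 (.c [0,
    3, 2, 1, 7, 5, 8, 4]) (.b 0 6 (.c [0, 3, 2, 1, 7, 5, 8, 6]) (.b 0 5 (.b 0 7 (.b 1 5 (.k [0, 1,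
    2, 5, 7]) (.i [1, 5, 6])) (.i [0, 6, 7])) (.i [0, 5, 6])))) (.i [1, 2, 6]))) (.i [2, 3, 6]))))
    (.b 2 8 (.b 7 8 (.b 3 4 (.b 3 8 (.c [0, 1, 7, 2, 5, 8, 3, 4]) (.b 4 8 (.c [0, 1, 7, 2, 5, 8, 4,
    3]) (.b 3 5 (.c [0, 1, 7, 2, 8, 5, 3, 4]) (.b 4 5 (.c [0, 1, 7, 2, 8, 5, 4, 3]) (.b 2 3 (.c [0,
    1, 7, 5, 8, 2, 3, 4]) (.b 2 4 (.c [0, 1, 7, 5, 8, 2, 4, 3]) (.b 1 3 (.c [0, 2, 5, 8, 7, 1, 3,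
    4]) (.b 1 4 (.c [0, 2, 5, 8, 7, 1, 4, 3]) (.b 1 2 (.b 3 7 (.c [0, 1, 2, 5, 8, 7, 3, 4]) (.b 4 7
    (.c [0, 1, 2, 5, 8, 7, 4, 3]) (.b 1 5 (.b 1 8 (.k [1, 2, 5, 7, 8]) (.i [1, 3, 8])) (.i [1, 3,
    5])))) (.i [1, 2, 3])))))))))) (.b 1 4 (.b 2 3 (.c [0, 3, 2, 5, 8, 7, 1, 4]) (.b 3 5 (.c [0, 3,
    5, 2, 8, 7, 1, 4]) (.b 3 8 (.c [0, 3, 8, 2, 5, 7, 1, 4]) (.b 2 4 (.b 3 7 (.c [0, 1, 4, 2, 5, 8,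
    7, 3]) (.b 1 3 (.c [0, 3, 1, 7, 5, 8, 2, 4]) (.b 1 2 (.b 1 5 (.b 1 8 (.k [1, 2, 5, 7, 8]) (.i
    [1, 3, 8])) (.i [1, 3, 5])) (.i [1, 2, 3])))) (.i [2, 3, 4]))))) (.b 1 3 (.b 4 8 (.c [0, 3, 1,
    7, 2, 5, 8, 4]) (.b 4 5 (.c [0, 3, 1, 7, 2, 8, 5, 4]) (.b 2 4 (.c [0, 3, 1, 7, 5, 8, 2, 4]) (.b
    1 2 (.b 4 7 (.c [0, 3, 1, 2, 5, 8, 7, 4]) (.b 1 5 (.b 1 8 (.k [1, 2, 5, 7, 8]) (.i [1, 4, 8]))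
    (.i [1, 4, 5]))) (.i [1, 2, 4]))))) (.i [1, 3, 4])))) (.i [6, 7, 8])) (.i [2, 6, 8]))) (.i [5,
    6, 7])) (.i [2, 6, 7]))) (.i [2, 5, 6])))) (.b 7 8 (.b 6 7 (.b 1 3 (.b 4 6 (.b 3 5 (.c [0, 1, 3,
    5, 8, 7, 6, 4]) (.b 1 5 (.c [0, 3, 1, 5, 8, 7, 6, 4]) (.b 5 7 (.b 3 8 (.c [0, 1, 3, 8, 5, 7, 6,
    4]) (.b 1 8 (.c [0, 3, 1, 8, 5, 7, 6, 4]) (.b 2 5 (.b 1 2 (.c [0, 1, 2, 5, 8, 7, 6, 4]) (.b 2 3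
    (.c [0, 1, 3, 2, 5, 7, 6, 4]) (.b 3 4 (.c [0, 1, 3, 4, 6, 7, 5, 2]) (.b 3 6 (.c [0, 1, 3, 6, 7,
    8, 5, 2]) (.b 1 4 (.c [0, 1, 4, 6, 7, 8, 5, 2]) (.b 1 6 (.c [0, 2, 5, 8, 7, 6, 1, 3]) (.b 2 4
    (.b 3 7 (.c [0, 1, 3, 7, 8, 5, 2, 4]) (.b 2 6 (.b 2 7 (.b 2 8 (.b 4 5 (.b 4 7 (.b 5 6 (.k [2, 4,
    5, 6, 7]) (.i [1, 5, 6])) (.i [1, 4, 7])) (.i [1, 4, 5])) (.i [1, 2, 8])) (.i [1, 2, 7])) (.i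
    [1, 2, 6]))) (.i [1, 2, 4])))))))) (.b 1 2 (.b 2 8 (.c [0, 1, 2, 8, 5, 7, 6, 4]) (.b 2 3 (.b 4 8
    (.b 3 6 (.c [0, 1, 2, 3, 6, 7, 8, 4]) (.b 3 7 (.c [0, 1, 2, 3, 7, 5, 8, 4]) (.b 2 6 (.c [0, 1,
    2, 6, 7, 5, 8, 4]) (.b 2 7 (.c [0, 1, 3, 2, 7, 5, 8, 4]) (.b 1 6 (.c [0, 2, 1, 6, 7, 5, 8, 4])
    (.b 5 6 (.b 6 8 (.b 1 4 (.b 0 8 (.c [0, 2, 1, 4, 6, 5, 7, 8]) (.b 0 7 (.c [0, 2, 1, 4, 6, 5, 8,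
    7]) (.b 0 5 (.c [0, 2, 1, 4, 6, 7, 8, 5]) (.b 0 6 (.c [0, 2, 1, 4, 8, 5, 7, 6]) (.b 2 4 (.b 3 4
    (.k [0, 1, 2, 3, 4]) (.b 4 5 (.b 4 7 (.k [4, 5, 6, 7, 8]) (.i [3, 4, 7])) (.i [3, 4, 5]))) (.b 4
    5 (.b 4 7 (.k [4, 5, 6, 7, 8]) (.i [2, 4, 7])) (.i [2, 4, 5]))))))) (.b 4 5 (.b 4 7 (.k [4, 5,
    6, 7, 8]) (.i [1, 4, 7])) (.i [1, 4, 5]))) (.i [1, 6, 8])) (.i [1, 5, 6]))))))) (.b 1 4 (.b 0 8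
    (.c [0, 2, 1, 4, 6, 7, 5, 8]) (.b 0 5 (.c [0, 2, 1, 4, 6, 7, 8, 5]) (.b 2 4 (.b 3 4 (.k [0, 1,
    2, 3, 4]) (.i [3, 4, 8])) (.i [2, 4, 8])))) (.i [1, 4, 8]))) (.i [2, 3, 5]))) (.i [1, 2, 5])))))
    (.i [1, 5, 7])))) (.b 4 5 (.b 3 6 (.c [0, 1, 3, 6, 7, 8, 5, 4]) (.b 1 6 (.c [0, 3, 1, 6, 7, 8,
    5, 4]) (.b 1 4 (.b 2 6 (.c [0, 1, 4, 5, 8, 7, 6, 2]) (.b 2 7 (.c [0, 2, 7, 8, 5, 4, 1, 3]) (.b 0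
    6 (.c [0, 3, 1, 4, 5, 8, 7, 6]) (.b 1 2 (.b 3 7 (.c [0, 2, 1, 3, 7, 8, 5, 4]) (.b 2 3 (.b 0 7
    (.c [0, 2, 3, 1, 4, 5, 8, 7]) (.b 2 4 (.b 3 4 (.k [0, 1, 2, 3, 4]) (.i [3, 4, 6])) (.i [2, 4,
    6]))) (.i [2, 3, 6]))) (.i [1, 2, 6]))))) (.i [1, 4, 6])))) (.b 5 6 (.b 4 7 (.b 3 6 (.c [0, 1,
    3, 6, 5, 8, 7, 4]) (.b 3 8 (.c [0, 1, 3, 8, 5, 6, 7, 4]) (.b 1 6 (.c [0, 3, 1, 6, 5, 8, 7, 4])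
    (.b 1 8 (.c [0, 3, 1, 8, 5, 6, 7, 4]) (.b 1 4 (.b 2 8 (.c [0, 1, 4, 7, 6, 5, 8, 2]) (.b 2 6 (.c
    [0, 1, 4, 7, 8, 5, 6, 2]) (.b 2 5 (.c [0, 2, 5, 6, 7, 4, 1, 3]) (.b 0 8 (.c [0, 3, 1, 4, 7, 6,
    5, 8]) (.b 0 6 (.c [0, 3, 1, 4, 7, 8, 5, 6]) (.b 6 8 (.b 3 5 (.c [0, 1, 3, 5, 6, 8, 7, 4]) (.b 0
    5 (.c [0, 3, 1, 4, 7, 6, 8, 5]) (.b 1 5 (.c [0, 3, 1, 5, 6, 8, 7, 4]) (.b 1 2 (.b 5 7 (.b 2 3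
    (.b 2 4 (.b 3 4 (.k [0, 1, 2, 3, 4]) (.i [3, 4, 5])) (.i [2, 4, 5])) (.i [2, 3, 5])) (.i [1, 5,
    7])) (.i [1, 2, 5]))))) (.i [0, 6, 8]))))))) (.i [1, 4, 6])))))) (.b 1 4 (.b 5 7 (.b 4 8 (.b 3 5
    (.c [0, 1, 3, 5, 6, 7, 8, 4]) (.b 3 6 (.c [0, 1, 3, 6, 5, 7, 8, 4]) (.b 3 7 (.c [0, 1, 3, 7, 6,
    5, 8, 4]) (.b 2 7 (.c [0, 1, 4, 8, 5, 6, 7, 2]) (.b 2 6 (.c [0, 1, 4, 8, 5, 7, 6, 2]) (.b 2 5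
    (.c [0, 1, 4, 8, 7, 6, 5, 2]) (.b 0 7 (.c [0, 3, 1, 4, 8, 5, 6, 7]) (.b 0 6 (.c [0, 3, 1, 4, 8,
    5, 7, 6]) (.b 0 5 (.c [0, 3, 1, 4, 8, 7, 6, 5]) (.b 1 5 (.c [0, 3, 1, 5, 6, 7, 8, 4]) (.b 1 6
    (.c [0, 3, 1, 6, 5, 7, 8, 4]) (.b 1 2 (.b 2 3 (.b 2 4 (.b 3 4 (.k [0, 1, 2, 3, 4]) (.i [3, 4,
    5])) (.i [2, 4, 5])) (.i [2, 3, 5])) (.i [1, 2, 5]))))))))))))) (.b 6 8 (.b 3 7 (.b 2 8 (.c [0,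
    1, 3, 7, 5, 6, 8, 2]) (.b 2 6 (.c [0, 1, 3, 7, 5, 8, 6, 2]) (.b 2 5 (.c [0, 1, 3, 7, 6, 8, 5,
    2]) (.b 1 8 (.c [0, 3, 7, 5, 6, 8, 1, 4]) (.b 1 6 (.c [0, 3, 7, 5, 8, 6, 1, 4]) (.b 1 5 (.c [0,
    3, 7, 6, 8, 5, 1, 4]) (.b 0 8 (.c [0, 4, 1, 3, 7, 5, 6, 8]) (.b 0 6 (.c [0, 4, 1, 3, 7, 5, 8,
    6]) (.b 0 5 (.c [0, 4, 1, 3, 7, 6, 8, 5]) (.b 1 2 (.b 2 4 (.b 2 7 (.b 3 8 (.c [0, 1, 2, 7, 5, 6,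
    8, 3]) (.b 3 6 (.c [0, 1, 2, 7, 5, 8, 6, 3]) (.b 3 5 (.c [0, 1, 2, 7, 6, 8, 5, 3]) (.b 2 3 (.b 3
    4 (.k [0, 1, 2, 3, 4]) (.i [3, 4, 5])) (.i [2, 3, 5]))))) (.b 0 7 (.b 3 5 (.c [0, 2, 1, 3, 5, 6,
    8, 7]) (.b 3 6 (.c [0, 2, 1, 3, 6, 5, 8, 7]) (.b 3 8 (.c [0, 2, 1, 3, 8, 5, 6, 7]) (.b 2 3 (.b 3
    4 (.k [0, 1, 2, 3, 4]) (.i [3, 4, 5])) (.i [2, 3, 5]))))) (.b 2 3 (.b 3 4 (.k [0, 1, 2, 3, 4])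
    (.b 3 5 (.b 3 6 (.b 3 8 (.k [3, 5, 6, 7, 8]) (.i [3, 4, 8])) (.i [3, 4, 6])) (.i [3, 4, 5])))
    (.b 3 5 (.b 3 6 (.b 3 8 (.k [3, 5, 6, 7, 8]) (.i [2, 3, 8])) (.i [2, 3, 6])) (.i [2, 3, 5])))))
    (.i [2, 4, 5])) (.i [1, 2, 5]))))))))))) (.b 3 4 (.b 2 7 (.b 3 5 (.c [0, 1, 3, 5, 6, 8, 7, 2])
    (.b 3 6 (.c [0, 1, 3, 6, 5, 8, 7, 2]) (.b 3 8 (.c [0, 1, 3, 8, 5, 6, 7, 2]) (.b 1 6 (.c [0, 2,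
    7, 5, 6, 1, 3, 4]) (.b 1 8 (.c [0, 2, 7, 5, 6, 8, 1, 3]) (.b 1 5 (.c [0, 2, 7, 6, 5, 1, 3, 4])
    (.b 2 3 (.b 0 8 (.c [0, 1, 3, 2, 7, 5, 6, 8]) (.b 0 6 (.c [0, 1, 3, 2, 7, 5, 8, 6]) (.b 0 5 (.c
    [0, 1, 3, 2, 7, 6, 8, 5]) (.b 0 7 (.b 2 5 (.c [0, 1, 3, 2, 5, 6, 8, 7]) (.b 2 6 (.c [0, 1, 3, 2,
    6, 5, 8, 7]) (.b 2 8 (.c [0, 1, 3, 2, 8, 5, 6, 7]) (.b 1 2 (.b 2 4 (.k [0, 1, 2, 3, 4]) (.i [2,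
    4, 5])) (.i [1, 2, 5]))))) (.b 2 4 (.b 1 2 (.k [0, 1, 2, 3, 4]) (.b 2 5 (.b 2 6 (.b 2 8 (.k [2,
    5, 6, 7, 8]) (.i [1, 2, 8])) (.i [1, 2, 6])) (.i [1, 2, 5]))) (.b 2 5 (.b 2 6 (.b 2 8 (.k [2, 5,
    6, 7, 8]) (.i [2, 4, 8])) (.i [2, 4, 6])) (.i [2, 4, 5]))))))) (.b 2 5 (.b 2 6 (.b 2 8 (.k [2,
    5, 6, 7, 8]) (.i [2, 3, 8])) (.i [2, 3, 6])) (.i [2, 3, 5]))))))))) (.b 1 2 (.b 2 3 (.b 2 4 (.k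
    [0, 1, 2, 3, 4]) (.i [2, 4, 7])) (.i [2, 3, 7])) (.i [1, 2, 7]))) (.i [3, 4, 7]))) (.i [4, 6,
    8]))) (.i [4, 5, 7])) (.i [1, 4, 7]))) (.i [4, 5, 6])))) (.b 3 7 (.b 1 4 (.b 1 5 (.b 2 3 (.c [0,
    2, 3, 7, 8, 5, 1, 4]) (.b 2 4 (.c [0, 2, 4, 1, 5, 8, 7, 3]) (.b 2 6 (.c [0, 2, 6, 7, 8, 5, 1,
    4]) (.b 3 6 (.c [0, 3, 6, 7, 8, 5, 1, 4]) (.i [2, 3, 6]))))) (.b 3 5 (.b 4 6 (.c [0, 1, 4, 6, 7,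
    8, 5, 3]) (.b 1 6 (.c [0, 3, 5, 8, 7, 6, 1, 4]) (.b 3 6 (.b 4 5 (.c [0, 1, 4, 5, 8, 7, 6, 3])
    (.b 5 6 (.b 4 7 (.c [0, 1, 4, 7, 8, 5, 6, 3]) (.b 4 8 (.c [0, 1, 4, 8, 5, 6, 7, 3]) (.b 1 8 (.c
    [0, 3, 5, 6, 7, 8, 1, 4]) (.b 3 8 (.b 5 7 (.b 6 8 (.k [3, 5, 6, 7, 8]) (.i [1, 6, 8])) (.i [1,
    5, 7])) (.i [1, 3, 8]))))) (.i [1, 5, 6]))) (.i [1, 3, 6])))) (.i [1, 3, 5]))) (.b 3 4 (.b 4 7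
    (.b 1 5 (.b 6 8 (.c [0, 1, 5, 8, 6, 7, 3, 4]) (.b 2 4 (.c [0, 1, 5, 8, 7, 3, 4, 2]) (.b 2 3 (.c
    [0, 1, 5, 8, 7, 4, 3, 2]) (.b 3 6 (.c [0, 1, 5, 8, 7, 6, 3, 4]) (.b 4 6 (.c [0, 1, 5, 8, 7, 6,
    4, 3]) (.b 1 2 (.c [0, 2, 1, 5, 8, 7, 3, 4]) (.i [1, 2, 3]))))))) (.b 3 5 (.b 1 6 (.c [0, 1, 6,
    7, 8, 5, 3, 4]) (.b 2 6 (.c [0, 2, 6, 7, 8, 5, 3, 4]) (.b 1 2 (.b 2 3 (.c [0, 1, 2, 3, 5, 8, 7,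
    4]) (.b 2 4 (.c [0, 1, 2, 4, 7, 8, 5, 3]) (.b 2 5 (.c [0, 1, 2, 5, 8, 7, 3, 4]) (.b 2 7 (.c [0,
    1, 2, 7, 8, 5, 3, 4]) (.b 2 8 (.c [0, 1, 2, 8, 5, 3, 7, 4]) (.b 1 8 (.c [0, 2, 1, 8, 5, 3, 7,
    4]) (.b 3 6 (.b 3 8 (.b 4 5 (.b 4 6 (.b 4 8 (.b 5 7 (.k [3, 4, 5, 7, 8]) (.i [1, 5, 7])) (.i [1,
    4, 8])) (.i [1, 4, 6])) (.i [1, 4, 5])) (.i [1, 3, 8])) (.i [1, 3, 6])))))))) (.i [1, 2, 6]))))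
    (.i [1, 3, 5]))) (.i [1, 4, 7])) (.i [1, 3, 4]))) (.i [1, 3, 7]))) (.b 1 6 (.b 3 7 (.b 5 6 (.b 2
    3 (.c [0, 1, 6, 5, 8, 7, 3, 2]) (.b 3 4 (.c [0, 1, 6, 5, 8, 7, 3, 4]) (.b 1 2 (.c [0, 2, 1, 6,
    5, 8, 7, 3]) (.b 1 4 (.c [0, 3, 7, 8, 5, 6, 1, 4]) (.b 1 3 (.b 2 6 (.c [0, 1, 3, 7, 8, 5, 6, 2])
    (.b 4 6 (.c [0, 1, 3, 7, 8, 5, 6, 4]) (.b 2 7 (.c [0, 2, 7, 8, 5, 6, 1, 3]) (.i [1, 2, 7]))))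
    (.i [1, 2, 3])))))) (.b 5 7 (.b 4 6 (.b 4 5 (.c [0, 1, 6, 4, 5, 8, 7, 3]) (.b 4 8 (.c [0, 1, 6,
    4, 8, 5, 7, 3]) (.b 1 8 (.c [0, 3, 7, 5, 8, 1, 6, 4]) (.b 1 5 (.c [0, 3, 7, 8, 5, 1, 6, 4]) (.b
    1 4 (.b 6 8 (.c [0, 1, 4, 6, 8, 5, 7, 3]) (.b 2 8 (.b 2 4 (.c [0, 1, 4, 2, 8, 5, 7, 3]) (.b 3 4
    (.c [0, 1, 4, 3, 7, 5, 8, 2]) (.b 2 6 (.c [0, 1, 4, 6, 2, 8, 7, 3]) (.b 3 6 (.c [0, 1, 4, 6, 3,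
    7, 8, 2]) (.b 4 7 (.c [0, 1, 6, 4, 7, 5, 8, 2]) (.b 1 3 (.c [0, 2, 8, 5, 7, 3, 1, 4]) (.b 1 2
    (.c [0, 3, 7, 5, 8, 2, 1, 4]) (.b 2 3 (.b 2 5 (.b 2 7 (.b 3 5 (.b 3 8 (.k [2, 3, 5, 7, 8]) (.i
    [1, 3, 8])) (.i [1, 3, 5])) (.i [1, 2, 7])) (.i [1, 2, 5])) (.i [1, 2, 3]))))))))) (.b 1 2 (.b 2
    5 (.c [0, 3, 7, 5, 2, 1, 6, 4]) (.b 2 4 (.b 2 6 (.b 0 6 (.k [0, 1, 2, 4, 6]) (.b 0 5 (.b 3 4 (.c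
    [0, 1, 2, 4, 3, 7, 8, 5]) (.b 3 6 (.c [0, 1, 2, 4, 6, 3, 7, 5]) (.b 4 7 (.c [0, 1, 2, 6, 4, 7,
    8, 5]) (.b 2 3 (.c [0, 1, 4, 2, 3, 7, 8, 5]) (.b 2 7 (.c [0, 1, 4, 6, 2, 7, 8, 5]) (.b 1 3 (.c
    [0, 2, 4, 1, 3, 7, 8, 5]) (.b 0 7 (.b 0 8 (.b 3 5 (.b 3 8 (.k [0, 3, 5, 7, 8]) (.i [1, 3, 8]))
    (.i [1, 3, 5])) (.i [0, 6, 8])) (.i [0, 6, 7])))))))) (.i [0, 5, 6]))) (.i [2, 5, 6])) (.i [2,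
    4, 5]))) (.i [1, 2, 8])))) (.i [1, 4, 5])))))) (.b 4 5 (.b 3 6 (.c [0, 1, 6, 3, 7, 8, 5, 4]) (.b
    3 4 (.b 6 8 (.c [0, 1, 6, 8, 5, 7, 3, 4]) (.b 3 5 (.b 3 8 (.b 4 7 (.b 4 8 (.k [3, 4, 5, 7, 8])
    (.i [4, 6, 8])) (.i [4, 6, 7])) (.i [3, 6, 8])) (.i [3, 5, 6]))) (.i [3, 4, 6]))) (.i [4, 5,
    6]))) (.i [5, 6, 7]))) (.b 1 3 (.b 3 6 (.b 4 7 (.b 5 6 (.c [0, 1, 3, 6, 5, 8, 7, 4]) (.b 3 5 (.c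
    [0, 1, 6, 3, 5, 8, 7, 4]) (.b 1 5 (.c [0, 3, 6, 1, 5, 8, 7, 4]) (.b 5 7 (.b 6 8 (.c [0, 1, 3, 6,
    8, 5, 7, 4]) (.b 3 8 (.c [0, 1, 6, 3, 8, 5, 7, 4]) (.b 1 8 (.c [0, 3, 6, 1, 8, 5, 7, 4]) (.b 2 8
    (.b 2 3 (.c [0, 1, 3, 2, 8, 5, 7, 4]) (.b 3 4 (.c [0, 1, 3, 4, 7, 5, 8, 2]) (.b 2 6 (.c [0, 1,
    3, 6, 2, 8, 7, 4]) (.b 4 6 (.c [0, 1, 3, 6, 4, 7, 8, 2]) (.b 1 4 (.c [0, 2, 8, 5, 7, 4, 1, 3])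
    (.b 1 2 (.c [0, 3, 1, 2, 8, 5, 7, 4]) (.b 2 4 (.b 2 5 (.b 2 7 (.b 4 5 (.b 4 8 (.k [2, 4, 5, 7,
    8]) (.i [1, 4, 8])) (.i [1, 4, 5])) (.i [1, 2, 7])) (.i [1, 2, 5])) (.i [1, 2, 4])))))))) (.b 1
    2 (.b 2 5 (.c [0, 3, 1, 2, 5, 8, 7, 4]) (.b 2 3 (.b 2 6 (.b 0 6 (.k [0, 1, 2, 3, 6]) (.b 0 5 (.b
    3 4 (.c [0, 1, 2, 3, 4, 7, 8, 5]) (.b 4 6 (.c [0, 1, 2, 3, 6, 4, 7, 5]) (.b 2 4 (.c [0, 1, 3, 2,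
    4, 7, 8, 5]) (.b 2 7 (.c [0, 1, 3, 6, 2, 7, 8, 5]) (.b 1 4 (.c [0, 2, 3, 1, 4, 7, 8, 5]) (.b 0 7
    (.b 0 8 (.b 4 5 (.b 4 8 (.k [0, 4, 5, 7, 8]) (.i [1, 4, 8])) (.i [1, 4, 5])) (.i [0, 6, 8])) (.i
    [0, 6, 7]))))))) (.i [0, 5, 6]))) (.i [2, 5, 6])) (.i [2, 3, 5]))) (.i [1, 2, 8])))))) (.i [1,
    5, 7]))))) (.b 1 4 (.b 3 4 (.b 4 6 (.b 0 6 (.k [0, 1, 3, 4, 6]) (.b 0 7 (.b 5 6 (.c [0, 1, 3, 4,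
    6, 5, 8, 7]) (.b 4 5 (.c [0, 1, 3, 6, 4, 5, 8, 7]) (.b 3 5 (.c [0, 1, 4, 6, 3, 5, 8, 7]) (.b 1 5
    (.c [0, 3, 4, 6, 1, 5, 8, 7]) (.b 0 5 (.b 5 7 (.b 6 8 (.c [0, 1, 3, 4, 6, 8, 5, 7]) (.b 4 8 (.c
    [0, 1, 3, 6, 4, 8, 5, 7]) (.b 3 8 (.c [0, 1, 4, 6, 3, 8, 5, 7]) (.b 1 8 (.c [0, 3, 4, 6, 1, 8,
    5, 7]) (.b 0 8 (.b 2 7 (.b 2 4 (.c [0, 1, 3, 4, 2, 7, 5, 8]) (.b 2 6 (.c [0, 1, 3, 4, 6, 2, 7,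
    5]) (.b 2 3 (.c [0, 1, 4, 3, 2, 7, 5, 8]) (.b 1 2 (.c [0, 3, 4, 1, 2, 7, 5, 8]) (.b 2 5 (.b 2 8
    (.k [0, 2, 5, 7, 8]) (.i [1, 2, 8])) (.i [1, 2, 5])))))) (.b 1 2 (.b 2 5 (.c [0, 3, 4, 1, 2, 5,
    7, 8]) (.b 2 8 (.c [0, 3, 4, 1, 2, 8, 5, 7]) (.b 2 3 (.b 2 4 (.k [0, 1, 2, 3, 4]) (.i [2, 4,
    5])) (.i [2, 3, 5])))) (.i [1, 2, 7]))) (.i [0, 6, 8])))))) (.i [1, 5, 7])) (.i [0, 5, 6]))))))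
    (.i [0, 6, 7]))) (.i [4, 6, 7])) (.i [3, 4, 7])) (.i [1, 4, 7]))) (.i [3, 6, 7])) (.i [1, 3,
    7]))) (.i [1, 6, 7]))) (.b 1 8 (.b 3 7 (.b 6 7 (.b 5 6 (.b 2 3 (.c [0, 1, 8, 5, 6, 7, 3, 2]) (.b
    3 4 (.c [0, 1, 8, 5, 6, 7, 3, 4]) (.b 1 2 (.c [0, 2, 1, 8, 5, 6, 7, 3]) (.b 1 4 (.c [0, 3, 7, 6,
    5, 8, 1, 4]) (.b 1 3 (.b 2 8 (.c [0, 1, 3, 7, 6, 5, 8, 2]) (.b 4 8 (.c [0, 1, 3, 7, 6, 5, 8, 4])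
    (.b 2 7 (.c [0, 2, 7, 6, 5, 8, 1, 3]) (.i [1, 2, 7])))) (.i [1, 2, 3])))))) (.b 2 5 (.b 2 6 (.c
    [0, 1, 8, 5, 2, 6, 7, 3]) (.b 1 6 (.c [0, 2, 5, 8, 1, 6, 7, 3]) (.b 1 2 (.b 6 8 (.c [0, 1, 2, 5,
    8, 6, 7, 3]) (.b 1 5 (.b 2 8 (.b 4 6 (.b 3 5 (.c [0, 1, 2, 5, 3, 7, 6, 4]) (.b 4 5 (.c [0, 1, 2,
    5, 4, 6, 7, 3]) (.b 3 8 (.c [0, 1, 2, 8, 3, 7, 6, 4]) (.b 4 8 (.c [0, 1, 2, 8, 4, 6, 7, 3]) (.b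
    5 7 (.c [0, 1, 2, 8, 5, 7, 6, 4]) (.b 2 3 (.c [0, 1, 5, 2, 3, 7, 6, 4]) (.b 2 4 (.c [0, 1, 5, 2,
    4, 6, 7, 3]) (.b 2 7 (.c [0, 1, 5, 8, 2, 7, 6, 4]) (.b 1 3 (.c [0, 2, 5, 1, 3, 7, 6, 4]) (.b 1 4
    (.c [0, 2, 5, 1, 4, 6, 7, 3]) (.b 3 4 (.b 3 6 (.b 4 7 (.b 0 7 (.b 0 6 (.k [0, 3, 4, 6, 7]) (.b 0
    5 (.b 0 8 (.k [0, 1, 2, 5, 8]) (.i [0, 6, 8])) (.i [0, 5, 6]))) (.b 0 5 (.b 0 8 (.k [0, 1, 2, 5,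
    8]) (.i [0, 7, 8])) (.i [0, 5, 7]))) (.i [1, 4, 7])) (.i [1, 3, 6])) (.i [1, 3, 4]))))))))))))
    (.b 1 4 (.b 4 7 (.c [0, 2, 5, 8, 1, 4, 7, 3]) (.b 2 7 (.c [0, 3, 7, 2, 5, 8, 1, 4]) (.b 5 7 (.c
    [0, 3, 7, 5, 2, 8, 1, 4]) (.b 2 4 (.b 4 5 (.b 0 5 (.k [0, 1, 2, 4, 5]) (.b 4 8 (.k [1, 2, 4, 5,
    8]) (.i [4, 6, 8]))) (.i [4, 5, 6])) (.i [2, 4, 6]))))) (.i [1, 4, 6]))) (.i [2, 6, 8])) (.i [1,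
    5, 6]))) (.i [1, 2, 6])))) (.b 2 6 (.b 3 5 (.c [0, 1, 8, 5, 3, 7, 6, 2]) (.b 2 3 (.b 5 7 (.c [0,
    1, 8, 5, 7, 6, 2, 3]) (.b 1 5 (.b 2 8 (.c [0, 1, 5, 8, 2, 6, 7, 3]) (.b 3 8 (.c [0, 1, 5, 8, 3,
    7, 6, 2]) (.b 6 8 (.c [0, 1, 5, 8, 6, 7, 3, 2]) (.b 2 7 (.b 3 6 (.b 4 5 (.b 2 4 (.c [0, 1, 5, 4,
    2, 6, 7, 3]) (.b 3 4 (.c [0, 1, 5, 4, 3, 6, 7, 2]) (.b 4 6 (.c [0, 1, 5, 4, 6, 2, 7, 3]) (.b 4 7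
    (.c [0, 1, 5, 4, 7, 2, 6, 3]) (.b 1 6 (.c [0, 2, 3, 6, 1, 8, 5, 4]) (.b 1 3 (.c [0, 2, 6, 3, 1,
    8, 5, 4]) (.b 1 2 (.c [0, 3, 6, 2, 1, 8, 5, 4]) (.b 1 4 (.b 4 8 (.b 0 6 (.b 0 7 (.k [0, 2, 3, 6,
    7]) (.b 0 5 (.b 0 8 (.k [0, 1, 4, 5, 8]) (.i [0, 7, 8])) (.i [0, 5, 7]))) (.b 0 5 (.b 0 8 (.k
    [0, 1, 4, 5, 8]) (.i [0, 6, 8])) (.i [0, 5, 6]))) (.i [2, 4, 8])) (.i [1, 2, 4]))))))))) (.b 2 4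
    (.b 4 8 (.c [0, 1, 5, 8, 4, 2, 6, 3]) (.b 3 4 (.b 4 6 (.b 0 6 (.k [0, 2, 3, 4, 6]) (.b 4 7 (.k
    [2, 3, 4, 6, 7]) (.i [4, 5, 7]))) (.i [4, 5, 6])) (.i [3, 4, 5]))) (.i [2, 4, 5]))) (.i [3, 5,
    6])) (.i [2, 5, 7]))))) (.i [1, 5, 7]))) (.i [2, 3, 5]))) (.i [2, 5, 6])))) (.b 1 6 (.b 6 8 (.b
    5 7 (.b 2 3 (.c [0, 1, 6, 8, 5, 7, 3, 2]) (.b 3 4 (.c [0, 1, 6, 8, 5, 7, 3, 4]) (.b 1 2 (.c [0,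
    2, 1, 6, 8, 5, 7, 3]) (.b 2 6 (.c [0, 2, 6, 1, 8, 5, 7, 3]) (.b 4 6 (.c [0, 3, 7, 5, 8, 1, 6,
    4]) (.b 1 4 (.c [0, 3, 7, 5, 8, 6, 1, 4]) (.b 1 3 (.b 2 7 (.c [0, 2, 7, 5, 8, 6, 1, 3]) (.i [1,
    2, 7])) (.i [1, 2, 3])))))))) (.b 1 5 (.b 5 6 (.b 4 7 (.b 3 8 (.c [0, 1, 5, 6, 8, 3, 7, 4]) (.b
    4 8 (.c [0, 1, 5, 6, 8, 4, 7, 3]) (.b 3 6 (.c [0, 1, 5, 8, 6, 3, 7, 4]) (.b 4 6 (.c [0, 1, 5, 8,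
    6, 4, 7, 3]) (.b 3 5 (.c [0, 1, 6, 8, 5, 3, 7, 4]) (.b 4 5 (.c [0, 1, 6, 8, 5, 4, 7, 3]) (.b 3 4
    (.b 2 7 (.b 2 6 (.c [0, 1, 5, 6, 2, 7, 3, 4]) (.b 2 8 (.c [0, 1, 5, 6, 8, 2, 7, 3]) (.b 2 5 (.c
    [0, 1, 6, 5, 2, 7, 3, 4]) (.b 2 3 (.b 2 4 (.b 0 7 (.k [0, 2, 3, 4, 7]) (.b 0 5 (.b 1 4 (.c [0,
    2, 3, 4, 1, 6, 8, 5]) (.b 1 3 (.c [0, 2, 4, 3, 1, 6, 8, 5]) (.b 1 2 (.c [0, 3, 4, 2, 1, 6, 8,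
    5]) (.b 0 6 (.b 0 8 (.k [0, 1, 5, 6, 8]) (.i [0, 7, 8])) (.i [0, 6, 7]))))) (.i [0, 5, 7]))) (.i
    [2, 4, 5])) (.i [2, 3, 5]))))) (.b 1 2 (.b 2 5 (.b 2 3 (.c [0, 1, 6, 5, 2, 3, 7, 4]) (.b 2 4 (.c
    [0, 1, 6, 5, 2, 4, 7, 3]) (.b 1 3 (.c [0, 2, 5, 6, 1, 3, 7, 4]) (.b 1 4 (.c [0, 2, 5, 6, 1, 4,
    7, 3]) (.b 2 6 (.b 2 8 (.k [1, 2, 5, 6, 8]) (.i [2, 3, 8])) (.i [2, 3, 6])))))) (.i [2, 5, 7]))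
    (.i [1, 2, 7]))) (.i [3, 4, 5])))))))) (.b 1 4 (.b 4 5 (.b 4 6 (.b 4 8 (.k [1, 4, 5, 6, 8]) (.i
    [4, 7, 8])) (.i [4, 6, 7])) (.i [4, 5, 7])) (.i [1, 4, 7]))) (.i [5, 6, 7])) (.i [1, 5, 7])))
    (.i [6, 7, 8])) (.i [1, 6, 7]))) (.b 1 3 (.b 3 8 (.b 2 7 (.b 4 7 (.b 2 5 (.c [0, 1, 3, 8, 5, 2,
    7, 4]) (.b 4 5 (.c [0, 1, 3, 8, 5, 4, 7, 2]) (.b 2 4 (.b 5 7 (.c [0, 1, 3, 8, 5, 7, 2, 4]) (.b 1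
    5 (.b 2 3 (.c [0, 1, 5, 8, 3, 2, 7, 4]) (.b 3 4 (.c [0, 1, 5, 8, 3, 4, 7, 2]) (.b 1 4 (.c [0, 2,
    7, 4, 1, 5, 8, 3]) (.b 4 8 (.c [0, 2, 7, 4, 8, 5, 1, 3]) (.b 2 8 (.c [0, 3, 1, 5, 8, 2, 7, 4])
    (.b 1 2 (.c [0, 3, 8, 5, 1, 2, 7, 4]) (.b 3 5 (.b 6 7 (.b 5 6 (.c [0, 1, 3, 5, 6, 7, 2, 4]) (.b
    6 8 (.c [0, 1, 3, 5, 8, 6, 7, 2]) (.b 3 6 (.c [0, 1, 5, 3, 6, 7, 2, 4]) (.b 1 6 (.c [0, 2, 4, 7,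
    6, 1, 5, 3]) (.b 2 6 (.b 4 6 (.b 0 6 (.b 0 7 (.k [0, 2, 4, 6, 7]) (.b 0 5 (.b 0 8 (.k [0, 1, 3,
    5, 8]) (.i [0, 7, 8])) (.i [0, 5, 7]))) (.b 0 5 (.b 0 8 (.k [0, 1, 3, 5, 8]) (.i [0, 6, 8])) (.i
    [0, 5, 6]))) (.i [1, 4, 6])) (.i [1, 2, 6])))))) (.b 1 6 (.b 4 6 (.c [0, 2, 4, 6, 1, 5, 8, 3])
    (.b 2 6 (.c [0, 3, 5, 1, 6, 2, 7, 4]) (.b 3 6 (.b 5 6 (.b 6 8 (.k [1, 3, 5, 6, 8]) (.i [2, 6,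
    8])) (.i [2, 5, 6])) (.i [2, 3, 6])))) (.i [1, 6, 7]))) (.i [2, 3, 5])))))))) (.i [1, 5, 7])))
    (.i [2, 4, 5])))) (.b 1 4 (.b 5 7 (.c [0, 2, 7, 5, 8, 3, 1, 4]) (.b 1 5 (.b 3 4 (.b 3 5 (.b 4 5
    (.b 0 5 (.k [0, 1, 3, 4, 5]) (.b 4 8 (.k [1, 3, 4, 5, 8]) (.i [4, 7, 8]))) (.i [4, 5, 7])) (.i
    [3, 5, 7])) (.i [3, 4, 7])) (.i [1, 5, 7]))) (.i [1, 4, 7]))) (.b 1 2 (.b 2 3 (.b 2 8 (.b 0 8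
    (.k [0, 1, 2, 3, 8]) (.b 0 7 (.b 5 7 (.b 4 7 (.c [0, 1, 2, 3, 8, 5, 7, 4]) (.b 1 4 (.c [0, 4, 1,
    2, 3, 8, 5, 7]) (.i [1, 4, 7]))) (.b 1 5 (.b 2 5 (.b 3 5 (.k [1, 2, 3, 5, 8]) (.i [3, 5, 7]))
    (.i [2, 5, 7])) (.i [1, 5, 7]))) (.i [0, 7, 8]))) (.i [2, 7, 8])) (.i [2, 3, 7])) (.i [1, 2,
    7]))) (.i [3, 7, 8])) (.i [1, 3, 7]))) (.i [1, 7, 8])))) (.b 5 6 (.b 4 8 (.b 3 8 (.b 2 5 (.b 1 6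
    (.b 2 3 (.c [0, 1, 6, 5, 2, 3, 8, 4]) (.b 2 4 (.c [0, 1, 6, 5, 2, 4, 8, 3]) (.b 1 3 (.c [0, 2,
    5, 6, 1, 3, 8, 4]) (.b 1 4 (.c [0, 2, 5, 6, 1, 4, 8, 3]) (.b 1 2 (.b 3 6 (.c [0, 1, 2, 5, 6, 3,
    8, 4]) (.b 4 6 (.c [0, 1, 2, 5, 6, 4, 8, 3]) (.b 3 5 (.c [0, 2, 1, 6, 5, 3, 8, 4]) (.b 4 5 (.c
    [0, 2, 1, 6, 5, 4, 8, 3]) (.b 3 4 (.b 6 8 (.c [0, 1, 2, 5, 6, 8, 3, 4]) (.b 2 8 (.c [0, 1, 6, 5,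
    2, 8, 3, 4]) (.b 1 8 (.c [0, 2, 5, 6, 1, 8, 3, 4]) (.b 1 5 (.b 2 6 (.b 7 8 (.b 6 7 (.c [0, 1, 2,
    5, 6, 7, 8, 3]) (.b 5 7 (.c [0, 1, 2, 5, 7, 8, 3, 4]) (.b 2 7 (.c [0, 1, 5, 2, 7, 8, 3, 4]) (.b
    1 7 (.c [0, 2, 5, 1, 7, 8, 3, 4]) (.b 3 7 (.b 4 7 (.b 0 5 (.b 0 6 (.k [0, 1, 2, 5, 6]) (.b 0 7
    (.b 0 8 (.k [0, 3, 4, 7, 8]) (.i [0, 6, 8])) (.i [0, 6, 7]))) (.b 0 7 (.b 0 8 (.k [0, 3, 4, 7,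
    8]) (.i [0, 5, 8])) (.i [0, 5, 7]))) (.i [1, 4, 7])) (.i [1, 3, 7])))))) (.b 1 7 (.b 3 7 (.c [0,
    2, 5, 1, 7, 3, 8, 4]) (.b 4 7 (.c [0, 2, 5, 1, 7, 4, 8, 3]) (.b 2 7 (.b 5 7 (.b 6 7 (.k [1, 2,
    5, 6, 7]) (.i [3, 6, 7])) (.i [3, 5, 7])) (.i [2, 3, 7])))) (.i [1, 7, 8]))) (.i [2, 3, 6])) (.i
    [1, 3, 5]))))) (.i [1, 3, 4])))))) (.i [1, 2, 3])))))) (.b 6 7 (.b 3 7 (.c [0, 2, 5, 6, 7, 3, 8,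
    4]) (.b 4 7 (.c [0, 2, 5, 6, 7, 4, 8, 3]) (.b 3 4 (.b 7 8 (.c [0, 2, 5, 6, 7, 8, 3, 4]) (.b 5 7
    (.b 3 6 (.c [0, 2, 5, 7, 6, 3, 8, 4]) (.b 4 6 (.c [0, 2, 5, 7, 6, 4, 8, 3]) (.b 6 8 (.c [0, 2,
    5, 7, 6, 8, 3, 4]) (.b 1 3 (.b 1 7 (.c [0, 2, 5, 6, 7, 1, 3, 4]) (.b 1 4 (.b 1 8 (.b 0 8 (.k [0,
    1, 3, 4, 8]) (.b 0 5 (.b 0 6 (.b 2 4 (.c [0, 1, 3, 4, 2, 5, 7, 6]) (.b 2 8 (.c [0, 1, 3, 4, 8,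
    2, 5, 6]) (.b 4 5 (.c [0, 1, 3, 8, 4, 5, 7, 6]) (.b 2 3 (.c [0, 1, 4, 3, 2, 5, 7, 6]) (.b 3 5
    (.c [0, 1, 4, 8, 3, 5, 7, 6]) (.b 1 2 (.c [0, 3, 4, 1, 2, 5, 7, 6]) (.b 1 5 (.c [0, 3, 4, 8, 1,
    5, 7, 6]) (.b 0 7 (.b 2 6 (.b 2 7 (.k [0, 2, 5, 6, 7]) (.i [1, 2, 7])) (.i [1, 2, 6])) (.i [0,
    7, 8]))))))))) (.i [0, 6, 8])) (.i [0, 5, 8]))) (.i [1, 6, 8])) (.i [1, 4, 6]))) (.i [1, 3,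
    6]))))) (.i [5, 7, 8]))) (.i [3, 4, 7])))) (.b 1 7 (.b 5 7 (.b 2 3 (.c [0, 1, 7, 5, 2, 3, 8, 4])
    (.b 2 4 (.c [0, 1, 7, 5, 2, 4, 8, 3]) (.b 3 6 (.c [0, 1, 7, 5, 6, 3, 8, 4]) (.b 4 6 (.c [0, 1,
    7, 5, 6, 4, 8, 3]) (.b 1 3 (.c [0, 2, 5, 7, 1, 3, 8, 4]) (.i [1, 3, 6])))))) (.b 7 8 (.b 3 6 (.c
    [0, 1, 7, 8, 3, 6, 5, 2]) (.b 4 6 (.c [0, 1, 7, 8, 4, 6, 5, 2]) (.b 1 3 (.b 3 5 (.c [0, 2, 5, 3,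
    1, 7, 8, 4]) (.b 4 5 (.c [0, 2, 5, 4, 8, 7, 1, 3]) (.b 6 8 (.c [0, 2, 5, 6, 8, 7, 1, 3]) (.b 1 4
    (.b 1 8 (.b 3 4 (.b 1 5 (.c [0, 2, 5, 1, 7, 8, 3, 4]) (.b 0 8 (.k [0, 1, 3, 4, 8]) (.b 0 5 (.b 2
    7 (.c [0, 1, 3, 4, 8, 7, 2, 5]) (.b 2 4 (.c [0, 1, 7, 8, 3, 4, 2, 5]) (.b 2 3 (.c [0, 1, 7, 8,
    4, 3, 2, 5]) (.b 2 8 (.c [0, 3, 4, 1, 7, 8, 2, 5]) (.b 1 2 (.c [0, 3, 4, 8, 7, 1, 2, 5]) (.b 0 6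
    (.b 2 6 (.b 3 7 (.b 4 7 (.k [1, 3, 4, 7, 8]) (.i [2, 4, 7])) (.i [2, 3, 7])) (.i [1, 2, 6])) (.i
    [0, 6, 8]))))))) (.i [0, 5, 8])))) (.i [3, 4, 5])) (.i [1, 6, 8])) (.i [1, 4, 6]))))) (.i [1, 3,
    6])))) (.i [5, 7, 8]))) (.i [1, 6, 7])))) (.b 2 8 (.b 1 5 (.b 2 6 (.b 2 3 (.c [0, 1, 5, 6, 2, 3,
    8, 4]) (.b 2 4 (.c [0, 1, 5, 6, 2, 4, 8, 3]) (.b 3 4 (.c [0, 1, 5, 6, 2, 8, 3, 4]) (.i [2, 3,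
    4])))) (.b 4 6 (.b 2 4 (.c [0, 1, 5, 6, 4, 2, 8, 3]) (.b 3 4 (.c [0, 1, 5, 6, 4, 3, 8, 2]) (.b 2
    3 (.c [0, 1, 5, 6, 4, 8, 2, 3]) (.i [2, 3, 4])))) (.b 2 4 (.b 3 6 (.c [0, 1, 5, 6, 3, 8, 2, 4])
    (.b 2 3 (.b 6 8 (.c [0, 1, 5, 6, 8, 3, 2, 4]) (.b 3 4 (.b 0 8 (.k [0, 2, 3, 4, 8]) (.b 0 5 (.b 0
    6 (.b 1 8 (.c [0, 2, 3, 4, 8, 1, 5, 6]) (.b 1 4 (.c [0, 2, 3, 8, 4, 1, 5, 6]) (.b 1 3 (.c [0, 2,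
    4, 8, 3, 1, 5, 6]) (.b 1 2 (.c [0, 3, 4, 8, 2, 1, 5, 6]) (.b 1 6 (.b 3 5 (.c [0, 1, 6, 5, 3, 2,
    8, 4]) (.b 4 5 (.c [0, 1, 6, 5, 4, 2, 8, 3]) (.b 1 7 (.b 4 7 (.c [0, 2, 3, 4, 7, 1, 5, 6]) (.b 7
    8 (.c [0, 2, 3, 4, 8, 7, 1, 5]) (.b 3 7 (.c [0, 2, 4, 3, 7, 1, 5, 6]) (.b 2 7 (.c [0, 3, 4, 2,
    7, 1, 5, 6]) (.b 0 7 (.b 5 7 (.b 6 7 (.k [0, 1, 5, 6, 7]) (.i [2, 6, 7])) (.i [2, 5, 7])) (.i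
    [0, 7, 8])))))) (.b 2 7 (.b 6 7 (.c [0, 1, 5, 6, 7, 2, 3, 4]) (.b 5 7 (.c [0, 1, 5, 7, 2, 3, 8,
    4]) (.b 3 7 (.b 4 7 (.b 0 7 (.k [0, 2, 3, 4, 7]) (.b 7 8 (.k [2, 3, 4, 7, 8]) (.i [0, 7, 8])))
    (.i [1, 4, 7])) (.i [1, 3, 7])))) (.i [1, 2, 7]))))) (.i [1, 2, 6])))))) (.i [0, 6, 8])) (.i [0,
    5, 8]))) (.i [3, 4, 6]))) (.i [2, 3, 6]))) (.i [2, 4, 6])))) (.b 1 2 (.b 1 8 (.b 4 5 (.b 2 6 (.c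
    [0, 1, 2, 6, 5, 4, 8, 3]) (.b 3 6 (.c [0, 1, 2, 8, 3, 6, 5, 4]) (.b 1 6 (.c [0, 2, 1, 6, 5, 4,
    8, 3]) (.b 1 3 (.b 0 6 (.c [0, 2, 1, 3, 8, 4, 5, 6]) (.b 6 8 (.c [0, 2, 1, 3, 8, 6, 5, 4]) (.b 0
    8 (.b 2 3 (.k [0, 1, 2, 3, 8]) (.i [2, 3, 6])) (.i [0, 6, 8])))) (.i [1, 3, 6]))))) (.b 1 4 (.b
    2 4 (.b 0 8 (.k [0, 1, 2, 4, 8]) (.b 0 5 (.b 3 6 (.c [0, 1, 2, 4, 8, 3, 6, 5]) (.b 4 6 (.c [0,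
    3, 8, 1, 2, 4, 6, 5]) (.b 2 6 (.c [0, 3, 8, 1, 4, 2, 6, 5]) (.b 1 6 (.c [0, 3, 8, 2, 4, 1, 6,
    5]) (.b 1 3 (.b 6 8 (.c [0, 2, 4, 1, 3, 8, 6, 5]) (.b 0 6 (.b 3 5 (.c [0, 1, 2, 4, 8, 3, 5, 6])
    (.b 2 3 (.b 3 4 (.k [0, 1, 2, 3, 4]) (.i [3, 4, 5])) (.i [2, 3, 5]))) (.i [0, 6, 8]))) (.i [1,
    3, 6])))))) (.i [0, 5, 8]))) (.i [2, 4, 5])) (.i [1, 4, 5]))) (.i [1, 5, 8])) (.i [1, 2, 5])))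
    (.i [2, 5, 8]))) (.b 3 5 (.b 1 8 (.b 2 6 (.b 2 4 (.c [0, 1, 8, 4, 2, 6, 5, 3]) (.b 3 4 (.c [0,
    1, 8, 4, 3, 5, 6, 2]) (.b 1 3 (.c [0, 2, 6, 5, 3, 1, 8, 4]) (.b 1 2 (.c [0, 3, 5, 6, 2, 1, 8,
    4]) (.b 2 3 (.b 4 5 (.c [0, 1, 8, 4, 5, 6, 2, 3]) (.b 4 6 (.c [0, 1, 8, 4, 6, 5, 3, 2]) (.b 1 6
    (.c [0, 2, 3, 5, 6, 1, 8, 4]) (.b 1 5 (.c [0, 3, 2, 6, 5, 1, 8, 4]) (.b 1 4 (.b 2 8 (.c [0, 1,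
    4, 8, 2, 6, 5, 3]) (.b 6 8 (.c [0, 1, 4, 8, 6, 5, 3, 2]) (.b 2 5 (.b 3 6 (.b 7 8 (.b 2 7 (.c [0,
    1, 4, 8, 7, 2, 5, 3]) (.b 3 7 (.c [0, 1, 4, 8, 7, 3, 5, 2]) (.b 5 7 (.c [0, 1, 4, 8, 7, 5, 2,
    3]) (.b 6 7 (.c [0, 1, 4, 8, 7, 6, 2, 3]) (.b 1 7 (.b 4 7 (.b 0 7 (.b 0 8 (.k [0, 1, 4, 7, 8])
    (.b 0 5 (.b 0 6 (.k [0, 2, 3, 5, 6]) (.i [0, 6, 8])) (.i [0, 5, 8]))) (.b 0 5 (.b 0 6 (.k [0, 2,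
    3, 5, 6]) (.i [0, 6, 7])) (.i [0, 5, 7]))) (.i [2, 4, 7])) (.i [1, 2, 7])))))) (.b 2 7 (.b 4 7
    (.c [0, 1, 4, 7, 2, 5, 6, 3]) (.b 1 7 (.c [0, 3, 5, 2, 7, 1, 8, 4]) (.b 3 7 (.b 5 7 (.b 6 7 (.k
    [2, 3, 5, 6, 7]) (.i [1, 6, 7])) (.i [1, 5, 7])) (.i [1, 3, 7])))) (.i [2, 7, 8]))) (.i [1, 3,
    6])) (.i [1, 2, 5])))) (.i [1, 2, 4])))))) (.i [1, 2, 3])))))) (.b 6 7 (.b 4 7 (.c [0, 1, 8, 4,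
    7, 6, 5, 3]) (.b 1 7 (.c [0, 3, 5, 6, 7, 1, 8, 4]) (.b 1 4 (.b 7 8 (.c [0, 1, 4, 8, 7, 6, 5, 3])
    (.b 3 7 (.b 4 5 (.c [0, 1, 8, 4, 5, 6, 7, 3]) (.b 1 5 (.c [0, 3, 7, 6, 5, 1, 8, 4]) (.b 5 7 (.b
    6 8 (.c [0, 1, 4, 8, 6, 5, 7, 3]) (.b 4 6 (.c [0, 1, 8, 4, 6, 5, 7, 3]) (.b 1 6 (.c [0, 3, 5, 7,
    6, 1, 8, 4]) (.b 1 2 (.b 2 7 (.c [0, 3, 5, 6, 7, 2, 1, 4]) (.b 2 5 (.c [0, 3, 7, 5, 2, 1, 8, 4])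
    (.b 2 4 (.b 2 8 (.b 0 8 (.k [0, 1, 2, 4, 8]) (.b 0 5 (.b 3 4 (.c [0, 1, 2, 4, 3, 7, 6, 5]) (.b 2
    3 (.c [0, 1, 4, 2, 3, 7, 6, 5]) (.b 1 3 (.c [0, 2, 4, 1, 3, 7, 6, 5]) (.b 0 6 (.b 0 7 (.b 3 6
    (.k [0, 3, 5, 6, 7]) (.i [1, 3, 6])) (.i [0, 7, 8])) (.i [0, 6, 8]))))) (.i [0, 5, 8]))) (.i [2,
    5, 8])) (.i [2, 4, 5])))) (.i [1, 2, 6]))))) (.i [1, 5, 7])))) (.i [3, 7, 8]))) (.i [1, 4,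
    7])))) (.b 2 7 (.b 4 6 (.b 2 3 (.c [0, 1, 8, 4, 6, 5, 3, 2]) (.b 5 7 (.c [0, 1, 8, 4, 6, 5, 7,
    2]) (.b 1 2 (.c [0, 2, 1, 8, 4, 6, 5, 3]) (.b 7 8 (.c [0, 2, 7, 8, 4, 6, 5, 3]) (.i [5, 7,
    8]))))) (.b 2 4 (.b 5 7 (.c [0, 1, 8, 4, 2, 7, 5, 3]) (.b 1 6 (.c [0, 2, 4, 8, 1, 6, 5, 3]) (.b
    1 2 (.b 6 8 (.c [0, 1, 2, 4, 8, 6, 5, 3]) (.b 1 4 (.b 1 7 (.b 4 5 (.c [0, 2, 7, 1, 8, 4, 5, 3])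
    (.b 2 5 (.c [0, 3, 5, 2, 7, 1, 8, 4]) (.b 2 8 (.b 1 5 (.c [0, 3, 5, 1, 7, 2, 8, 4]) (.b 0 8 (.k
    [0, 1, 2, 4, 8]) (.b 0 5 (.b 3 7 (.c [0, 1, 4, 8, 2, 7, 3, 5]) (.b 3 4 (.c [0, 1, 7, 2, 8, 4, 3,
    5]) (.b 2 3 (.c [0, 4, 8, 1, 7, 2, 3, 5]) (.b 1 3 (.c [0, 4, 8, 2, 7, 1, 3, 5]) (.b 0 6 (.b 3 6
    (.b 4 7 (.b 0 7 (.k [0, 1, 2, 4, 7]) (.b 7 8 (.k [1, 2, 4, 7, 8]) (.i [0, 7, 8]))) (.i [3, 4,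
    7])) (.i [1, 3, 6])) (.i [0, 6, 8])))))) (.i [0, 5, 8])))) (.i [2, 5, 8])))) (.i [1, 6, 7])) (.i
    [1, 4, 6]))) (.i [1, 2, 6])))) (.i [2, 4, 6]))) (.i [2, 6, 7])))) (.b 1 3 (.b 1 5 (.b 6 8 (.b 2
    4 (.c [0, 1, 3, 5, 6, 8, 4, 2]) (.b 1 2 (.c [0, 2, 1, 3, 5, 6, 8, 4]) (.b 2 3 (.c [0, 2, 3, 1,
    5, 6, 8, 4]) (.b 1 4 (.b 2 5 (.c [0, 2, 5, 6, 8, 4, 1, 3]) (.b 2 6 (.c [0, 2, 6, 8, 4, 1, 5, 3])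
    (.b 2 8 (.c [0, 2, 8, 6, 5, 3, 1, 4]) (.i [1, 2, 8])))) (.i [1, 2, 4]))))) (.b 1 6 (.b 3 6 (.b 2
    8 (.b 2 6 (.c [0, 1, 3, 5, 6, 2, 8, 4]) (.b 4 6 (.c [0, 1, 3, 5, 6, 4, 8, 2]) (.b 2 5 (.c [0, 1,
    3, 6, 5, 2, 8, 4]) (.b 4 5 (.c [0, 1, 3, 6, 5, 4, 8, 2]) (.b 2 3 (.c [0, 1, 5, 6, 3, 2, 8, 4])
    (.b 3 4 (.c [0, 1, 5, 6, 3, 4, 8, 2]) (.b 1 4 (.c [0, 2, 8, 4, 1, 5, 6, 3]) (.b 1 2 (.c [0, 3,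
    5, 6, 1, 2, 8, 4]) (.b 2 4 (.b 7 8 (.b 6 7 (.c [0, 1, 3, 5, 6, 7, 8, 2]) (.b 5 7 (.c [0, 1, 3,
    5, 7, 8, 2, 4]) (.b 3 7 (.c [0, 1, 5, 3, 7, 8, 2, 4]) (.b 1 7 (.c [0, 2, 4, 8, 7, 1, 5, 3]) (.b
    2 7 (.b 4 7 (.b 0 8 (.b 0 7 (.k [0, 2, 4, 7, 8]) (.b 0 5 (.b 0 6 (.k [0, 1, 3, 5, 6]) (.i [0, 6,
    7])) (.i [0, 5, 7]))) (.b 0 5 (.b 0 6 (.k [0, 1, 3, 5, 6]) (.i [0, 6, 8])) (.i [0, 5, 8]))) (.i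
    [1, 4, 7])) (.i [1, 2, 7])))))) (.b 1 7 (.b 4 7 (.c [0, 2, 4, 7, 1, 5, 6, 3]) (.b 2 7 (.c [0, 3,
    5, 1, 7, 2, 8, 4]) (.b 3 7 (.b 5 7 (.b 6 7 (.k [1, 3, 5, 6, 7]) (.i [2, 6, 7])) (.i [2, 5, 7]))
    (.i [2, 3, 7])))) (.i [1, 7, 8]))) (.i [1, 2, 4])))))))))) (.b 1 2 (.b 2 3 (.b 2 5 (.b 0 5 (.k
    [0, 1, 2, 3, 5]) (.b 2 6 (.k [1, 2, 3, 5, 6]) (.i [2, 6, 8]))) (.i [2, 5, 8])) (.i [2, 3, 8]))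
    (.i [1, 2, 8]))) (.i [3, 6, 8])) (.i [1, 6, 8]))) (.i [1, 5, 8])) (.i [1, 3, 8]))) (.i [3, 5,
    8]))) (.b 4 5 (.b 7 8 (.b 2 8 (.b 6 7 (.b 1 2 (.c [0, 1, 2, 8, 7, 6, 5, 4]) (.b 1 4 (.c [0, 1,
    4, 5, 6, 7, 8, 2]) (.b 3 4 (.c [0, 2, 8, 7, 6, 5, 4, 3]) (.b 2 3 (.c [0, 3, 2, 8, 7, 6, 5, 4])
    (.b 1 3 (.b 3 5 (.c [0, 1, 3, 5, 6, 7, 8, 2]) (.b 3 8 (.c [0, 1, 3, 8, 7, 6, 5, 4]) (.i [3, 4,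
    8]))) (.i [1, 2, 3])))))) (.b 3 7 (.b 3 6 (.c [0, 2, 8, 7, 3, 6, 5, 4]) (.b 2 6 (.c [0, 3, 7, 8,
    2, 6, 5, 4]) (.b 2 3 (.b 6 8 (.c [0, 2, 3, 7, 8, 6, 5, 4]) (.b 2 7 (.b 3 8 (.b 4 6 (.b 5 7 (.c
    [0, 2, 3, 8, 7, 5, 6, 4]) (.b 3 5 (.c [0, 2, 7, 8, 3, 5, 6, 4]) (.b 2 5 (.c [0, 3, 7, 8, 2, 5,
    6, 4]) (.b 1 6 (.b 2 4 (.c [0, 1, 6, 4, 2, 7, 8, 3]) (.b 3 4 (.c [0, 1, 6, 4, 3, 7, 8, 2]) (.b 4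
    7 (.c [0, 1, 6, 4, 7, 2, 8, 3]) (.b 1 7 (.c [0, 2, 3, 7, 1, 6, 5, 4]) (.b 1 8 (.c [0, 2, 3, 7,
    8, 1, 6, 4]) (.b 1 3 (.c [0, 2, 7, 3, 1, 6, 5, 4]) (.b 1 2 (.c [0, 3, 7, 2, 1, 6, 5, 4]) (.b 1 4
    (.b 1 5 (.b 0 8 (.b 0 7 (.k [0, 2, 3, 7, 8]) (.b 0 5 (.b 0 6 (.k [0, 1, 4, 5, 6]) (.i [0, 6,
    7])) (.i [0, 5, 7]))) (.b 0 5 (.b 0 6 (.k [0, 1, 4, 5, 6]) (.i [0, 6, 8])) (.i [0, 5, 8]))) (.i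
    [1, 2, 5])) (.i [1, 2, 4]))))))))) (.b 1 2 (.b 1 5 (.c [0, 3, 7, 2, 1, 5, 6, 4]) (.b 1 3 (.b 1 7
    (.b 0 7 (.k [0, 1, 2, 3, 7]) (.b 1 8 (.k [1, 2, 3, 7, 8]) (.i [1, 5, 8]))) (.i [1, 5, 7])) (.i
    [1, 3, 5]))) (.i [1, 2, 6])))))) (.i [4, 6, 8])) (.i [3, 6, 8])) (.i [2, 6, 7]))) (.i [2, 3,
    6])))) (.b 3 6 (.b 4 7 (.c [0, 2, 8, 7, 4, 5, 6, 3]) (.b 3 4 (.b 5 7 (.c [0, 2, 8, 7, 5, 6, 3,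
    4]) (.b 3 5 (.b 4 6 (.b 1 7 (.b 2 3 (.c [0, 1, 7, 8, 2, 3, 5, 4]) (.b 2 4 (.c [0, 1, 7, 8, 2, 4,
    5, 3]) (.b 2 5 (.c [0, 1, 7, 8, 2, 5, 3, 4]) (.b 2 6 (.c [0, 1, 7, 8, 2, 6, 3, 4]) (.b 3 8 (.c
    [0, 1, 7, 8, 3, 5, 6, 4]) (.b 6 8 (.c [0, 1, 7, 8, 6, 3, 5, 4]) (.b 1 3 (.c [0, 2, 8, 7, 1, 3,
    5, 4]) (.b 1 4 (.c [0, 2, 8, 7, 1, 4, 5, 3]) (.b 1 5 (.c [0, 2, 8, 7, 1, 5, 3, 4]) (.b 1 6 (.c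
    [0, 2, 8, 7, 1, 6, 3, 4]) (.b 1 2 (.b 1 8 (.b 2 7 (.b 0 8 (.b 0 7 (.k [0, 1, 2, 7, 8]) (.b 0 5
    (.b 0 6 (.k [0, 3, 4, 5, 6]) (.i [0, 6, 7])) (.i [0, 5, 7]))) (.b 0 5 (.b 0 6 (.k [0, 3, 4, 5,
    6]) (.i [0, 6, 8])) (.i [0, 5, 8]))) (.i [2, 3, 7])) (.i [1, 3, 8])) (.i [1, 2, 3]))))))))))))
    (.b 1 3 (.b 6 8 (.c [0, 1, 3, 4, 5, 6, 8, 2]) (.b 1 8 (.c [0, 2, 8, 1, 3, 5, 6, 4]) (.b 1 4 (.b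
    3 8 (.c [0, 1, 4, 5, 6, 3, 8, 2]) (.b 1 5 (.b 0 5 (.k [0, 1, 3, 4, 5]) (.b 1 6 (.k [1, 3, 4, 5,
    6]) (.i [1, 6, 7]))) (.i [1, 5, 7]))) (.i [1, 4, 7])))) (.i [1, 3, 7]))) (.i [4, 6, 7])) (.i [3,
    5, 7]))) (.i [3, 4, 7]))) (.i [3, 6, 7])))) (.b 2 4 (.b 2 5 (.b 6 8 (.b 1 7 (.c [0, 1, 7, 8, 6,
    5, 2, 4]) (.b 3 7 (.c [0, 2, 4, 5, 6, 8, 7, 3]) (.b 1 3 (.b 3 8 (.c [0, 1, 3, 8, 6, 5, 2, 4])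
    (.b 1 8 (.c [0, 2, 4, 5, 6, 8, 1, 3]) (.b 1 2 (.b 0 7 (.c [0, 1, 2, 4, 5, 6, 8, 7]) (.b 4 7 (.c
    [0, 1, 2, 5, 6, 8, 7, 4]) (.b 2 7 (.c [0, 1, 2, 7, 8, 6, 5, 4]) (.b 0 8 (.c [0, 3, 1, 2, 4, 5,
    6, 8]) (.b 0 5 (.b 1 4 (.b 1 5 (.k [0, 1, 2, 4, 5]) (.i [1, 5, 8])) (.i [1, 4, 7])) (.i [0, 5,
    8])))))) (.i [1, 2, 8])))) (.i [1, 3, 7])))) (.b 2 6 (.b 4 6 (.b 3 8 (.b 6 7 (.c [0, 2, 4, 5, 6,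
    7, 8, 3]) (.b 5 7 (.c [0, 2, 4, 6, 5, 7, 8, 3]) (.b 4 7 (.c [0, 2, 5, 6, 4, 7, 8, 3]) (.b 2 7
    (.c [0, 3, 8, 7, 2, 5, 6, 4]) (.b 1 8 (.b 2 3 (.c [0, 1, 8, 3, 2, 5, 6, 4]) (.b 3 4 (.c [0, 1,
    8, 3, 4, 5, 6, 2]) (.b 3 5 (.c [0, 1, 8, 3, 5, 2, 6, 4]) (.b 3 6 (.c [0, 1, 8, 3, 6, 2, 5, 4])
    (.b 1 6 (.c [0, 2, 4, 5, 6, 1, 8, 3]) (.b 1 5 (.c [0, 2, 4, 6, 5, 1, 8, 3]) (.b 1 4 (.c [0, 2,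
    5, 6, 4, 1, 8, 3]) (.b 1 2 (.c [0, 3, 8, 1, 2, 5, 6, 4]) (.b 1 3 (.b 1 7 (.b 3 7 (.b 0 8 (.b 0 7
    (.k [0, 1, 3, 7, 8]) (.b 0 5 (.b 0 6 (.k [0, 2, 4, 5, 6]) (.i [0, 6, 7])) (.i [0, 5, 7]))) (.b 0
    5 (.b 0 6 (.k [0, 2, 4, 5, 6]) (.i [0, 6, 8])) (.i [0, 5, 8]))) (.i [2, 3, 7])) (.i [1, 2, 7]))
    (.i [1, 2, 3])))))))))) (.b 1 2 (.b 1 7 (.c [0, 3, 8, 7, 1, 2, 5, 4]) (.b 1 4 (.b 1 5 (.b 0 5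
    (.k [0, 1, 2, 4, 5]) (.b 1 6 (.k [1, 2, 4, 5, 6]) (.i [1, 6, 7]))) (.i [1, 5, 7])) (.i [1, 4,
    7]))) (.i [1, 2, 8]))))))) (.b 2 3 (.b 3 4 (.b 3 5 (.b 0 5 (.k [0, 2, 3, 4, 5]) (.b 3 6 (.k [2,
    3, 4, 5, 6]) (.i [3, 6, 8]))) (.i [3, 5, 8])) (.i [3, 4, 8])) (.i [2, 3, 8]))) (.i [4, 6, 8]))
    (.i [2, 6, 8]))) (.i [2, 5, 8])) (.i [2, 4, 8]))) (.b 4 7 (.b 5 7 (.b 1 8 (.b 6 8 (.b 2 7 (.c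
    [0, 1, 8, 6, 5, 4, 7, 2]) (.b 3 7 (.c [0, 1, 8, 6, 5, 4, 7, 3]) (.b 2 4 (.c [0, 1, 8, 6, 5, 7,
    4, 2]) (.b 3 4 (.c [0, 1, 8, 6, 5, 7, 4, 3]) (.b 1 2 (.c [0, 2, 1, 8, 6, 5, 7, 4]) (.b 1 3 (.c
    [0, 3, 1, 8, 6, 5, 7, 4]) (.b 2 3 (.b 3 8 (.c [0, 2, 3, 8, 6, 5, 7, 4]) (.i [3, 4, 8])) (.i [1,
    2, 3])))))))) (.b 4 6 (.b 6 7 (.b 2 8 (.b 2 5 (.c [0, 1, 8, 2, 5, 6, 7, 4]) (.b 2 6 (.c [0, 1,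
    8, 2, 6, 5, 7, 4]) (.b 2 7 (.c [0, 1, 8, 2, 7, 5, 6, 4]) (.b 1 5 (.c [0, 2, 8, 1, 5, 6, 7, 4])
    (.b 1 6 (.c [0, 2, 8, 1, 6, 5, 7, 4]) (.b 1 7 (.c [0, 2, 8, 1, 7, 5, 6, 4]) (.b 1 2 (.b 3 8 (.b
    3 5 (.c [0, 1, 2, 8, 3, 5, 6, 4]) (.b 3 6 (.c [0, 1, 2, 8, 3, 6, 5, 4]) (.b 3 7 (.c [0, 1, 2, 8,
    3, 7, 5, 4]) (.b 1 3 (.b 2 3 (.b 0 8 (.k [0, 1, 2, 3, 8]) (.b 0 5 (.b 3 4 (.c [0, 1, 2, 3, 4, 6,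
    7, 5]) (.b 2 4 (.c [0, 1, 3, 2, 4, 6, 7, 5]) (.b 1 4 (.c [0, 2, 3, 1, 4, 6, 7, 5]) (.b 0 6 (.b 0
    7 (.k [0, 4, 5, 6, 7]) (.i [0, 7, 8])) (.i [0, 6, 8]))))) (.i [0, 5, 8]))) (.i [2, 3, 5])) (.i
    [1, 3, 5]))))) (.b 3 4 (.b 3 5 (.b 2 3 (.c [0, 1, 2, 3, 5, 6, 7, 4]) (.b 2 4 (.c [0, 1, 2, 4, 6,
    7, 5, 3]) (.b 1 3 (.c [0, 2, 1, 3, 5, 6, 7, 4]) (.b 1 4 (.c [0, 2, 1, 4, 6, 7, 5, 3]) (.b 3 6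
    (.b 3 7 (.k [3, 4, 5, 6, 7]) (.i [1, 3, 7])) (.i [1, 3, 6])))))) (.i [3, 5, 8])) (.i [3, 4,
    8]))) (.i [1, 2, 5])))))))) (.b 2 4 (.b 2 5 (.b 2 6 (.b 2 7 (.k [2, 4, 5, 6, 7]) (.i [2, 7, 8]))
    (.i [2, 6, 8])) (.i [2, 5, 8])) (.i [2, 4, 8]))) (.i [6, 7, 8])) (.i [4, 6, 8]))) (.b 1 4 (.b 1
    5 (.b 1 7 (.b 2 6 (.b 2 3 (.c [0, 1, 4, 7, 5, 6, 2, 3]) (.b 3 7 (.c [0, 2, 6, 5, 1, 4, 7, 3])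
    (.b 3 4 (.c [0, 2, 6, 5, 1, 7, 4, 3]) (.b 1 3 (.c [0, 2, 6, 5, 4, 7, 1, 3]) (.b 1 2 (.b 3 6 (.c
    [0, 2, 1, 4, 7, 5, 6, 3]) (.b 3 5 (.c [0, 3, 5, 6, 2, 1, 7, 4]) (.b 1 6 (.b 3 8 (.b 2 8 (.c [0,
    1, 4, 5, 6, 2, 8, 3]) (.b 6 8 (.c [0, 1, 4, 7, 5, 6, 8, 3]) (.b 2 4 (.b 2 5 (.b 0 5 (.k [0, 1,
    2, 4, 5]) (.b 4 6 (.k [1, 2, 4, 5, 6]) (.i [3, 4, 6]))) (.i [2, 3, 5])) (.i [2, 3, 4])))) (.i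
    [1, 3, 8])) (.i [1, 3, 6])))) (.i [1, 2, 3])))))) (.b 6 8 (.b 2 8 (.c [0, 1, 4, 7, 5, 6, 8, 2])
    (.b 3 8 (.c [0, 1, 4, 7, 5, 6, 8, 3]) (.b 1 2 (.b 3 6 (.c [0, 2, 1, 4, 7, 5, 6, 3]) (.b 0 8 (.c
    [0, 2, 1, 4, 7, 5, 6, 8]) (.b 0 5 (.b 0 7 (.k [0, 1, 4, 5, 7]) (.i [0, 7, 8])) (.i [0, 5, 8]))))
    (.i [1, 2, 8])))) (.b 1 6 (.b 2 8 (.b 4 6 (.b 6 7 (.k [1, 4, 5, 6, 7]) (.i [6, 7, 8])) (.i [4,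
    6, 8])) (.i [2, 6, 8])) (.i [1, 6, 8])))) (.i [1, 7, 8])) (.i [1, 5, 8])) (.i [1, 4, 8]))) (.i
    [5, 7, 8])) (.i [4, 7, 8]))) (.i [4, 5, 8]))) (.b 6 8 (.b 4 5 (.b 2 5 (.b 5 7 (.b 1 6 (.b 3 8
    (.b 2 3 (.c [0, 1, 6, 8, 3, 2, 5, 4]) (.b 3 4 (.c [0, 1, 6, 8, 3, 4, 5, 2]) (.b 3 7 (.c [0, 1,
    6, 8, 3, 7, 5, 2]) (.b 1 4 (.c [0, 2, 5, 4, 1, 6, 8, 3]) (.b 1 7 (.c [0, 2, 5, 7, 1, 6, 8, 3])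
    (.b 1 2 (.c [0, 3, 8, 6, 1, 2, 5, 4]) (.b 1 3 (.b 2 6 (.c [0, 1, 3, 8, 6, 2, 5, 4]) (.b 4 6 (.c
    [0, 1, 3, 8, 6, 4, 5, 2]) (.b 6 7 (.c [0, 1, 3, 8, 6, 7, 5, 2]) (.b 4 8 (.c [0, 2, 5, 4, 8, 6,
    1, 3]) (.b 7 8 (.c [0, 2, 5, 7, 8, 6, 1, 3]) (.b 2 8 (.c [0, 3, 1, 6, 8, 2, 5, 4]) (.b 2 4 (.b 3
    5 (.c [0, 1, 6, 8, 3, 5, 2, 4]) (.b 1 5 (.c [0, 2, 4, 5, 1, 6, 8, 3]) (.b 2 7 (.b 1 8 (.b 4 7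
    (.b 3 6 (.b 0 7 (.b 0 5 (.k [0, 2, 4, 5, 7]) (.b 0 6 (.b 0 8 (.k [0, 1, 3, 6, 8]) (.i [0, 5,
    8])) (.i [0, 5, 6]))) (.b 0 6 (.b 0 8 (.k [0, 1, 3, 6, 8]) (.i [0, 7, 8])) (.i [0, 6, 7]))) (.i
    [2, 3, 6])) (.i [1, 4, 7])) (.i [1, 2, 8])) (.i [1, 2, 7])))) (.i [1, 2, 4])))))))) (.i [1, 2,
    3])))))))) (.b 3 5 (.b 7 8 (.b 2 7 (.c [0, 1, 6, 8, 7, 2, 5, 3]) (.b 3 7 (.c [0, 1, 6, 8, 7, 3,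
    5, 2]) (.b 4 7 (.c [0, 1, 6, 8, 7, 4, 5, 2]) (.b 2 3 (.c [0, 1, 6, 8, 7, 5, 2, 3]) (.i [2, 3,
    7]))))) (.b 3 7 (.b 2 8 (.c [0, 1, 6, 8, 2, 5, 7, 3]) (.b 4 8 (.c [0, 1, 6, 8, 4, 5, 7, 3]) (.b
    2 3 (.b 2 6 (.c [0, 1, 6, 2, 3, 7, 5, 4]) (.b 4 6 (.c [0, 1, 6, 4, 5, 7, 3, 2]) (.b 6 7 (.c [0,
    1, 6, 7, 3, 2, 5, 4]) (.b 2 4 (.b 3 6 (.c [0, 1, 6, 3, 7, 5, 2, 4]) (.b 2 7 (.b 3 4 (.b 0 5 (.k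
    [0, 2, 3, 4, 5]) (.b 4 7 (.k [2, 3, 4, 5, 7]) (.i [4, 6, 7]))) (.i [3, 4, 6])) (.i [2, 6, 7])))
    (.i [2, 4, 6]))))) (.i [2, 3, 8])))) (.i [3, 7, 8]))) (.i [3, 5, 8]))) (.b 1 5 (.b 3 6 (.b 7 8
    (.b 1 2 (.c [0, 1, 2, 5, 7, 8, 6, 3]) (.b 1 3 (.c [0, 1, 3, 6, 8, 7, 5, 2]) (.b 1 4 (.c [0, 1,
    4, 5, 7, 8, 6, 3]) (.b 2 7 (.c [0, 1, 5, 2, 7, 8, 6, 3]) (.b 4 7 (.c [0, 1, 5, 4, 7, 8, 6, 3])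
    (.b 2 3 (.c [0, 1, 5, 7, 8, 6, 3, 2]) (.i [1, 2, 3]))))))) (.b 4 8 (.b 1 2 (.c [0, 1, 2, 5, 4,
    8, 6, 3]) (.b 1 3 (.c [0, 1, 3, 6, 8, 4, 5, 2]) (.b 2 3 (.c [0, 1, 5, 2, 3, 6, 8, 4]) (.i [1, 2,
    3])))) (.b 4 7 (.b 1 8 (.c [0, 3, 6, 8, 1, 5, 7, 4]) (.b 2 8 (.c [0, 3, 6, 8, 2, 5, 7, 4]) (.b 1
    2 (.b 6 7 (.c [0, 1, 2, 5, 4, 7, 6, 3]) (.b 4 6 (.c [0, 1, 2, 5, 7, 4, 6, 3]) (.b 2 6 (.c [0, 3,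
    6, 2, 1, 5, 7, 4]) (.b 1 4 (.b 1 7 (.b 2 4 (.b 0 5 (.k [0, 1, 2, 4, 5]) (.b 2 7 (.k [1, 2, 4, 5,
    7]) (.i [2, 6, 7]))) (.i [2, 4, 6])) (.i [1, 6, 7])) (.i [1, 4, 6]))))) (.i [1, 2, 8])))) (.i
    [4, 7, 8])))) (.b 1 3 (.b 3 5 (.b 4 6 (.b 2 8 (.c [0, 1, 3, 5, 2, 8, 6, 4]) (.b 7 8 (.c [0, 1,
    3, 5, 7, 8, 6, 4]) (.b 3 8 (.c [0, 1, 3, 8, 6, 4, 5, 2]) (.b 1 8 (.c [0, 2, 5, 3, 1, 8, 6, 4])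
    (.b 1 2 (.b 0 8 (.c [0, 2, 1, 3, 5, 4, 6, 8]) (.b 6 7 (.c [0, 2, 1, 3, 5, 7, 6, 4]) (.b 0 5 (.b
    2 3 (.k [0, 1, 2, 3, 5]) (.i [2, 3, 8])) (.i [0, 5, 8])))) (.i [1, 2, 8])))))) (.b 1 4 (.b 3 4
    (.b 0 5 (.k [0, 1, 3, 4, 5]) (.b 0 6 (.b 2 8 (.c [0, 1, 3, 4, 5, 2, 8, 6]) (.b 7 8 (.c [0, 1, 3,
    4, 5, 7, 8, 6]) (.b 4 8 (.c [0, 2, 5, 1, 3, 4, 8, 6]) (.b 3 8 (.c [0, 2, 5, 1, 4, 3, 8, 6]) (.b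
    1 8 (.c [0, 2, 5, 3, 4, 1, 8, 6]) (.b 0 8 (.b 2 6 (.c [0, 1, 3, 4, 5, 2, 6, 8]) (.b 6 7 (.c [0,
    1, 3, 4, 5, 7, 6, 8]) (.b 1 2 (.b 1 7 (.b 2 3 (.b 2 4 (.k [0, 1, 2, 3, 4]) (.i [2, 4, 6])) (.i
    [2, 3, 6])) (.i [1, 6, 7])) (.i [1, 2, 6])))) (.i [0, 5, 8]))))))) (.i [0, 5, 6]))) (.i [3, 4,
    6])) (.i [1, 4, 6]))) (.i [3, 5, 6])) (.i [1, 3, 6]))) (.i [1, 5, 6]))) (.b 6 7 (.b 7 8 (.b 3 6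
    (.b 4 7 (.c [0, 2, 5, 4, 7, 8, 6, 3]) (.b 4 8 (.c [0, 2, 5, 4, 8, 7, 6, 3]) (.b 2 8 (.c [0, 3,
    6, 7, 8, 2, 5, 4]) (.b 2 7 (.c [0, 3, 6, 8, 7, 2, 5, 4]) (.b 2 4 (.b 1 8 (.b 2 3 (.c [0, 1, 8,
    6, 3, 2, 5, 4]) (.b 3 4 (.c [0, 1, 8, 6, 3, 4, 5, 2]) (.b 3 5 (.c [0, 1, 8, 6, 3, 5, 2, 4]) (.b
    2 6 (.c [0, 1, 8, 7, 6, 2, 5, 4]) (.b 4 6 (.c [0, 1, 8, 7, 6, 4, 5, 2]) (.b 1 4 (.c [0, 2, 4, 1,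
    8, 7, 6, 3]) (.b 1 5 (.c [0, 2, 4, 5, 1, 8, 6, 3]) (.b 1 2 (.c [0, 3, 6, 7, 8, 1, 2, 4]) (.b 1 3
    (.b 1 6 (.b 1 7 (.b 3 7 (.b 3 8 (.k [1, 3, 6, 7, 8]) (.i [2, 3, 8])) (.i [2, 3, 7])) (.i [1, 2,
    7])) (.i [1, 2, 6])) (.i [1, 2, 3])))))))))) (.b 1 2 (.b 1 7 (.c [0, 3, 6, 7, 1, 2, 5, 4]) (.b 1
    4 (.b 1 5 (.b 0 5 (.k [0, 1, 2, 4, 5]) (.b 0 6 (.b 0 7 (.b 3 4 (.c [0, 1, 2, 4, 3, 6, 8, 7]) (.b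
    3 5 (.c [0, 1, 2, 4, 5, 3, 6, 7]) (.b 4 6 (.c [0, 1, 2, 5, 4, 6, 8, 7]) (.b 2 3 (.c [0, 1, 4, 2,
    3, 6, 8, 7]) (.b 2 6 (.c [0, 1, 4, 5, 2, 6, 8, 7]) (.b 1 3 (.c [0, 2, 4, 1, 3, 6, 8, 7]) (.b 1 6
    (.c [0, 2, 4, 5, 1, 6, 8, 7]) (.b 0 8 (.b 3 7 (.b 3 8 (.k [0, 3, 6, 7, 8]) (.i [1, 3, 8])) (.i
    [1, 3, 7])) (.i [0, 5, 8]))))))))) (.i [0, 5, 7])) (.i [0, 5, 6]))) (.i [1, 5, 7])) (.i [1, 4,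
    7]))) (.i [1, 2, 8]))) (.i [2, 4, 7])))))) (.b 3 5 (.b 1 6 (.b 2 8 (.c [0, 1, 6, 7, 8, 2, 5, 3])
    (.b 3 8 (.c [0, 1, 6, 7, 8, 3, 5, 2]) (.b 4 8 (.c [0, 1, 6, 7, 8, 4, 5, 2]) (.b 2 7 (.c [0, 1,
    6, 8, 7, 2, 5, 3]) (.b 3 7 (.c [0, 1, 6, 8, 7, 3, 5, 2]) (.b 4 7 (.c [0, 1, 6, 8, 7, 4, 5, 2])
    (.b 2 3 (.b 2 4 (.b 3 4 (.b 0 5 (.k [0, 2, 3, 4, 5]) (.b 0 6 (.b 0 7 (.b 1 4 (.c [0, 2, 3, 4, 1,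
    6, 8, 7]) (.b 1 5 (.c [0, 2, 3, 4, 5, 1, 6, 7]) (.b 4 6 (.c [0, 2, 3, 5, 4, 6, 8, 7]) (.b 1 3
    (.c [0, 2, 4, 3, 1, 6, 8, 7]) (.b 1 2 (.c [0, 3, 4, 2, 1, 6, 8, 7]) (.b 2 6 (.c [0, 3, 4, 5, 2,
    6, 8, 7]) (.b 0 8 (.b 1 7 (.b 1 8 (.k [0, 1, 6, 7, 8]) (.i [1, 2, 8])) (.i [1, 2, 7])) (.i [0,
    5, 8])))))))) (.i [0, 5, 7])) (.i [0, 5, 6]))) (.i [3, 4, 7])) (.i [2, 4, 7])) (.i [2, 3,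
    7])))))))) (.b 1 3 (.b 1 5 (.b 2 6 (.b 4 7 (.c [0, 1, 3, 5, 2, 6, 7, 4]) (.b 0 8 (.c [0, 1, 3,
    5, 2, 6, 7, 8]) (.b 4 8 (.c [0, 1, 3, 5, 2, 6, 8, 4]) (.b 0 7 (.c [0, 1, 3, 5, 2, 6, 8, 7]) (.b
    3 7 (.c [0, 1, 3, 7, 6, 2, 5, 4]) (.b 3 8 (.c [0, 1, 3, 8, 6, 2, 5, 4]) (.b 1 7 (.c [0, 1, 7, 8,
    6, 2, 5, 3]) (.b 1 8 (.c [0, 1, 8, 7, 6, 2, 5, 3]) (.b 0 5 (.b 1 4 (.b 3 4 (.k [0, 1, 3, 4, 5])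
    (.i [3, 4, 7])) (.i [1, 4, 7])) (.i [0, 5, 7])))))))))) (.b 1 2 (.b 2 3 (.b 0 5 (.k [0, 1, 2, 3,
    5]) (.b 0 6 (.b 4 7 (.c [0, 1, 2, 3, 5, 4, 7, 6]) (.b 4 8 (.c [0, 1, 2, 3, 5, 4, 8, 6]) (.b 3 7
    (.c [0, 1, 2, 5, 3, 7, 8, 6]) (.b 3 8 (.c [0, 1, 2, 5, 3, 8, 7, 6]) (.b 2 7 (.c [0, 1, 3, 5, 2,
    7, 8, 6]) (.b 2 8 (.c [0, 1, 3, 5, 2, 8, 7, 6]) (.b 1 7 (.c [0, 2, 3, 5, 1, 7, 8, 6]) (.b 1 8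
    (.c [0, 2, 3, 5, 1, 8, 7, 6]) (.b 0 7 (.b 4 6 (.c [0, 1, 2, 3, 5, 4, 6, 7]) (.b 0 8 (.b 1 4 (.b
    2 4 (.b 3 4 (.k [0, 1, 2, 3, 4]) (.i [3, 4, 6])) (.i [2, 4, 6])) (.i [1, 4, 6])) (.i [0, 5,
    8]))) (.i [0, 5, 7])))))))))) (.i [0, 5, 6]))) (.i [2, 3, 6])) (.i [1, 2, 6]))) (.i [1, 5, 6]))
    (.i [1, 3, 6]))) (.i [3, 5, 6]))) (.i [5, 7, 8])) (.i [5, 6, 7]))) (.b 2 6 (.b 2 8 (.b 3 5 (.b 1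
    8 (.b 3 6 (.c [0, 1, 8, 2, 6, 3, 5, 4]) (.b 4 6 (.c [0, 1, 8, 2, 6, 4, 5, 3]) (.b 2 3 (.c [0, 1,
    8, 6, 2, 3, 5, 4]) (.b 2 4 (.c [0, 1, 8, 6, 2, 4, 5, 3]) (.b 1 3 (.c [0, 2, 6, 8, 1, 3, 5, 4])
    (.b 1 4 (.c [0, 2, 6, 8, 1, 4, 5, 3]) (.b 1 2 (.b 3 8 (.c [0, 1, 2, 6, 8, 3, 5, 4]) (.b 4 8 (.c
    [0, 1, 2, 6, 8, 4, 5, 3]) (.b 3 4 (.b 1 5 (.c [0, 2, 6, 8, 1, 5, 3, 4]) (.b 1 6 (.b 5 7 (.b 6 7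
    (.c [0, 1, 2, 6, 7, 5, 3, 4]) (.b 7 8 (.c [0, 1, 2, 6, 8, 7, 5, 3]) (.b 2 7 (.c [0, 1, 6, 2, 7,
    5, 3, 4]) (.b 1 7 (.c [0, 2, 6, 1, 7, 5, 3, 4]) (.b 3 7 (.b 4 7 (.b 0 8 (.b 0 6 (.k [0, 1, 2, 6,
    8]) (.b 0 5 (.b 0 7 (.k [0, 3, 4, 5, 7]) (.i [0, 6, 7])) (.i [0, 5, 6]))) (.b 0 5 (.b 0 7 (.k
    [0, 3, 4, 5, 7]) (.i [0, 7, 8])) (.i [0, 5, 8]))) (.i [1, 4, 7])) (.i [1, 3, 7])))))) (.b 1 7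
    (.b 3 7 (.c [0, 2, 6, 1, 7, 3, 5, 4]) (.b 4 7 (.c [0, 2, 6, 1, 7, 4, 5, 3]) (.b 2 7 (.b 6 7 (.b
    7 8 (.k [1, 2, 6, 7, 8]) (.i [3, 7, 8])) (.i [3, 6, 7])) (.i [2, 3, 7])))) (.i [1, 5, 7]))) (.i
    [1, 3, 6]))) (.i [1, 3, 4])))) (.i [1, 2, 3])))))))) (.b 1 5 (.b 3 8 (.b 1 2 (.c [0, 1, 2, 6, 8,
    3, 5, 4]) (.b 1 4 (.c [0, 1, 4, 5, 3, 8, 6, 2]) (.b 4 6 (.c [0, 1, 5, 3, 8, 2, 6, 4]) (.b 2 4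
    (.c [0, 1, 5, 3, 8, 6, 2, 4]) (.i [1, 2, 4]))))) (.b 1 3 (.b 4 6 (.c [0, 1, 3, 5, 4, 6, 8, 2])
    (.b 4 8 (.c [0, 1, 3, 5, 4, 8, 6, 2]) (.b 1 6 (.c [0, 2, 8, 6, 1, 3, 5, 4]) (.b 3 6 (.c [0, 2,
    8, 6, 3, 1, 5, 4]) (.b 1 4 (.b 3 4 (.b 0 5 (.k [0, 1, 3, 4, 5]) (.b 0 6 (.b 2 4 (.c [0, 1, 3, 5,
    4, 2, 8, 6]) (.b 2 3 (.c [0, 1, 4, 5, 3, 2, 8, 6]) (.b 1 2 (.c [0, 3, 4, 5, 1, 2, 8, 6]) (.b 0 8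
    (.b 5 7 (.b 2 7 (.c [0, 1, 3, 4, 5, 7, 2, 6]) (.b 6 7 (.c [0, 1, 3, 4, 5, 7, 6, 2]) (.b 7 8 (.c
    [0, 1, 3, 4, 5, 7, 8, 2]) (.b 1 7 (.b 3 7 (.b 4 7 (.k [1, 3, 4, 5, 7]) (.i [2, 4, 7])) (.i [2,
    3, 7])) (.i [1, 2, 7]))))) (.b 0 7 (.b 2 7 (.b 4 7 (.c [0, 1, 3, 4, 7, 2, 6, 8]) (.b 3 7 (.c [0,
    1, 4, 3, 7, 2, 6, 8]) (.b 1 7 (.c [0, 3, 4, 1, 7, 2, 6, 8]) (.b 6 7 (.b 7 8 (.k [0, 2, 6, 7, 8])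
    (.i [1, 7, 8])) (.i [1, 6, 7]))))) (.i [2, 5, 7])) (.i [0, 5, 7]))) (.i [0, 5, 8]))))) (.i [0,
    5, 6]))) (.i [3, 4, 6])) (.i [1, 4, 6])))))) (.i [1, 3, 8]))) (.i [1, 5, 8]))) (.b 2 3 (.b 3 6
    (.b 3 8 (.b 1 5 (.b 2 4 (.c [0, 1, 5, 4, 2, 6, 8, 3]) (.b 3 4 (.c [0, 1, 5, 4, 3, 6, 8, 2]) (.b
    4 6 (.c [0, 1, 5, 4, 6, 2, 8, 3]) (.b 4 8 (.c [0, 1, 5, 4, 8, 2, 6, 3]) (.b 1 8 (.c [0, 2, 3, 6,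
    8, 1, 5, 4]) (.b 1 6 (.c [0, 2, 3, 8, 6, 1, 5, 4]) (.b 1 3 (.c [0, 2, 6, 8, 3, 1, 5, 4]) (.b 1 2
    (.c [0, 3, 6, 8, 2, 1, 5, 4]) (.b 1 4 (.b 5 7 (.b 2 7 (.c [0, 1, 4, 5, 7, 2, 6, 3]) (.b 3 7 (.c
    [0, 1, 4, 5, 7, 3, 6, 2]) (.b 6 7 (.c [0, 1, 4, 5, 7, 6, 2, 3]) (.b 7 8 (.c [0, 1, 4, 5, 7, 8,
    2, 3]) (.b 1 7 (.b 4 7 (.b 0 5 (.b 0 7 (.k [0, 1, 4, 5, 7]) (.b 0 6 (.b 0 8 (.k [0, 2, 3, 6, 8])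
    (.i [0, 7, 8])) (.i [0, 6, 7]))) (.b 0 6 (.b 0 8 (.k [0, 2, 3, 6, 8]) (.i [0, 5, 8])) (.i [0, 5,
    6]))) (.i [2, 4, 7])) (.i [1, 2, 7])))))) (.b 2 7 (.b 4 7 (.c [0, 1, 4, 7, 2, 6, 8, 3]) (.b 1 7
    (.c [0, 3, 6, 2, 7, 1, 5, 4]) (.b 3 7 (.b 6 7 (.b 7 8 (.k [2, 3, 6, 7, 8]) (.i [1, 7, 8])) (.i
    [1, 6, 7])) (.i [1, 3, 7])))) (.i [2, 5, 7]))) (.i [1, 2, 4])))))))))) (.b 1 2 (.b 1 3 (.b 1 6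
    (.b 0 6 (.k [0, 1, 2, 3, 6]) (.b 1 8 (.k [1, 2, 3, 6, 8]) (.i [1, 5, 8]))) (.i [1, 5, 6])) (.i
    [1, 3, 5])) (.i [1, 2, 5]))) (.i [3, 5, 8])) (.i [3, 5, 6])) (.i [2, 3, 5]))) (.i [2, 5, 8]))
    (.i [2, 5, 6]))) (.b 4 6 (.b 4 8 (.b 2 5 (.b 3 5 (.b 1 8 (.b 2 6 (.c [0, 1, 8, 4, 6, 2, 5, 3])
    (.b 3 6 (.c [0, 1, 8, 4, 6, 3, 5, 2]) (.b 2 4 (.c [0, 1, 8, 6, 4, 2, 5, 3]) (.b 3 4 (.c [0, 1,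
    8, 6, 4, 3, 5, 2]) (.b 1 3 (.c [0, 2, 5, 3, 1, 8, 6, 4]) (.b 1 2 (.c [0, 3, 5, 2, 1, 8, 6, 4])
    (.b 2 3 (.b 1 5 (.c [0, 2, 3, 5, 1, 8, 6, 4]) (.b 1 4 (.b 2 8 (.c [0, 1, 4, 6, 8, 2, 5, 3]) (.b
    3 8 (.c [0, 1, 4, 6, 8, 3, 5, 2]) (.b 1 6 (.b 5 7 (.b 6 7 (.c [0, 1, 4, 6, 7, 5, 2, 3]) (.b 7 8
    (.c [0, 1, 4, 6, 8, 7, 5, 2]) (.b 4 7 (.c [0, 1, 6, 4, 7, 5, 2, 3]) (.b 1 7 (.c [0, 2, 3, 5, 7,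
    1, 6, 4]) (.b 2 7 (.b 3 7 (.b 0 6 (.b 0 8 (.k [0, 1, 4, 6, 8]) (.b 0 5 (.b 0 7 (.k [0, 2, 3, 5,
    7]) (.i [0, 7, 8])) (.i [0, 5, 8]))) (.b 0 5 (.b 0 7 (.k [0, 2, 3, 5, 7]) (.i [0, 6, 7])) (.i
    [0, 5, 6]))) (.i [1, 3, 7])) (.i [1, 2, 7])))))) (.b 1 7 (.b 3 7 (.c [0, 2, 3, 7, 1, 6, 8, 4])
    (.b 2 7 (.c [0, 3, 2, 7, 1, 6, 8, 4]) (.b 4 7 (.b 6 7 (.b 7 8 (.k [1, 4, 6, 7, 8]) (.i [2, 7,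
    8])) (.i [2, 6, 7])) (.i [2, 4, 7])))) (.i [1, 5, 7]))) (.i [1, 2, 6])))) (.i [1, 2, 4]))) (.i
    [1, 2, 3])))))))) (.b 1 5 (.b 3 8 (.b 1 2 (.c [0, 1, 2, 5, 3, 8, 6, 4]) (.b 1 4 (.c [0, 1, 4, 6,
    8, 3, 5, 2]) (.b 2 3 (.c [0, 1, 5, 2, 3, 8, 6, 4]) (.b 2 4 (.c [0, 1, 5, 2, 4, 6, 8, 3]) (.i [1,
    2, 4]))))) (.b 1 3 (.b 2 6 (.c [0, 1, 3, 5, 2, 6, 8, 4]) (.b 2 8 (.c [0, 1, 3, 5, 2, 8, 6, 4])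
    (.b 3 6 (.c [0, 2, 5, 1, 3, 6, 8, 4]) (.b 1 6 (.c [0, 2, 5, 3, 1, 6, 8, 4]) (.b 1 2 (.b 2 3 (.b
    0 5 (.k [0, 1, 2, 3, 5]) (.b 0 6 (.b 3 4 (.c [0, 1, 2, 5, 3, 4, 8, 6]) (.b 2 4 (.c [0, 1, 3, 5,
    2, 4, 8, 6]) (.b 1 4 (.c [0, 2, 3, 5, 1, 4, 8, 6]) (.b 0 8 (.b 7 8 (.b 5 7 (.c [0, 1, 2, 3, 5,
    7, 8, 4]) (.b 3 7 (.c [0, 1, 2, 3, 7, 8, 4, 6]) (.b 2 7 (.c [0, 1, 3, 2, 7, 8, 4, 6]) (.b 1 7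
    (.c [0, 2, 3, 1, 7, 8, 4, 6]) (.b 0 7 (.b 4 7 (.b 6 7 (.k [0, 4, 6, 7, 8]) (.i [1, 6, 7])) (.i
    [1, 4, 7])) (.i [0, 5, 7])))))) (.b 1 7 (.b 4 7 (.c [0, 2, 3, 1, 7, 4, 6, 8]) (.b 6 7 (.c [0, 2,
    3, 1, 7, 6, 4, 8]) (.b 2 7 (.b 3 7 (.b 0 7 (.k [0, 1, 2, 3, 7]) (.b 5 7 (.k [1, 2, 3, 5, 7]) (.i
    [0, 5, 7]))) (.i [3, 4, 7])) (.i [2, 4, 7])))) (.i [1, 7, 8]))) (.i [0, 5, 8]))))) (.i [0, 5,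
    6]))) (.i [2, 3, 6])) (.i [1, 2, 6])))))) (.i [1, 3, 8]))) (.i [1, 5, 8]))) (.b 3 4 (.b 3 6 (.b
    3 8 (.b 1 5 (.b 2 3 (.c [0, 1, 5, 2, 3, 6, 8, 4]) (.b 2 4 (.c [0, 1, 5, 2, 4, 6, 8, 3]) (.b 2 6
    (.c [0, 1, 5, 2, 6, 3, 8, 4]) (.b 2 8 (.c [0, 1, 5, 2, 8, 3, 6, 4]) (.b 1 3 (.c [0, 2, 5, 1, 3,
    6, 8, 4]) (.b 1 4 (.c [0, 2, 5, 1, 4, 6, 8, 3]) (.b 1 6 (.c [0, 2, 5, 1, 6, 3, 8, 4]) (.b 1 8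
    (.c [0, 2, 5, 1, 8, 3, 6, 4]) (.b 1 2 (.b 5 7 (.b 3 7 (.c [0, 1, 2, 5, 7, 3, 6, 4]) (.b 4 7 (.c
    [0, 1, 2, 5, 7, 4, 6, 3]) (.b 6 7 (.c [0, 1, 2, 5, 7, 6, 3, 4]) (.b 7 8 (.c [0, 1, 2, 5, 7, 8,
    3, 4]) (.b 1 7 (.b 2 7 (.b 0 7 (.b 0 5 (.k [0, 1, 2, 5, 7]) (.b 0 6 (.b 0 8 (.k [0, 3, 4, 6, 8])
    (.i [0, 5, 8])) (.i [0, 5, 6]))) (.b 0 6 (.b 0 8 (.k [0, 3, 4, 6, 8]) (.i [0, 7, 8])) (.i [0, 6,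
    7]))) (.i [2, 3, 7])) (.i [1, 3, 7])))))) (.b 3 7 (.b 2 7 (.c [0, 1, 2, 7, 3, 6, 8, 4]) (.b 1 7
    (.c [0, 2, 1, 7, 3, 6, 8, 4]) (.b 4 7 (.b 6 7 (.b 7 8 (.k [3, 4, 6, 7, 8]) (.i [1, 7, 8])) (.i
    [1, 6, 7])) (.i [1, 4, 7])))) (.i [3, 5, 7]))) (.i [1, 2, 3])))))))))) (.b 1 3 (.b 1 4 (.b 1 6
    (.b 0 6 (.k [0, 1, 3, 4, 6]) (.b 1 8 (.k [1, 3, 4, 6, 8]) (.i [1, 5, 8]))) (.i [1, 5, 6])) (.i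
    [1, 4, 5])) (.i [1, 3, 5]))) (.i [3, 5, 8])) (.i [3, 5, 6])) (.i [3, 4, 5]))) (.b 2 4 (.b 2 6
    (.b 2 8 (.b 1 7 (.b 3 7 (.b 2 3 (.c [0, 1, 7, 3, 2, 6, 8, 4]) (.b 3 4 (.c [0, 1, 7, 3, 4, 6, 8,
    2]) (.b 3 6 (.c [0, 1, 7, 3, 6, 2, 8, 4]) (.b 3 8 (.c [0, 1, 7, 3, 8, 2, 6, 4]) (.b 1 8 (.c [0,
    2, 4, 6, 8, 1, 7, 3]) (.b 1 6 (.c [0, 2, 4, 8, 6, 1, 7, 3]) (.b 1 4 (.c [0, 2, 6, 8, 4, 1, 7,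
    3]) (.b 1 2 (.c [0, 3, 7, 1, 2, 6, 8, 4]) (.b 1 3 (.b 2 7 (.c [0, 1, 3, 7, 2, 6, 8, 4]) (.b 4 7
    (.c [0, 1, 3, 7, 4, 6, 8, 2]) (.b 6 7 (.c [0, 1, 3, 7, 6, 2, 8, 4]) (.b 7 8 (.c [0, 1, 3, 7, 8,
    2, 6, 4]) (.b 1 5 (.b 3 5 (.b 5 7 (.b 0 7 (.b 0 5 (.k [0, 1, 3, 5, 7]) (.b 0 6 (.b 0 8 (.k [0,
    2, 4, 6, 8]) (.i [0, 5, 8])) (.i [0, 5, 6]))) (.b 0 6 (.b 0 8 (.k [0, 2, 4, 6, 8]) (.i [0, 7,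
    8])) (.i [0, 6, 7]))) (.i [2, 5, 7])) (.i [2, 3, 5])) (.i [1, 2, 5])))))) (.i [1, 2,
    3])))))))))) (.b 1 3 (.b 7 8 (.c [0, 2, 4, 6, 8, 7, 1, 3]) (.b 6 7 (.c [0, 2, 4, 8, 6, 7, 1, 3])
    (.b 4 7 (.c [0, 2, 6, 8, 4, 7, 1, 3]) (.b 2 7 (.c [0, 3, 1, 7, 2, 6, 8, 4]) (.b 2 3 (.b 0 7 (.c
    [0, 4, 6, 8, 2, 3, 1, 7]) (.b 0 6 (.b 0 8 (.k [0, 2, 4, 6, 8]) (.i [0, 7, 8])) (.i [0, 6, 7])))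
    (.i [2, 3, 7])))))) (.b 3 6 (.b 2 7 (.c [0, 1, 7, 2, 4, 8, 6, 3]) (.b 4 7 (.c [0, 1, 7, 4, 2, 8,
    6, 3]) (.b 7 8 (.c [0, 1, 7, 8, 2, 4, 6, 3]) (.b 2 3 (.b 6 7 (.c [0, 1, 7, 6, 3, 2, 8, 4]) (.b 5
    7 (.b 3 5 (.c [0, 1, 7, 5, 3, 2, 6, 4]) (.b 1 5 (.b 3 4 (.b 0 6 (.k [0, 2, 3, 4, 6]) (.b 3 8 (.k
    [2, 3, 4, 6, 8]) (.i [3, 5, 8]))) (.i [3, 4, 5])) (.i [1, 3, 5]))) (.i [2, 5, 7]))) (.i [2, 3,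
    7]))))) (.b 1 6 (.b 3 5 (.b 5 7 (.c [0, 2, 4, 6, 1, 7, 5, 3]) (.b 1 5 (.c [0, 2, 4, 8, 6, 1, 5,
    3]) (.b 1 2 (.b 1 4 (.b 0 6 (.k [0, 1, 2, 4, 6]) (.b 1 8 (.k [1, 2, 4, 6, 8]) (.i [1, 5, 8])))
    (.i [1, 4, 5])) (.i [1, 2, 5])))) (.i [3, 5, 6])) (.i [1, 3, 6]))))) (.b 3 5 (.b 1 5 (.b 2 3 (.c
    [0, 1, 5, 3, 2, 6, 8, 4]) (.b 3 4 (.c [0, 1, 5, 3, 4, 6, 8, 2]) (.b 3 6 (.c [0, 1, 5, 3, 6, 2,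
    8, 4]) (.b 3 8 (.c [0, 1, 5, 3, 8, 2, 6, 4]) (.b 1 8 (.c [0, 2, 4, 6, 8, 1, 5, 3]) (.b 1 6 (.c
    [0, 2, 4, 8, 6, 1, 5, 3]) (.b 1 4 (.c [0, 2, 6, 8, 4, 1, 5, 3]) (.b 1 2 (.c [0, 3, 5, 1, 2, 6,
    8, 4]) (.b 1 3 (.b 2 7 (.b 5 7 (.c [0, 1, 3, 5, 7, 2, 6, 4]) (.b 3 7 (.c [0, 1, 3, 7, 2, 6, 8,
    4]) (.b 4 7 (.b 6 7 (.b 7 8 (.k [2, 4, 6, 7, 8]) (.i [1, 7, 8])) (.i [1, 6, 7])) (.i [1, 4,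
    7])))) (.i [1, 2, 7])) (.i [1, 2, 3])))))))))) (.b 1 2 (.b 1 4 (.b 1 6 (.b 0 6 (.k [0, 1, 2, 4,
    6]) (.b 1 8 (.k [1, 2, 4, 6, 8]) (.i [1, 5, 8]))) (.i [1, 5, 6])) (.i [1, 4, 5])) (.i [1, 2,
    5]))) (.b 2 3 (.b 3 4 (.b 3 6 (.b 0 6 (.k [0, 2, 3, 4, 6]) (.b 3 8 (.k [2, 3, 4, 6, 8]) (.i [3,
    5, 8]))) (.i [3, 5, 6])) (.i [3, 4, 5])) (.i [2, 3, 5])))) (.i [2, 5, 8])) (.i [2, 5, 6])) (.i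
    [2, 4, 5]))) (.i [4, 5, 8])) (.i [4, 5, 6]))) (.i [5, 6, 8]))),
  by decide +kernel⟩

/-- small `C_4`-free graphs -/
theorem tree41 : ∃ t : Tr, t.check 4 4 11 2 (mask [(0, 1), (0, 2), (0, 3)]) 0 = true :=
  ⟨.b 1 2 (.b 2 3 (.c [0, 1, 2, 3]) (.i [2, 3])) (.i [1, 2]),
  by decide +kernel⟩

/-- small `C_4`-free graphs -/
theorem tree42 : ∃ t : Tr, t.check 7 4 11 3 (mask [(0, 1), (0, 2), (0, 3), (1, 4), (2, 5), (3, 6)]) 0 = true :=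
  ⟨.b 2 4 (.c [0, 1, 4, 2]) (.b 3 4 (.c [0, 1, 4, 3]) (.b 1 5 (.c [0, 1, 5, 2]) (.b 1 6 (.c [0, 1,
    6, 3]) (.b 3 5 (.c [0, 2, 5, 3]) (.b 2 6 (.c [0, 2, 6, 3]) (.b 1 2 (.b 2 3 (.c [0, 1, 2, 3]) (.i
    [2, 3, 4])) (.i [1, 2, 6]))))))),
  by decide +kernel⟩

/-- small `C_4`-free graphs -/
theorem tree43 : ∃ t : Tr, t.check 10 4 11 4 (mask [(0, 1), (0, 2), (0, 3), (1, 4), (2, 5), (3, 6)]) 0 = true :=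
  ⟨.b 2 4 (.c [0, 1, 4, 2]) (.b 3 4 (.c [0, 1, 4, 3]) (.b 1 5 (.c [0, 1, 5, 2]) (.b 1 6 (.c [0, 1,
    6, 3]) (.b 3 5 (.c [0, 2, 5, 3]) (.b 2 6 (.c [0, 2, 6, 3]) (.b 1 3 (.b 2 3 (.c [0, 1, 3, 2]) (.b
    0 6 (.c [0, 1, 3, 6]) (.b 1 2 (.c [0, 2, 1, 3]) (.b 0 4 (.c [0, 3, 1, 4]) (.b 4 6 (.c [1, 3, 6,
    4]) (.b 0 7 (.b 3 7 (.c [0, 1, 3, 7]) (.b 4 7 (.c [0, 1, 4, 7]) (.b 5 7 (.c [0, 2, 5, 7]) (.b 1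
    7 (.c [0, 3, 1, 7]) (.b 6 7 (.c [0, 3, 6, 7]) (.b 2 7 (.b 0 5 (.c [0, 5, 2, 7]) (.b 5 6 (.b 4 5
    (.b 0 9 (.b 3 9 (.c [0, 1, 3, 9]) (.b 4 9 (.c [0, 1, 4, 9]) (.b 5 9 (.c [0, 2, 5, 9]) (.b 7 9
    (.c [0, 2, 7, 9]) (.i [3, 4, 7, 9]))))) (.b 1 8 (.b 2 8 (.c [0, 1, 8, 2]) (.b 3 8 (.c [0, 1, 8,
    3]) (.b 7 8 (.c [0, 1, 8, 7]) (.b 0 8 (.c [0, 3, 1, 8]) (.b 6 8 (.c [1, 3, 6, 8]) (.b 5 8 (.c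
    [1, 4, 5, 8]) (.i [3, 5, 7, 8]))))))) (.b 7 8 (.b 0 8 (.c [0, 2, 7, 8]) (.b 2 8 (.c [0, 2, 8,
    7]) (.b 3 8 (.c [0, 3, 8, 7]) (.b 5 8 (.c [2, 5, 8, 7]) (.b 6 8 (.b 4 8 (.c [4, 5, 6, 8]) (.i
    [2, 3, 4, 8])) (.i [1, 2, 6, 8])))))) (.b 5 8 (.b 0 8 (.c [0, 2, 5, 8]) (.b 3 8 (.c [3, 6, 5,
    8]) (.b 6 8 (.b 2 8 (.c [2, 5, 6, 8]) (.b 4 8 (.c [4, 5, 6, 8]) (.i [2, 3, 4, 8]))) (.i [1, 6,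
    7, 8])))) (.i [1, 5, 7, 8]))))) (.i [3, 4, 5, 7])) (.i [1, 5, 6, 7]))) (.i [1, 2, 6, 7])))))))
    (.b 0 9 (.b 3 9 (.c [0, 1, 3, 9]) (.b 4 9 (.c [0, 1, 4, 9]) (.b 5 9 (.c [0, 2, 5, 9]) (.b 1 9
    (.c [0, 3, 1, 9]) (.b 6 9 (.c [0, 3, 6, 9]) (.b 2 9 (.b 0 5 (.c [0, 5, 2, 9]) (.b 5 6 (.b 4 5
    (.b 6 7 (.b 1 7 (.c [1, 3, 6, 7]) (.b 2 7 (.c [2, 5, 6, 7]) (.b 4 7 (.c [4, 5, 6, 7]) (.b 3 7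
    (.b 7 9 (.c [0, 3, 7, 9]) (.b 5 7 (.c [3, 6, 5, 7]) (.i [1, 5, 7, 9]))) (.i [2, 3, 4, 7])))))
    (.b 4 7 (.b 3 7 (.c [1, 3, 7, 4]) (.b 2 7 (.c [2, 5, 4, 7]) (.b 1 7 (.b 7 9 (.c [0, 1, 7, 9])
    (.b 5 7 (.c [1, 4, 5, 7]) (.i [3, 5, 7, 9]))) (.i [1, 2, 6, 7])))) (.i [0, 4, 6, 7]))) (.i [3,
    4, 5, 9])) (.i [1, 5, 6, 9]))) (.i [1, 2, 6, 9]))))))) (.b 0 8 (.b 3 8 (.c [0, 1, 3, 8]) (.b 4 8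
    (.c [0, 1, 4, 8]) (.b 5 8 (.c [0, 2, 5, 8]) (.b 1 8 (.c [0, 3, 1, 8]) (.b 6 8 (.c [0, 3, 6, 8])
    (.b 2 8 (.b 0 5 (.c [0, 5, 2, 8]) (.b 5 6 (.b 4 5 (.b 6 7 (.b 1 7 (.c [1, 3, 6, 7]) (.b 2 7 (.c
    [2, 5, 6, 7]) (.b 4 7 (.c [4, 5, 6, 7]) (.b 3 7 (.b 7 8 (.c [0, 3, 7, 8]) (.b 5 7 (.c [3, 6, 5,
    7]) (.i [1, 5, 7, 8]))) (.i [2, 3, 4, 7]))))) (.b 4 7 (.b 3 7 (.c [1, 3, 7, 4]) (.b 2 7 (.c [2,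
    5, 4, 7]) (.b 1 7 (.b 7 8 (.c [0, 1, 7, 8]) (.b 5 7 (.c [1, 4, 5, 7]) (.i [3, 5, 7, 8]))) (.i
    [1, 2, 6, 7])))) (.i [0, 4, 6, 7]))) (.i [3, 4, 5, 8])) (.i [1, 5, 6, 8]))) (.i [1, 2, 6,
    8]))))))) (.b 4 9 (.b 3 9 (.c [1, 3, 9, 4]) (.b 4 8 (.b 3 8 (.c [1, 3, 8, 4]) (.b 1 8 (.b 2 8
    (.c [0, 1, 8, 2]) (.b 6 8 (.c [1, 3, 6, 8]) (.b 8 9 (.c [1, 4, 9, 8]) (.b 1 9 (.c [1, 8, 4, 9])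
    (.b 6 9 (.b 2 9 (.b 4 5 (.c [2, 5, 4, 9]) (.b 5 6 (.c [2, 5, 6, 9]) (.b 0 5 (.b 5 8 (.c [0, 1,
    8, 5]) (.b 5 9 (.c [0, 2, 9, 5]) (.i [3, 5, 8, 9]))) (.i [0, 4, 5, 6])))) (.i [2, 3, 8, 9])) (.i
    [0, 6, 8, 9])))))) (.b 1 7 (.b 2 7 (.c [0, 1, 7, 2]) (.b 3 7 (.c [0, 1, 7, 3]) (.b 6 7 (.c [1,
    3, 6, 7]) (.b 7 8 (.c [1, 4, 8, 7]) (.b 7 9 (.c [1, 4, 9, 7]) (.b 4 7 (.b 1 9 (.c [1, 7, 4, 9])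
    (.b 6 8 (.b 6 9 (.c [4, 8, 6, 9]) (.i [0, 6, 7, 9])) (.i [0, 6, 7, 8]))) (.i [0, 4, 6, 7])))))))
    (.b 4 7 (.b 3 7 (.c [1, 3, 7, 4]) (.b 2 7 (.b 4 5 (.c [2, 5, 4, 7]) (.b 2 8 (.c [2, 7, 4, 8])
    (.b 2 9 (.c [2, 7, 4, 9]) (.b 6 8 (.b 6 7 (.c [4, 7, 6, 8]) (.b 6 9 (.c [4, 8, 6, 9]) (.b 7 9
    (.b 1 9 (.c [1, 4, 7, 9]) (.i [1, 2, 6, 9])) (.i [0, 6, 7, 9])))) (.i [1, 2, 6, 8]))))) (.b 6 7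
    (.b 6 8 (.c [4, 7, 6, 8]) (.b 6 9 (.c [4, 7, 6, 9]) (.b 8 9 (.b 1 9 (.c [1, 4, 8, 9]) (.b 7 8
    (.c [4, 7, 8, 9]) (.b 7 9 (.c [4, 7, 9, 8]) (.b 2 8 (.b 4 5 (.c [2, 5, 4, 8]) (.b 5 9 (.c [2, 5,
    9, 8]) (.b 2 9 (.c [2, 8, 4, 9]) (.i [1, 2, 6, 9])))) (.i [1, 2, 6, 8]))))) (.i [0, 6, 8, 9]))))
    (.i [1, 2, 6, 7])))) (.b 6 7 (.b 2 8 (.b 4 5 (.c [2, 5, 4, 8]) (.b 2 9 (.c [2, 8, 4, 9]) (.b 0 5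
    (.b 5 8 (.c [0, 2, 8, 5]) (.b 5 6 (.c [0, 3, 6, 5]) (.b 6 8 (.b 2 7 (.c [2, 7, 6, 8]) (.b 6 9
    (.c [4, 8, 6, 9]) (.b 1 9 (.b 5 9 (.c [0, 1, 9, 5]) (.b 8 9 (.c [1, 4, 8, 9]) (.i [3, 5, 8,
    9]))) (.i [1, 2, 6, 9])))) (.i [1, 5, 6, 8])))) (.b 5 6 (.b 2 7 (.c [2, 5, 6, 7]) (.b 6 8 (.c
    [2, 5, 6, 8]) (.b 5 7 (.b 7 8 (.c [2, 5, 7, 8]) (.b 3 7 (.c [3, 6, 5, 7]) (.i [2, 3, 4, 7])))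
    (.i [0, 4, 5, 7])))) (.i [0, 4, 5, 6]))))) (.b 6 8 (.b 6 9 (.c [4, 8, 6, 9]) (.b 2 9 (.b 1 9 (.c
    [0, 1, 9, 2]) (.b 4 5 (.c [2, 5, 4, 9]) (.b 5 7 (.b 7 9 (.c [2, 5, 7, 9]) (.b 5 8 (.c [5, 7, 6,
    8]) (.b 5 9 (.b 0 5 (.c [0, 2, 9, 5]) (.b 2 7 (.c [2, 7, 5, 9]) (.b 5 6 (.b 3 7 (.c [3, 6, 5,
    7]) (.i [2, 3, 4, 7])) (.i [0, 4, 5, 6])))) (.b 5 6 (.b 0 5 (.c [0, 3, 6, 5]) (.b 2 7 (.c [2, 5,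
    6, 7]) (.b 3 7 (.c [3, 6, 5, 7]) (.i [2, 3, 4, 7])))) (.i [1, 5, 6, 9]))))) (.b 0 5 (.b 5 9 (.c
    [0, 2, 9, 5]) (.b 5 6 (.c [0, 3, 6, 5]) (.i [1, 5, 6, 9]))) (.i [0, 4, 5, 7]))))) (.b 1 9 (.b 8
    9 (.c [1, 4, 8, 9]) (.i [2, 3, 8, 9])) (.i [1, 2, 6, 9])))) (.i [1, 2, 6, 8]))) (.i [0, 4, 6,
    7])))))) (.b 6 8 (.b 1 8 (.c [1, 3, 6, 8]) (.b 4 7 (.b 3 7 (.c [1, 3, 7, 4]) (.b 2 8 (.b 3 8 (.c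
    [0, 2, 8, 3]) (.b 5 6 (.c [2, 5, 6, 8]) (.b 4 5 (.b 0 5 (.c [0, 1, 4, 5]) (.b 2 7 (.c [2, 5, 4,
    7]) (.b 2 9 (.c [2, 5, 4, 9]) (.b 7 9 (.b 1 9 (.c [1, 4, 7, 9]) (.b 1 7 (.c [1, 4, 9, 7]) (.b 5
    7 (.c [4, 5, 7, 9]) (.b 5 9 (.c [4, 5, 9, 7]) (.b 6 7 (.b 6 9 (.c [4, 7, 6, 9]) (.i [0, 5, 6,
    9])) (.i [0, 5, 6, 7])))))) (.i [2, 3, 7, 9]))))) (.b 0 5 (.b 5 8 (.c [0, 2, 8, 5]) (.i [3, 4,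
    5, 8])) (.i [0, 4, 5, 6]))))) (.b 3 8 (.b 1 9 (.b 2 9 (.c [0, 1, 9, 2]) (.b 6 9 (.c [1, 3, 6,
    9]) (.b 8 9 (.c [1, 3, 8, 9]) (.b 7 9 (.c [1, 4, 7, 9]) (.b 1 7 (.c [1, 7, 4, 9]) (.b 6 7 (.b 7
    8 (.c [3, 6, 7, 8]) (.i [0, 7, 8, 9])) (.i [0, 6, 7, 9]))))))) (.b 2 9 (.b 4 5 (.c [2, 5, 4, 9])
    (.b 2 7 (.c [2, 7, 4, 9]) (.b 0 5 (.b 5 9 (.c [0, 2, 9, 5]) (.b 5 6 (.c [0, 3, 6, 5]) (.b 5 8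
    (.c [0, 3, 8, 5]) (.b 6 9 (.b 8 9 (.c [3, 6, 9, 8]) (.i [1, 5, 8, 9])) (.i [1, 5, 6, 9]))))) (.b
    5 6 (.b 6 9 (.c [2, 5, 6, 9]) (.b 5 8 (.c [3, 6, 5, 8]) (.i [0, 4, 5, 8]))) (.i [0, 4, 5,
    6]))))) (.b 6 9 (.b 8 9 (.c [3, 6, 9, 8]) (.i [1, 2, 8, 9])) (.i [1, 2, 6, 9])))) (.i [2, 3, 4,
    8])))) (.b 6 7 (.b 1 7 (.c [1, 3, 6, 7]) (.b 7 8 (.b 3 8 (.c [3, 6, 7, 8]) (.b 3 7 (.c [3, 6, 8,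
    7]) (.b 2 7 (.b 5 6 (.c [2, 5, 6, 7]) (.b 5 8 (.c [2, 5, 8, 7]) (.b 2 8 (.c [2, 7, 6, 8]) (.i
    [2, 3, 4, 8])))) (.i [2, 3, 4, 7])))) (.i [0, 4, 7, 8]))) (.i [0, 4, 6, 7])))) (.i [0, 4, 6,
    8])))) (.b 6 9 (.b 1 9 (.c [1, 3, 6, 9]) (.b 2 9 (.b 3 9 (.c [0, 2, 9, 3]) (.b 5 6 (.c [2, 5, 6,
    9]) (.b 0 5 (.b 4 5 (.c [0, 1, 4, 5]) (.b 5 9 (.c [0, 2, 9, 5]) (.i [3, 4, 5, 9]))) (.b 4 5 (.b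
    6 8 (.b 1 8 (.c [1, 3, 6, 8]) (.b 2 8 (.c [2, 8, 6, 9]) (.b 6 7 (.b 1 7 (.c [1, 3, 6, 7]) (.b 2
    7 (.c [2, 7, 6, 9]) (.b 7 8 (.b 3 8 (.c [3, 6, 7, 8]) (.b 3 7 (.c [3, 6, 8, 7]) (.b 8 9 (.c [6,
    7, 8, 9]) (.b 7 9 (.c [6, 8, 7, 9]) (.b 4 7 (.b 5 8 (.c [4, 5, 8, 7]) (.b 4 8 (.c [4, 7, 6, 8])
    (.i [0, 4, 8, 9]))) (.i [0, 4, 7, 9])))))) (.i [1, 2, 7, 8])))) (.b 4 7 (.b 3 7 (.c [1, 3, 7,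
    4]) (.b 2 7 (.c [2, 5, 4, 7]) (.b 5 7 (.b 1 7 (.c [1, 4, 5, 7]) (.i [1, 2, 6, 7])) (.i [0, 5, 6,
    7])))) (.i [0, 4, 6, 7]))))) (.b 4 8 (.b 3 8 (.c [1, 3, 8, 4]) (.b 2 8 (.c [2, 5, 4, 8]) (.b 5 8
    (.b 1 8 (.c [1, 4, 5, 8]) (.i [1, 2, 6, 8])) (.i [0, 5, 6, 8])))) (.i [0, 4, 6, 8]))) (.i [0, 4,
    5, 6]))))) (.b 3 9 (.b 7 9 (.b 1 7 (.c [1, 3, 9, 7]) (.b 6 7 (.c [3, 6, 7, 9]) (.b 3 7 (.c [3,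
    6, 9, 7]) (.b 4 7 (.b 2 7 (.b 4 5 (.c [2, 5, 4, 7]) (.b 5 9 (.c [2, 5, 9, 7]) (.b 0 5 (.b 5 7
    (.c [0, 2, 7, 5]) (.b 5 6 (.c [0, 3, 6, 5]) (.i [1, 5, 6, 7]))) (.i [0, 4, 5, 9])))) (.i [1, 2,
    6, 7])) (.i [0, 4, 6, 7]))))) (.b 4 7 (.b 3 7 (.c [1, 3, 7, 4]) (.b 8 9 (.b 1 8 (.c [1, 3, 9,
    8]) (.b 6 8 (.c [3, 6, 8, 9]) (.b 3 8 (.c [3, 6, 9, 8]) (.b 4 8 (.b 2 8 (.b 4 5 (.c [2, 5, 4,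
    8]) (.b 5 9 (.c [2, 5, 9, 8]) (.b 2 7 (.c [2, 7, 4, 8]) (.b 0 5 (.b 5 8 (.c [0, 2, 8, 5]) (.b 5
    6 (.c [0, 3, 6, 5]) (.i [1, 5, 6, 8]))) (.i [0, 4, 5, 9]))))) (.i [1, 2, 6, 8])) (.i [0, 4, 6,
    8]))))) (.b 4 8 (.b 3 8 (.c [1, 3, 8, 4]) (.b 7 8 (.b 1 8 (.c [1, 4, 7, 8]) (.b 1 7 (.c [1, 4,
    8, 7]) (.b 2 7 (.b 4 5 (.c [2, 5, 4, 7]) (.b 5 8 (.c [2, 5, 8, 7]) (.b 2 8 (.c [2, 7, 4, 8]) (.i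
    [1, 2, 8, 9])))) (.i [1, 2, 7, 9])))) (.i [0, 7, 8, 9]))) (.i [0, 4, 8, 9])))) (.i [0, 4, 7,
    9]))) (.i [2, 3, 4, 9])))) (.i [0, 4, 6, 9]))))))))))) (.b 1 2 (.b 2 3 (.c [0, 1, 2, 3]) (.b 0 5
    (.c [0, 1, 2, 5]) (.b 0 4 (.c [0, 2, 1, 4]) (.b 4 5 (.c [1, 2, 5, 4]) (.b 0 8 (.b 2 8 (.c [0, 1,
    2, 8]) (.b 4 8 (.c [0, 1, 4, 8]) (.b 1 8 (.c [0, 2, 1, 8]) (.b 5 8 (.c [0, 2, 5, 8]) (.b 6 8 (.c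
    [0, 3, 6, 8]) (.b 3 8 (.b 0 6 (.c [0, 6, 3, 8]) (.b 5 6 (.b 4 6 (.b 1 7 (.b 2 7 (.c [0, 1, 7,
    2]) (.b 3 7 (.c [0, 1, 7, 3]) (.b 7 8 (.c [0, 1, 7, 8]) (.b 0 7 (.c [0, 2, 1, 7]) (.b 5 7 (.c
    [1, 2, 5, 7]) (.b 6 7 (.c [1, 4, 6, 7]) (.i [2, 6, 7, 8]))))))) (.b 7 8 (.b 2 7 (.c [0, 2, 7,
    8]) (.b 3 7 (.c [0, 3, 7, 8]) (.b 0 7 (.c [0, 3, 8, 7]) (.b 6 7 (.c [3, 6, 7, 8]) (.b 5 7 (.b 4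
    7 (.c [4, 6, 5, 7]) (.i [2, 3, 4, 7])) (.i [1, 3, 5, 7])))))) (.b 5 7 (.b 0 7 (.c [0, 2, 5, 7])
    (.b 3 7 (.c [3, 6, 5, 7]) (.b 4 7 (.c [4, 6, 5, 7]) (.b 6 7 (.b 2 7 (.c [2, 5, 6, 7]) (.i [2, 3,
    4, 7])) (.i [1, 6, 7, 8]))))) (.i [1, 5, 7, 8])))) (.i [2, 4, 6, 8])) (.i [1, 5, 6, 8]))) (.i
    [1, 3, 5, 8]))))))) (.b 0 7 (.b 2 7 (.c [0, 1, 2, 7]) (.b 4 7 (.c [0, 1, 4, 7]) (.b 1 7 (.c [0,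
    2, 1, 7]) (.b 5 7 (.c [0, 2, 5, 7]) (.b 6 7 (.c [0, 3, 6, 7]) (.b 3 7 (.b 0 6 (.c [0, 6, 3, 7])
    (.b 5 6 (.b 4 6 (.b 4 8 (.b 2 8 (.c [1, 2, 8, 4]) (.b 3 8 (.c [3, 6, 4, 8]) (.b 5 8 (.c [4, 6,
    5, 8]) (.b 1 8 (.b 7 8 (.c [0, 1, 8, 7]) (.b 6 8 (.c [1, 4, 6, 8]) (.i [2, 6, 7, 8]))) (.i [1,
    3, 5, 8]))))) (.b 5 8 (.b 1 8 (.c [1, 2, 5, 8]) (.b 3 8 (.c [3, 6, 5, 8]) (.b 2 8 (.b 7 8 (.c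
    [0, 2, 8, 7]) (.b 6 8 (.c [2, 5, 6, 8]) (.i [1, 6, 7, 8]))) (.i [2, 3, 4, 8])))) (.i [0, 4, 5,
    8]))) (.i [2, 4, 6, 7])) (.i [1, 5, 6, 7]))) (.i [1, 3, 5, 7]))))))) (.b 0 9 (.b 2 9 (.c [0, 1,
    2, 9]) (.b 4 9 (.c [0, 1, 4, 9]) (.b 1 9 (.c [0, 2, 1, 9]) (.b 5 9 (.c [0, 2, 5, 9]) (.b 6 9 (.c
    [0, 3, 6, 9]) (.b 3 9 (.b 0 6 (.c [0, 6, 3, 9]) (.b 5 6 (.b 4 6 (.b 4 7 (.b 2 7 (.c [1, 2, 7,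
    4]) (.b 3 7 (.c [3, 6, 4, 7]) (.b 5 7 (.c [4, 6, 5, 7]) (.b 1 7 (.b 7 9 (.c [0, 1, 7, 9]) (.b 6
    7 (.c [1, 4, 6, 7]) (.i [2, 6, 7, 9]))) (.i [1, 3, 5, 7]))))) (.b 5 7 (.b 1 7 (.c [1, 2, 5, 7])
    (.b 3 7 (.c [3, 6, 5, 7]) (.b 2 7 (.b 7 9 (.c [0, 2, 7, 9]) (.b 6 7 (.c [2, 5, 6, 7]) (.i [1, 6,
    7, 9]))) (.i [2, 3, 4, 7])))) (.i [0, 4, 5, 7]))) (.i [2, 4, 6, 9])) (.i [1, 5, 6, 9]))) (.i [1,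
    3, 5, 9]))))))) (.b 5 8 (.b 1 8 (.c [1, 2, 5, 8]) (.b 2 9 (.b 1 9 (.c [0, 1, 9, 2]) (.b 3 9 (.c
    [0, 2, 9, 3]) (.b 4 9 (.c [1, 2, 9, 4]) (.b 8 9 (.c [2, 5, 8, 9]) (.b 5 9 (.b 2 8 (.c [2, 8, 5,
    9]) (.b 4 8 (.b 3 8 (.b 4 6 (.c [3, 6, 4, 8]) (.b 5 6 (.c [3, 6, 5, 8]) (.b 0 6 (.b 6 9 (.c [0,
    2, 9, 6]) (.b 6 8 (.c [0, 3, 8, 6]) (.i [1, 6, 8, 9]))) (.i [0, 4, 5, 6])))) (.i [1, 3, 8, 9]))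
    (.i [0, 4, 8, 9]))) (.i [0, 4, 5, 9])))))) (.b 5 7 (.b 1 7 (.c [1, 2, 5, 7]) (.b 5 9 (.b 1 9 (.c
    [1, 2, 5, 9]) (.b 3 9 (.b 5 6 (.c [3, 6, 5, 9]) (.b 3 7 (.c [3, 7, 5, 9]) (.b 3 8 (.c [3, 8, 5,
    9]) (.b 7 8 (.b 2 8 (.c [2, 5, 7, 8]) (.b 2 7 (.c [2, 5, 8, 7]) (.b 8 9 (.c [5, 7, 8, 9]) (.b 7
    9 (.c [5, 8, 7, 9]) (.b 4 7 (.b 4 8 (.c [4, 7, 5, 8]) (.i [2, 3, 4, 8])) (.i [2, 3, 4, 7]))))))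
    (.i [1, 3, 7, 8]))))) (.b 4 9 (.b 4 7 (.c [4, 7, 5, 9]) (.b 4 8 (.c [4, 8, 5, 9]) (.b 7 8 (.b 2
    8 (.c [2, 5, 7, 8]) (.b 2 7 (.c [2, 5, 8, 7]) (.b 8 9 (.c [5, 7, 8, 9]) (.b 7 9 (.c [5, 8, 7,
    9]) (.b 3 7 (.b 5 6 (.c [3, 6, 5, 7]) (.b 6 8 (.c [3, 6, 8, 7]) (.b 3 8 (.c [3, 7, 5, 8]) (.i
    [1, 3, 8, 9])))) (.i [1, 3, 7, 9])))))) (.i [0, 4, 7, 8])))) (.i [2, 3, 4, 9])))) (.b 4 9 (.b 3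
    9 (.b 1 9 (.c [0, 1, 9, 3]) (.b 4 6 (.c [3, 6, 4, 9]) (.b 5 6 (.b 0 6 (.c [0, 2, 5, 6]) (.b 3 7
    (.c [3, 6, 5, 7]) (.b 3 8 (.c [3, 6, 5, 8]) (.b 7 8 (.b 2 8 (.c [2, 5, 7, 8]) (.b 2 7 (.c [2, 5,
    8, 7]) (.b 6 7 (.c [5, 6, 7, 8]) (.b 6 8 (.c [5, 6, 8, 7]) (.b 4 7 (.b 4 8 (.c [4, 7, 5, 8]) (.i
    [0, 4, 6, 8])) (.i [0, 4, 6, 7])))))) (.i [1, 3, 7, 8]))))) (.b 0 6 (.b 6 9 (.c [0, 3, 9, 6])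
    (.i [1, 5, 6, 9])) (.i [0, 4, 5, 6]))))) (.b 1 9 (.b 2 7 (.b 3 7 (.c [0, 2, 7, 3]) (.b 4 7 (.c
    [1, 2, 7, 4]) (.b 7 9 (.c [1, 2, 7, 9]) (.b 7 8 (.c [2, 5, 8, 7]) (.b 2 8 (.c [2, 7, 5, 8]) (.b
    4 8 (.b 8 9 (.c [1, 4, 8, 9]) (.i [0, 7, 8, 9])) (.i [0, 4, 7, 8]))))))) (.b 3 7 (.b 5 6 (.c [3,
    6, 5, 7]) (.b 3 8 (.c [3, 7, 5, 8]) (.b 2 8 (.b 4 8 (.c [1, 2, 8, 4]) (.b 8 9 (.c [1, 2, 8, 9])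
    (.b 7 8 (.c [2, 5, 7, 8]) (.b 4 7 (.b 7 9 (.c [1, 4, 7, 9]) (.i [0, 7, 8, 9])) (.i [0, 4, 7,
    8]))))) (.b 4 8 (.b 8 9 (.c [1, 4, 8, 9]) (.i [2, 3, 8, 9])) (.i [2, 3, 4, 8]))))) (.b 4 7 (.b 7
    9 (.c [1, 4, 7, 9]) (.i [2, 3, 7, 9])) (.i [2, 3, 4, 7])))) (.i [1, 3, 5, 9]))) (.i [0, 4, 5,
    9])))) (.b 4 7 (.b 2 7 (.c [1, 2, 7, 4]) (.b 5 9 (.b 1 9 (.c [1, 2, 5, 9]) (.b 3 9 (.b 5 6 (.c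
    [3, 6, 5, 9]) (.b 3 8 (.c [3, 8, 5, 9]) (.b 0 6 (.b 4 6 (.c [0, 1, 4, 6]) (.b 6 9 (.c [0, 3, 9,
    6]) (.b 4 9 (.b 3 7 (.c [3, 7, 4, 9]) (.b 4 8 (.c [4, 8, 5, 9]) (.b 1 7 (.b 6 7 (.c [0, 1, 7,
    6]) (.b 7 9 (.c [1, 4, 9, 7]) (.i [2, 6, 7, 9]))) (.i [1, 3, 5, 7])))) (.i [2, 4, 6, 9])))) (.b
    4 6 (.b 3 7 (.c [3, 6, 4, 7]) (.b 4 9 (.c [3, 6, 4, 9]) (.b 6 7 (.b 1 7 (.c [1, 4, 6, 7]) (.i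
    [1, 3, 5, 7])) (.i [0, 5, 6, 7])))) (.i [0, 4, 5, 6]))))) (.b 4 9 (.b 4 8 (.c [4, 8, 5, 9]) (.b
    3 7 (.b 1 7 (.c [0, 1, 7, 3]) (.b 4 6 (.c [3, 6, 4, 7]) (.b 3 8 (.b 2 8 (.c [0, 2, 8, 3]) (.b 5
    6 (.c [3, 6, 5, 8]) (.b 0 6 (.b 6 7 (.c [0, 3, 7, 6]) (.i [1, 5, 6, 7])) (.i [0, 4, 5, 6]))))
    (.b 8 9 (.b 2 8 (.c [2, 5, 9, 8]) (.i [2, 3, 4, 8])) (.i [1, 3, 8, 9]))))) (.b 1 7 (.b 7 9 (.c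
    [1, 4, 9, 7]) (.i [2, 3, 7, 9])) (.i [1, 3, 5, 7])))) (.i [2, 3, 4, 9])))) (.b 4 9 (.b 7 9 (.b 1
    9 (.c [1, 4, 7, 9]) (.b 1 7 (.c [1, 4, 9, 7]) (.b 3 7 (.b 4 6 (.c [3, 6, 4, 7]) (.b 6 9 (.c [3,
    6, 9, 7]) (.b 3 9 (.c [3, 7, 4, 9]) (.i [1, 3, 5, 9])))) (.i [1, 3, 5, 7])))) (.i [0, 5, 7, 9]))
    (.i [0, 4, 5, 9])))) (.i [0, 4, 5, 7]))))) (.b 4 8 (.b 2 8 (.c [1, 2, 8, 4]) (.b 5 9 (.b 1 9 (.c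
    [1, 2, 5, 9]) (.b 5 7 (.b 1 7 (.c [1, 2, 5, 7]) (.b 3 8 (.b 1 8 (.c [0, 1, 8, 3]) (.b 4 6 (.c
    [3, 6, 4, 8]) (.b 5 6 (.b 0 6 (.c [0, 2, 5, 6]) (.b 3 7 (.c [3, 6, 5, 7]) (.b 3 9 (.c [3, 6, 5,
    9]) (.b 7 9 (.b 2 9 (.c [2, 5, 7, 9]) (.b 2 7 (.c [2, 5, 9, 7]) (.b 6 7 (.c [5, 6, 7, 9]) (.b 6
    9 (.c [5, 6, 9, 7]) (.b 4 7 (.b 4 9 (.c [4, 7, 5, 9]) (.i [0, 4, 6, 9])) (.i [0, 4, 6, 7]))))))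
    (.i [1, 3, 7, 9]))))) (.b 0 6 (.b 6 8 (.c [0, 3, 8, 6]) (.i [1, 5, 6, 8])) (.i [0, 4, 5, 6])))))
    (.b 1 8 (.b 2 7 (.b 3 7 (.c [0, 2, 7, 3]) (.b 4 7 (.c [1, 2, 7, 4]) (.b 7 8 (.c [1, 2, 7, 8])
    (.b 7 9 (.c [2, 5, 9, 7]) (.b 2 9 (.c [2, 7, 5, 9]) (.b 4 9 (.b 8 9 (.c [1, 4, 9, 8]) (.i [0, 7,
    8, 9])) (.i [0, 4, 7, 9]))))))) (.b 3 7 (.b 5 6 (.c [3, 6, 5, 7]) (.b 3 9 (.c [3, 7, 5, 9]) (.b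
    0 6 (.b 4 6 (.c [0, 1, 4, 6]) (.b 6 8 (.c [0, 1, 8, 6]) (.b 6 7 (.c [0, 3, 7, 6]) (.b 4 7 (.b 7
    8 (.c [1, 4, 7, 8]) (.i [2, 6, 7, 8])) (.i [2, 4, 6, 7]))))) (.b 4 6 (.b 6 8 (.c [1, 4, 6, 8])
    (.i [0, 5, 6, 8])) (.i [0, 4, 5, 6]))))) (.b 4 7 (.b 7 8 (.c [1, 4, 7, 8]) (.i [2, 3, 7, 8]))
    (.i [2, 3, 4, 7])))) (.i [1, 3, 5, 8])))) (.b 4 7 (.b 2 7 (.c [1, 2, 7, 4]) (.b 7 8 (.b 1 8 (.c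
    [1, 4, 7, 8]) (.b 1 7 (.c [1, 4, 8, 7]) (.b 3 7 (.b 4 6 (.c [3, 6, 4, 7]) (.b 6 8 (.c [3, 6, 8,
    7]) (.b 3 8 (.c [3, 7, 4, 8]) (.i [1, 3, 5, 8])))) (.i [1, 3, 5, 7])))) (.i [0, 5, 7, 8]))) (.i
    [0, 4, 5, 7])))) (.b 4 9 (.b 2 9 (.c [1, 2, 9, 4]) (.b 8 9 (.b 1 9 (.c [1, 4, 8, 9]) (.b 1 8 (.c
    [1, 4, 9, 8]) (.b 3 8 (.b 4 6 (.c [3, 6, 4, 8]) (.b 6 9 (.c [3, 6, 9, 8]) (.b 3 9 (.c [3, 8, 4,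
    9]) (.i [1, 3, 5, 9])))) (.i [1, 3, 5, 8])))) (.i [0, 5, 8, 9]))) (.i [0, 4, 5, 9])))) (.i [0,
    4, 5, 8])))))))))) (.b 2 3 (.b 0 6 (.c [0, 2, 3, 6]) (.b 0 5 (.c [0, 3, 2, 5]) (.b 5 6 (.c [2,
    3, 6, 5]) (.b 0 7 (.b 4 7 (.c [0, 1, 4, 7]) (.b 3 7 (.c [0, 2, 3, 7]) (.b 5 7 (.c [0, 2, 5, 7])
    (.b 2 7 (.c [0, 3, 2, 7]) (.b 6 7 (.c [0, 3, 6, 7]) (.b 1 7 (.b 0 4 (.c [0, 4, 1, 7]) (.b 4 6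
    (.b 4 5 (.b 1 9 (.b 2 9 (.c [0, 1, 9, 2]) (.b 3 9 (.c [0, 1, 9, 3]) (.b 7 9 (.c [0, 1, 9, 7])
    (.b 0 9 (.c [0, 7, 1, 9]) (.b 5 9 (.c [1, 4, 5, 9]) (.i [3, 5, 7, 9])))))) (.b 6 9 (.b 0 9 (.c
    [0, 3, 6, 9]) (.b 2 9 (.c [2, 3, 6, 9]) (.b 5 9 (.c [4, 5, 9, 6]) (.b 3 9 (.b 7 9 (.c [0, 3, 9,
    7]) (.b 4 9 (.c [3, 6, 4, 9]) (.i [2, 4, 7, 9]))) (.i [1, 3, 5, 9]))))) (.b 2 9 (.b 3 9 (.c [0,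
    2, 9, 3]) (.b 7 9 (.c [0, 2, 9, 7]) (.b 0 9 (.c [0, 3, 2, 9]) (.b 4 9 (.c [2, 5, 4, 9]) (.i [3,
    4, 7, 9]))))) (.i [1, 2, 6, 9])))) (.i [3, 4, 5, 7])) (.i [2, 4, 6, 7]))) (.i [1, 2, 6,
    7]))))))) (.b 0 8 (.b 4 8 (.c [0, 1, 4, 8]) (.b 3 8 (.c [0, 2, 3, 8]) (.b 5 8 (.c [0, 2, 5, 8])
    (.b 2 8 (.c [0, 3, 2, 8]) (.b 6 8 (.c [0, 3, 6, 8]) (.b 1 8 (.b 0 4 (.c [0, 4, 1, 8]) (.b 4 6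
    (.b 4 5 (.b 6 7 (.b 1 7 (.c [1, 4, 6, 7]) (.b 2 7 (.c [2, 3, 6, 7]) (.b 5 7 (.c [4, 5, 7, 6])
    (.b 3 7 (.b 7 8 (.c [0, 3, 7, 8]) (.b 4 7 (.c [3, 6, 4, 7]) (.i [2, 4, 7, 8]))) (.i [1, 3, 5,
    7]))))) (.b 5 7 (.b 1 7 (.c [1, 4, 5, 7]) (.b 3 7 (.c [2, 3, 7, 5]) (.b 2 7 (.b 7 8 (.c [0, 2,
    7, 8]) (.b 4 7 (.c [2, 5, 4, 7]) (.i [3, 4, 7, 8]))) (.i [1, 2, 6, 7])))) (.i [0, 5, 6, 7])))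
    (.i [3, 4, 5, 8])) (.i [2, 4, 6, 8]))) (.i [1, 2, 6, 8]))))))) (.b 0 9 (.b 4 9 (.c [0, 1, 4, 9])
    (.b 3 9 (.c [0, 2, 3, 9]) (.b 5 9 (.c [0, 2, 5, 9]) (.b 2 9 (.c [0, 3, 2, 9]) (.b 6 9 (.c [0, 3,
    6, 9]) (.b 1 9 (.b 0 4 (.c [0, 4, 1, 9]) (.b 4 6 (.b 4 5 (.b 6 7 (.b 1 7 (.c [1, 4, 6, 7]) (.b 2
    7 (.c [2, 3, 6, 7]) (.b 5 7 (.c [4, 5, 7, 6]) (.b 3 7 (.b 7 9 (.c [0, 3, 7, 9]) (.b 4 7 (.c [3,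
    6, 4, 7]) (.i [2, 4, 7, 9]))) (.i [1, 3, 5, 7]))))) (.b 5 7 (.b 1 7 (.c [1, 4, 5, 7]) (.b 3 7
    (.c [2, 3, 7, 5]) (.b 2 7 (.b 7 9 (.c [0, 2, 7, 9]) (.b 4 7 (.c [2, 5, 4, 7]) (.i [3, 4, 7,
    9]))) (.i [1, 2, 6, 7])))) (.i [0, 5, 6, 7]))) (.i [3, 4, 5, 9])) (.i [2, 4, 6, 9]))) (.i [1, 2,
    6, 9]))))))) (.b 5 8 (.b 3 8 (.c [2, 3, 8, 5]) (.b 2 7 (.b 1 7 (.c [0, 1, 7, 2]) (.b 3 7 (.c [0,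
    2, 7, 3]) (.b 6 7 (.c [2, 3, 6, 7]) (.b 7 8 (.c [2, 5, 8, 7]) (.b 5 7 (.b 2 8 (.c [2, 7, 5, 8])
    (.b 6 8 (.b 1 8 (.b 4 5 (.c [1, 4, 5, 8]) (.b 4 6 (.c [1, 4, 6, 8]) (.b 0 4 (.b 4 8 (.c [0, 1,
    8, 4]) (.b 4 7 (.c [0, 2, 7, 4]) (.i [3, 4, 7, 8]))) (.i [0, 4, 5, 6])))) (.i [1, 3, 7, 8])) (.i
    [0, 6, 7, 8]))) (.i [0, 5, 6, 7])))))) (.b 5 7 (.b 3 7 (.c [2, 3, 7, 5]) (.b 1 7 (.b 4 5 (.c [1,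
    4, 5, 7]) (.b 1 8 (.c [1, 7, 5, 8]) (.b 5 9 (.b 1 9 (.c [1, 7, 5, 9]) (.b 3 9 (.c [2, 3, 9, 5])
    (.b 8 9 (.b 2 9 (.c [2, 5, 8, 9]) (.b 2 8 (.c [2, 5, 9, 8]) (.b 7 8 (.c [5, 7, 8, 9]) (.b 7 9
    (.c [5, 7, 9, 8]) (.b 6 8 (.b 6 7 (.c [5, 7, 6, 8]) (.b 6 9 (.c [5, 8, 6, 9]) (.i [0, 6, 7,
    9]))) (.i [1, 2, 6, 8])))))) (.i [1, 3, 8, 9])))) (.b 6 9 (.b 2 9 (.c [2, 3, 6, 9]) (.b 4 6 (.b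
    0 4 (.c [0, 3, 6, 4]) (.b 6 7 (.c [1, 4, 6, 7]) (.b 1 9 (.c [1, 4, 6, 9]) (.b 4 9 (.b 7 9 (.c
    [1, 4, 9, 7]) (.b 3 9 (.c [3, 6, 4, 9]) (.i [1, 3, 5, 9]))) (.i [0, 4, 5, 9]))))) (.b 0 4 (.b 4
    7 (.c [0, 1, 7, 4]) (.b 6 7 (.b 1 9 (.c [1, 7, 6, 9]) (.b 6 8 (.c [5, 7, 6, 8]) (.b 2 8 (.b 4 8
    (.c [0, 2, 8, 4]) (.b 7 8 (.c [2, 5, 7, 8]) (.i [3, 4, 7, 8]))) (.i [1, 2, 6, 8])))) (.i [2, 4,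
    6, 7]))) (.i [0, 4, 5, 6])))) (.i [0, 5, 6, 9]))))) (.b 6 7 (.b 6 8 (.c [5, 7, 6, 8]) (.b 1 8
    (.b 2 8 (.c [0, 1, 8, 2]) (.b 4 5 (.c [1, 4, 5, 8]) (.b 6 9 (.b 2 9 (.c [2, 3, 6, 9]) (.b 5 9
    (.c [5, 7, 6, 9]) (.b 4 9 (.b 8 9 (.c [1, 4, 9, 8]) (.b 4 7 (.c [4, 7, 6, 9]) (.b 4 6 (.b 0 4
    (.c [0, 3, 6, 4]) (.b 1 9 (.c [1, 4, 6, 9]) (.b 3 9 (.c [3, 6, 4, 9]) (.i [1, 3, 5, 9])))) (.b 0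
    4 (.b 4 8 (.c [0, 1, 8, 4]) (.i [2, 4, 6, 8])) (.i [0, 4, 5, 6]))))) (.b 0 4 (.b 4 8 (.c [0, 1,
    8, 4]) (.b 4 6 (.c [0, 3, 6, 4]) (.i [2, 4, 6, 8]))) (.i [0, 4, 5, 9]))))) (.b 5 9 (.b 1 9 (.c
    [1, 8, 5, 9]) (.b 3 9 (.c [2, 3, 9, 5]) (.b 8 9 (.b 4 9 (.c [1, 4, 9, 8]) (.b 2 9 (.c [2, 5, 8,
    9]) (.i [1, 2, 6, 9]))) (.i [0, 6, 8, 9])))) (.i [0, 5, 6, 9]))))) (.b 2 8 (.b 7 8 (.c [2, 5, 7,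
    8]) (.i [1, 3, 7, 8])) (.i [1, 2, 6, 8])))) (.i [1, 2, 6, 7])))) (.b 6 7 (.b 5 9 (.b 3 9 (.c [2,
    3, 9, 5]) (.b 1 7 (.b 3 7 (.c [0, 1, 7, 3]) (.b 4 6 (.c [1, 4, 6, 7]) (.b 4 5 (.b 0 4 (.c [0, 2,
    5, 4]) (.b 1 8 (.c [1, 4, 5, 8]) (.b 1 9 (.c [1, 4, 5, 9]) (.b 8 9 (.b 2 9 (.c [2, 5, 8, 9]) (.b
    2 8 (.c [2, 5, 9, 8]) (.b 4 9 (.c [4, 5, 8, 9]) (.b 4 8 (.c [4, 5, 9, 8]) (.b 6 8 (.b 6 9 (.c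
    [5, 8, 6, 9]) (.i [0, 4, 6, 9])) (.i [0, 4, 6, 8])))))) (.i [1, 3, 8, 9]))))) (.b 0 4 (.b 4 7
    (.c [0, 1, 7, 4]) (.i [3, 4, 5, 7])) (.i [0, 4, 5, 6]))))) (.b 3 7 (.b 2 9 (.b 1 9 (.c [0, 1, 9,
    2]) (.b 6 9 (.c [2, 3, 6, 9]) (.b 7 9 (.c [2, 3, 7, 9]) (.b 8 9 (.c [2, 5, 8, 9]) (.b 2 8 (.c
    [2, 8, 5, 9]) (.b 6 8 (.b 7 8 (.c [3, 6, 8, 7]) (.i [0, 7, 8, 9])) (.i [0, 6, 8, 9]))))))) (.b 1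
    9 (.b 4 5 (.c [1, 4, 5, 9]) (.b 1 8 (.c [1, 8, 5, 9]) (.b 0 4 (.b 4 9 (.c [0, 1, 9, 4]) (.b 4 6
    (.c [0, 3, 6, 4]) (.b 4 7 (.c [0, 3, 7, 4]) (.b 6 9 (.b 7 9 (.c [3, 6, 9, 7]) (.i [2, 4, 7, 9]))
    (.i [2, 4, 6, 9]))))) (.b 4 6 (.b 6 9 (.c [1, 4, 6, 9]) (.b 4 7 (.c [3, 6, 4, 7]) (.i [0, 4, 5,
    7]))) (.i [0, 4, 5, 6]))))) (.b 6 9 (.b 7 9 (.c [3, 6, 9, 7]) (.i [1, 2, 7, 9])) (.i [1, 2, 6,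
    9])))) (.i [1, 3, 5, 7])))) (.b 6 9 (.b 2 9 (.c [2, 3, 6, 9]) (.b 7 9 (.b 3 9 (.c [3, 6, 7, 9])
    (.b 3 7 (.c [3, 6, 9, 7]) (.b 1 7 (.b 4 6 (.c [1, 4, 6, 7]) (.b 4 9 (.c [1, 4, 9, 7]) (.b 1 9
    (.c [1, 7, 6, 9]) (.i [1, 3, 5, 9])))) (.i [1, 3, 5, 7])))) (.i [0, 5, 7, 9]))) (.i [0, 5, 6,
    9]))) (.i [0, 5, 6, 7]))))) (.b 6 8 (.b 2 8 (.c [2, 3, 6, 8]) (.b 5 7 (.b 3 7 (.c [2, 3, 7, 5])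
    (.b 5 9 (.b 3 9 (.c [2, 3, 9, 5]) (.b 1 8 (.b 3 8 (.c [0, 1, 8, 3]) (.b 4 6 (.c [1, 4, 6, 8])
    (.b 4 5 (.b 0 4 (.c [0, 2, 5, 4]) (.b 1 7 (.c [1, 4, 5, 7]) (.b 1 9 (.c [1, 4, 5, 9]) (.b 7 9
    (.b 2 9 (.c [2, 5, 7, 9]) (.b 2 7 (.c [2, 5, 9, 7]) (.b 4 9 (.c [4, 5, 7, 9]) (.b 4 7 (.c [4, 5,
    9, 7]) (.b 6 7 (.b 6 9 (.c [5, 7, 6, 9]) (.i [0, 4, 6, 9])) (.i [0, 4, 6, 7])))))) (.i [1, 3, 7,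
    9]))))) (.b 0 4 (.b 4 8 (.c [0, 1, 8, 4]) (.i [3, 4, 5, 8])) (.i [0, 4, 5, 6]))))) (.b 3 8 (.b 2
    7 (.b 1 7 (.c [0, 1, 7, 2]) (.b 6 7 (.c [2, 3, 6, 7]) (.b 7 8 (.c [2, 3, 8, 7]) (.b 7 9 (.c [2,
    5, 9, 7]) (.b 2 9 (.c [2, 7, 5, 9]) (.b 6 9 (.b 8 9 (.c [3, 6, 9, 8]) (.i [0, 7, 8, 9])) (.i [0,
    6, 7, 9]))))))) (.b 1 7 (.b 4 5 (.c [1, 4, 5, 7]) (.b 1 9 (.c [1, 7, 5, 9]) (.b 2 9 (.b 6 9 (.c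
    [2, 3, 6, 9]) (.b 8 9 (.c [2, 3, 8, 9]) (.b 7 9 (.c [2, 5, 7, 9]) (.b 6 7 (.b 4 6 (.c [1, 4, 6,
    7]) (.b 7 8 (.c [3, 6, 7, 8]) (.i [0, 7, 8, 9]))) (.i [0, 6, 7, 9]))))) (.b 6 9 (.b 8 9 (.c [3,
    6, 9, 8]) (.i [1, 2, 8, 9])) (.i [1, 2, 6, 9]))))) (.b 6 7 (.b 7 8 (.c [3, 6, 7, 8]) (.i [1, 2,
    7, 8])) (.i [1, 2, 6, 7])))) (.i [1, 3, 5, 8])))) (.b 6 9 (.b 2 9 (.c [2, 3, 6, 9]) (.b 8 9 (.b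
    3 9 (.c [3, 6, 8, 9]) (.b 3 8 (.c [3, 6, 9, 8]) (.b 1 8 (.b 4 6 (.c [1, 4, 6, 8]) (.b 4 9 (.c
    [1, 4, 9, 8]) (.b 1 9 (.c [1, 8, 6, 9]) (.i [1, 3, 5, 9])))) (.i [1, 3, 5, 8])))) (.i [0, 5, 8,
    9]))) (.i [0, 5, 6, 9])))) (.b 6 7 (.b 2 7 (.c [2, 3, 6, 7]) (.b 7 8 (.b 3 8 (.c [3, 6, 7, 8])
    (.b 3 7 (.c [3, 6, 8, 7]) (.b 1 7 (.b 4 6 (.c [1, 4, 6, 7]) (.b 4 8 (.c [1, 4, 8, 7]) (.b 1 8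
    (.c [1, 7, 6, 8]) (.i [1, 3, 5, 8])))) (.i [1, 3, 5, 7])))) (.i [0, 5, 7, 8]))) (.i [0, 5, 6,
    7])))) (.i [0, 5, 6, 8]))))))))) (.b 1 8 (.b 2 8 (.c [0, 1, 8, 2]) (.b 3 8 (.c [0, 1, 8, 3]) (.b
    4 8 (.b 0 8 (.c [0, 1, 4, 8]) (.b 0 4 (.c [0, 1, 8, 4]) (.b 1 7 (.b 2 7 (.c [0, 1, 7, 2]) (.b 3
    7 (.c [0, 1, 7, 3]) (.b 7 8 (.c [1, 4, 8, 7]) (.i [2, 3, 7, 8])))) (.b 3 7 (.b 2 7 (.c [0, 2, 7,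
    3]) (.b 6 7 (.b 0 7 (.c [0, 3, 6, 7]) (.b 0 6 (.c [0, 3, 7, 6]) (.b 1 9 (.b 2 9 (.c [0, 1, 9,
    2]) (.b 3 9 (.c [0, 1, 9, 3]) (.b 8 9 (.c [1, 4, 8, 9]) (.i [2, 3, 8, 9])))) (.b 3 9 (.b 2 9 (.c
    [0, 2, 9, 3]) (.b 7 9 (.c [3, 6, 7, 9]) (.i [1, 2, 7, 9]))) (.b 2 9 (.b 5 9 (.b 0 9 (.c [0, 2,
    5, 9]) (.b 0 5 (.c [0, 2, 9, 5]) (.b 4 5 (.b 5 8 (.c [1, 4, 5, 8]) (.b 4 9 (.c [2, 5, 4, 9]) (.b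
    8 9 (.c [4, 5, 9, 8]) (.b 7 9 (.b 5 7 (.c [2, 5, 7, 9]) (.b 6 9 (.c [3, 6, 9, 7]) (.b 4 7 (.c
    [4, 5, 9, 7]) (.b 5 6 (.c [5, 6, 7, 9]) (.b 4 6 (.b 6 8 (.c [1, 4, 6, 8]) (.i [0, 5, 6, 8])) (.i
    [0, 4, 6, 9])))))) (.b 4 7 (.b 7 8 (.c [1, 4, 7, 8]) (.i [0, 7, 8, 9])) (.i [0, 4, 7, 9]))))))
    (.b 4 6 (.b 6 8 (.c [1, 4, 6, 8]) (.b 4 7 (.c [3, 6, 4, 7]) (.b 7 8 (.c [4, 6, 7, 8]) (.b 5 7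
    (.b 7 9 (.c [2, 5, 7, 9]) (.b 5 6 (.c [3, 6, 5, 7]) (.b 6 9 (.c [5, 7, 6, 9]) (.b 4 9 (.b 8 9
    (.c [1, 4, 9, 8]) (.i [0, 6, 8, 9])) (.i [0, 4, 7, 9]))))) (.i [0, 4, 5, 7]))))) (.b 5 6 (.b 6 9
    (.c [2, 5, 6, 9]) (.b 5 7 (.c [3, 6, 5, 7]) (.b 7 9 (.c [5, 6, 7, 9]) (.b 4 7 (.b 7 8 (.c [1, 4,
    7, 8]) (.b 6 8 (.c [4, 7, 6, 8]) (.b 4 9 (.b 8 9 (.c [1, 4, 9, 8]) (.i [0, 6, 8, 9])) (.i [0, 4,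
    6, 9])))) (.i [0, 4, 5, 7]))))) (.i [0, 4, 5, 6])))))) (.i [1, 3, 5, 9])) (.i [1, 2, 3, 9]))))))
    (.i [1, 2, 6, 7]))) (.b 2 7 (.b 5 7 (.b 0 7 (.c [0, 2, 5, 7]) (.b 0 5 (.c [0, 2, 7, 5]) (.b 1 9
    (.b 2 9 (.c [0, 1, 9, 2]) (.b 3 9 (.c [0, 1, 9, 3]) (.b 8 9 (.c [1, 4, 8, 9]) (.i [2, 3, 8,
    9])))) (.b 2 9 (.b 3 9 (.c [0, 2, 9, 3]) (.b 7 9 (.c [2, 5, 7, 9]) (.i [1, 3, 7, 9]))) (.b 3 9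
    (.b 6 9 (.b 0 9 (.c [0, 3, 6, 9]) (.b 0 6 (.c [0, 3, 9, 6]) (.b 5 6 (.b 6 7 (.c [2, 5, 6, 7])
    (.b 5 9 (.c [3, 6, 5, 9]) (.b 7 9 (.c [5, 6, 9, 7]) (.b 4 7 (.b 7 8 (.c [1, 4, 7, 8]) (.b 4 5
    (.c [2, 5, 4, 7]) (.b 4 6 (.c [4, 6, 5, 7]) (.b 5 8 (.c [4, 7, 5, 8]) (.b 4 9 (.b 8 9 (.c [1, 4,
    9, 8]) (.i [0, 5, 8, 9])) (.i [0, 4, 5, 9])))))) (.b 4 6 (.b 6 8 (.c [1, 4, 6, 8]) (.b 4 9 (.c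
    [3, 6, 4, 9]) (.i [0, 4, 7, 9]))) (.i [0, 4, 6, 7])))))) (.b 4 6 (.b 6 8 (.c [1, 4, 6, 8]) (.b 4
    9 (.c [3, 6, 4, 9]) (.b 8 9 (.c [4, 6, 9, 8]) (.b 5 8 (.b 4 5 (.c [1, 4, 5, 8]) (.b 7 8 (.c [2,
    5, 8, 7]) (.b 4 7 (.c [4, 7, 5, 8]) (.b 5 9 (.b 7 9 (.c [2, 5, 9, 7]) (.i [0, 4, 7, 9])) (.i [0,
    4, 5, 9]))))) (.i [0, 5, 6, 8]))))) (.b 4 5 (.b 5 8 (.c [1, 4, 5, 8]) (.b 4 7 (.c [2, 5, 4, 7])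
    (.b 7 8 (.c [4, 5, 7, 8]) (.b 6 7 (.b 7 9 (.c [3, 6, 7, 9]) (.b 5 9 (.c [5, 7, 6, 9]) (.b 4 9
    (.b 8 9 (.c [1, 4, 9, 8]) (.i [0, 5, 8, 9])) (.i [0, 4, 7, 9])))) (.i [0, 4, 6, 7]))))) (.i [0,
    4, 5, 6])))))) (.i [1, 2, 6, 9])) (.i [1, 2, 3, 9])))))) (.i [1, 3, 5, 7])) (.i [1, 2, 3,
    7])))))) (.i [2, 3, 4, 8])))) (.b 2 8 (.b 3 8 (.c [0, 2, 8, 3]) (.b 5 8 (.b 0 8 (.c [0, 2, 5,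
    8]) (.b 0 5 (.c [0, 2, 8, 5]) (.b 2 9 (.b 1 9 (.c [0, 1, 9, 2]) (.b 3 9 (.c [0, 2, 9, 3]) (.b 8
    9 (.c [2, 5, 8, 9]) (.i [1, 3, 8, 9])))) (.b 1 9 (.b 3 9 (.c [0, 1, 9, 3]) (.b 4 9 (.b 0 9 (.c
    [0, 1, 4, 9]) (.b 0 4 (.c [0, 1, 9, 4]) (.b 2 7 (.b 1 7 (.c [0, 1, 7, 2]) (.b 3 7 (.c [0, 2, 7,
    3]) (.b 7 8 (.c [2, 5, 8, 7]) (.i [1, 3, 7, 8])))) (.b 1 7 (.b 3 7 (.c [0, 1, 7, 3]) (.b 7 9 (.c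
    [1, 4, 9, 7]) (.i [2, 3, 7, 9]))) (.b 3 7 (.b 6 7 (.b 0 7 (.c [0, 3, 6, 7]) (.b 0 6 (.c [0, 3,
    7, 6]) (.b 4 6 (.b 6 9 (.c [1, 4, 6, 9]) (.b 4 7 (.c [3, 6, 4, 7]) (.b 7 9 (.c [4, 6, 7, 9]) (.b
    5 9 (.b 4 5 (.c [1, 4, 5, 9]) (.b 8 9 (.c [2, 5, 9, 8]) (.b 5 6 (.c [4, 6, 5, 9]) (.b 4 8 (.c
    [4, 8, 5, 9]) (.b 5 7 (.b 7 8 (.c [2, 5, 7, 8]) (.i [0, 4, 7, 8])) (.i [0, 4, 5, 7])))))) (.b 5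
    6 (.b 6 8 (.c [2, 5, 6, 8]) (.b 5 7 (.c [3, 6, 5, 7]) (.i [0, 5, 7, 9]))) (.i [0, 5, 6, 9]))))))
    (.b 4 8 (.b 8 9 (.c [1, 4, 8, 9]) (.b 4 5 (.c [2, 5, 4, 8]) (.b 5 9 (.c [4, 8, 5, 9]) (.b 5 6
    (.b 6 8 (.c [2, 5, 6, 8]) (.b 5 7 (.c [3, 6, 5, 7]) (.b 7 8 (.c [5, 6, 7, 8]) (.b 4 7 (.b 7 9
    (.c [1, 4, 7, 9]) (.i [0, 5, 7, 9])) (.i [0, 4, 5, 7]))))) (.i [0, 4, 5, 6]))))) (.b 6 8 (.b 5 6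
    (.c [2, 5, 6, 8]) (.b 7 8 (.c [3, 6, 8, 7]) (.b 5 7 (.c [5, 7, 6, 8]) (.b 4 5 (.b 5 9 (.c [1, 4,
    5, 9]) (.b 8 9 (.c [4, 5, 8, 9]) (.b 4 7 (.b 7 9 (.c [1, 4, 7, 9]) (.i [0, 5, 7, 9])) (.i [0, 4,
    7, 8])))) (.i [0, 4, 5, 6]))))) (.i [0, 4, 6, 8])))))) (.i [1, 2, 6, 7])) (.i [1, 2, 3, 7]))))))
    (.i [2, 3, 4, 9]))) (.b 3 9 (.b 6 9 (.b 0 9 (.c [0, 3, 6, 9]) (.b 0 6 (.c [0, 3, 9, 6]) (.b 2 7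
    (.b 1 7 (.c [0, 1, 7, 2]) (.b 3 7 (.c [0, 2, 7, 3]) (.b 7 8 (.c [2, 5, 8, 7]) (.i [1, 3, 7,
    8])))) (.b 3 7 (.b 1 7 (.c [0, 1, 7, 3]) (.b 7 9 (.c [3, 6, 9, 7]) (.i [1, 2, 7, 9]))) (.b 1 7
    (.b 4 7 (.b 0 7 (.c [0, 1, 4, 7]) (.b 0 4 (.c [0, 1, 7, 4]) (.b 6 8 (.b 5 6 (.c [2, 5, 6, 8])
    (.b 8 9 (.c [3, 6, 8, 9]) (.b 5 9 (.c [5, 8, 6, 9]) (.b 4 5 (.b 5 7 (.c [1, 4, 5, 7]) (.b 4 8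
    (.c [2, 5, 4, 8]) (.b 4 6 (.c [4, 5, 8, 6]) (.b 7 8 (.c [4, 5, 8, 7]) (.b 4 9 (.b 7 9 (.c [1, 4,
    9, 7]) (.i [0, 5, 7, 9])) (.i [0, 4, 8, 9])))))) (.b 4 6 (.b 6 7 (.c [1, 4, 6, 7]) (.b 4 9 (.c
    [3, 6, 4, 9]) (.i [0, 4, 5, 9]))) (.i [0, 4, 5, 6])))))) (.b 4 8 (.b 7 8 (.c [1, 4, 8, 7]) (.b 4
    5 (.c [2, 5, 4, 8]) (.b 5 7 (.c [4, 7, 5, 8]) (.b 6 7 (.b 4 6 (.c [1, 4, 6, 7]) (.b 7 9 (.c [3,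
    6, 7, 9]) (.b 4 9 (.c [4, 7, 6, 9]) (.b 5 6 (.b 5 9 (.c [3, 6, 5, 9]) (.i [0, 4, 5, 9])) (.i [0,
    4, 5, 6]))))) (.i [0, 6, 7, 8]))))) (.b 4 6 (.b 6 7 (.c [1, 4, 6, 7]) (.b 4 9 (.c [3, 6, 4, 9])
    (.b 7 9 (.c [4, 6, 9, 7]) (.b 8 9 (.b 5 9 (.c [2, 5, 9, 8]) (.b 5 6 (.c [5, 6, 9, 8]) (.b 4 5
    (.b 5 7 (.c [1, 4, 5, 7]) (.i [0, 5, 6, 7])) (.i [0, 4, 5, 9])))) (.i [0, 4, 8, 9]))))) (.i [0,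
    4, 6, 8])))))) (.i [2, 3, 4, 7])) (.i [1, 2, 3, 7])))))) (.i [1, 2, 6, 9])) (.i [1, 2, 3,
    9])))))) (.i [1, 3, 5, 8]))) (.b 3 8 (.b 6 8 (.b 0 8 (.c [0, 3, 6, 8]) (.b 0 6 (.c [0, 3, 8, 6])
    (.b 3 9 (.b 1 9 (.c [0, 1, 9, 3]) (.b 2 9 (.c [0, 2, 9, 3]) (.b 8 9 (.c [3, 6, 8, 9]) (.i [1, 2,
    8, 9])))) (.b 2 9 (.b 1 9 (.c [0, 1, 9, 2]) (.b 5 9 (.b 0 9 (.c [0, 2, 5, 9]) (.b 0 5 (.c [0, 2,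
    9, 5]) (.b 2 7 (.b 1 7 (.c [0, 1, 7, 2]) (.b 3 7 (.c [0, 2, 7, 3]) (.b 7 9 (.c [2, 5, 9, 7]) (.i
    [1, 3, 7, 9])))) (.b 3 7 (.b 1 7 (.c [0, 1, 7, 3]) (.b 7 8 (.c [3, 6, 8, 7]) (.i [1, 2, 7, 8])))
    (.b 1 7 (.b 4 7 (.b 0 7 (.c [0, 1, 4, 7]) (.b 0 4 (.c [0, 1, 7, 4]) (.b 5 8 (.b 8 9 (.c [2, 5,
    8, 9]) (.b 5 6 (.c [3, 6, 5, 8]) (.b 6 9 (.c [5, 8, 6, 9]) (.b 7 9 (.b 4 9 (.c [1, 4, 9, 7]) (.b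
    5 7 (.c [2, 5, 7, 9]) (.b 4 5 (.c [4, 5, 9, 7]) (.b 7 8 (.c [5, 8, 7, 9]) (.b 4 6 (.b 6 7 (.c
    [1, 4, 6, 7]) (.i [0, 5, 6, 7])) (.i [0, 4, 5, 6])))))) (.b 6 7 (.b 4 6 (.c [1, 4, 6, 7]) (.b 7
    8 (.c [3, 6, 7, 8]) (.i [0, 7, 8, 9]))) (.i [0, 6, 7, 9])))))) (.b 7 8 (.b 4 8 (.c [1, 4, 8, 7])
    (.b 6 7 (.c [3, 6, 7, 8]) (.b 4 6 (.c [4, 6, 8, 7]) (.b 4 5 (.b 5 7 (.c [1, 4, 5, 7]) (.b 4 9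
    (.c [2, 5, 4, 9]) (.b 7 9 (.c [4, 5, 9, 7]) (.b 6 9 (.b 5 6 (.c [2, 5, 6, 9]) (.i [0, 5, 6, 7]))
    (.i [0, 4, 6, 9]))))) (.i [0, 4, 5, 8]))))) (.b 5 7 (.b 4 5 (.c [1, 4, 5, 7]) (.b 7 9 (.c [2, 5,
    7, 9]) (.b 4 9 (.c [4, 7, 5, 9]) (.b 4 8 (.b 4 6 (.c [3, 6, 4, 8]) (.b 6 7 (.c [4, 7, 6, 8]) (.b
    5 6 (.b 6 9 (.c [2, 5, 6, 9]) (.i [0, 4, 6, 9])) (.i [0, 4, 5, 6])))) (.i [0, 4, 5, 8]))))) (.i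
    [0, 5, 7, 8])))))) (.i [2, 3, 4, 7])) (.i [1, 2, 3, 7])))))) (.i [1, 3, 5, 9]))) (.b 1 9 (.b 4 9
    (.b 0 9 (.c [0, 1, 4, 9]) (.b 0 4 (.c [0, 1, 9, 4]) (.b 3 7 (.b 1 7 (.c [0, 1, 7, 3]) (.b 2 7
    (.c [0, 2, 7, 3]) (.b 7 8 (.c [3, 6, 8, 7]) (.i [1, 2, 7, 8])))) (.b 1 7 (.b 2 7 (.c [0, 1, 7,
    2]) (.b 7 9 (.c [1, 4, 9, 7]) (.i [2, 3, 7, 9]))) (.b 2 7 (.b 5 7 (.b 0 7 (.c [0, 2, 5, 7]) (.b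
    0 5 (.c [0, 2, 7, 5]) (.b 7 8 (.b 5 8 (.c [2, 5, 8, 7]) (.b 6 7 (.c [3, 6, 7, 8]) (.b 5 6 (.c
    [5, 6, 8, 7]) (.b 4 5 (.b 5 9 (.c [1, 4, 5, 9]) (.b 4 7 (.c [2, 5, 4, 7]) (.b 4 8 (.c [4, 5, 7,
    8]) (.b 7 9 (.c [4, 5, 7, 9]) (.b 4 6 (.b 6 9 (.c [1, 4, 6, 9]) (.i [0, 5, 6, 9])) (.i [0, 4, 6,
    7])))))) (.b 4 6 (.b 6 9 (.c [1, 4, 6, 9]) (.b 4 8 (.c [3, 6, 4, 8]) (.i [0, 4, 5, 8]))) (.i [0,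
    4, 5, 6])))))) (.b 8 9 (.b 4 8 (.c [1, 4, 8, 9]) (.b 6 9 (.c [3, 6, 9, 8]) (.b 4 6 (.c [4, 6, 8,
    9]) (.b 4 7 (.b 7 9 (.c [1, 4, 7, 9]) (.b 4 5 (.c [2, 5, 4, 7]) (.b 5 9 (.c [4, 7, 5, 9]) (.b 5
    6 (.b 6 7 (.c [2, 5, 6, 7]) (.i [0, 6, 7, 9])) (.i [0, 4, 5, 6]))))) (.i [0, 4, 7, 8]))))) (.b 7
    9 (.b 4 7 (.c [1, 4, 7, 9]) (.b 5 9 (.c [2, 5, 9, 7]) (.b 4 5 (.c [4, 5, 7, 9]) (.b 4 8 (.b 4 6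
    (.c [3, 6, 4, 8]) (.b 6 9 (.c [4, 8, 6, 9]) (.b 5 6 (.b 6 7 (.c [2, 5, 6, 7]) (.i [0, 4, 6, 7]))
    (.i [0, 4, 5, 6])))) (.i [0, 4, 7, 8]))))) (.i [0, 7, 8, 9])))))) (.i [1, 3, 5, 7])) (.i [1, 2,
    3, 7])))))) (.i [2, 3, 4, 9])) (.i [1, 2, 3, 9])))))) (.i [1, 2, 6, 8])) (.i [1, 2, 3,
    8])))))))))))),
  by decide +kernel⟩

end Vale.Agent.P048
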